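import Mathlib

-- ▼ part R022/CntFilt
section

/-! Row 22, stage-1 count (helper294), part 1: filtration lemmas for dimensions of spaces of functions. -/

set_option autoImplicit false

namespace Crest.Agent.R022.Cnt

open Module

variable {F : Type*} [Field F]

section Filt

variable {R S : Type*} [CommRing R] [IsDomain R] [Algebra F R] [AddCommGroup S] [Module F S]

theorem finite_comap_mul (V : Submodule F R) [FiniteDimensional F V] {π : R} (hπ : π ≠ 0) :
    FiniteDimensional F (V.comap (LinearMap.mulLeft F π)) := by
  have hinj : Function.Injective (LinearMap.mulLeft F π) := by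
    intro a b h
    simpa [hπ] using h
  exact Module.Finite.of_injective
    ((LinearMap.mulLeft F π).restrict (p := V.comap (LinearMap.mulLeft F π)) (q := V)
      (fun x hx => hx)) (by
      intro a b h
      apply Subtype.ext
      apply hinj
      have := congrArg Subtype.val h
      simpa using this)

/-- one step of the filtration by powers of `π` -/
theorem finrank_step (V : Submodule F R) [FiniteDimensional F V] {π : R} (hπ : π ≠ 0)
    (ψ : R →ₗ[F] S) (hψ : ∀ y, ψ (π * y) = 0) :
    finrank F (V.map ψ) + finrank F (V.comap (LinearMap.mulLeft F π)) ≤ finrank F V := by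
  have hinj : Function.Injective (LinearMap.mulLeft F π) := by
    intro a b h
    simpa [hπ] using h
  set φ : V →ₗ[F] S := ψ.comp V.subtype with hφ
  have hrk := φ.finrank_range_add_finrank_ker
  have hran : LinearMap.range φ = V.map ψ := by
    rw [hφ, LinearMap.range_comp, Submodule.range_subtype]
  rw [hran] at hrk
  let g : V.comap (LinearMap.mulLeft F π) →ₗ[F] LinearMap.ker φ :=
    LinearMap.codRestrict (LinearMap.ker φ)
      ((LinearMap.mulLeft F π).restrict (p := V.comap (LinearMap.mulLeft F π)) (q := V)
        (fun x hx => hx)) (by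
        intro c
        rw [LinearMap.mem_ker]
        exact hψ _)
  have hg : Function.Injective g := by
    intro a b h
    apply Subtype.ext
    apply hinj
    have h' : ((g a : V) : R) = ((g b : V) : R) := by rw [h]
    exact h'
  have := LinearMap.finrank_le_finrank_of_injective hg
  omega

/-- the chain of the filtration by powers of `π` -/
theorem finrank_chain (V : Submodule F R) [FiniteDimensional F V] {π : R} (hπ : π ≠ 0)
    (ψ : R →ₗ[F] S) (hψ : ∀ y, ψ (π * y) = 0) (E : ℕ) :
    (∑ e ∈ Finset.range E, finrank F ((V.comap (LinearMap.mulLeft F (π ^ e))).map ψ)) +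
      finrank F (V.comap (LinearMap.mulLeft F (π ^ E))) ≤ finrank F V := by
  induction E with
  | zero =>
    have h : V.comap (LinearMap.mulLeft F (π ^ 0)) = V := by
      ext x
      simp
    rw [h]
    simp
  | succ E ih =>
    rw [Finset.sum_range_succ]
    have hfd : FiniteDimensional F (V.comap (LinearMap.mulLeft F (π ^ E))) :=
      finite_comap_mul V (pow_ne_zero E hπ)
    have h1 := finrank_step (V.comap (LinearMap.mulLeft F (π ^ E))) hπ ψ hψ
    have h2 : (V.comap (LinearMap.mulLeft F (π ^ E))).comap (LinearMap.mulLeft F π) =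
        V.comap (LinearMap.mulLeft F (π ^ (E + 1))) := by
      ext x
      simp [pow_succ]
    rw [h2] at h1
    omega

end Filt

end Crest.Agent.R022.Cnt
end

-- ▼ part R022/CntStep

/-! Row 22, stage-1 count (helper294), part 2: the span of the products
`z * ∏ α_i ^ (k (j - f_i))`, `∑ f_i = j`, and the recursion for its dimension. -/

set_option autoImplicit false

namespace Crest.Agent.R022.Cnt

open Module Finset Polynomial

variable {F : Type*} [Field F] {ι : Type*} [DecidableEq ι]

/-- `Wsp k Z α I j m` is the span of all `z * ∏_{i ∈ I} α_i ^ (k (j - f_i))` with `z ∈ Z m` and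
`∑_{i ∈ I} f_i = j`. -/
noncomputable def Wsp {R : Type*} [CommRing R] [Algebra F R] (k : ℕ) (Z : ℕ → Submodule F R)
    (α : ι → R) (I : Finset ι) (j m : ℕ) : Submodule F R :=
  (I.piAntidiag j).sup
    fun f => (Z m).map (LinearMap.mulLeft F (∏ i ∈ I, α i ^ (k * (j - f i))))

theorem mem_Wsp {R : Type*} [CommRing R] [Algebra F R] {k : ℕ} {Z : ℕ → Submodule F R}
    {α : ι → R} {I : Finset ι} {j m : ℕ} {f : ι → ℕ} (hf : f ∈ I.piAntidiag j) {z : R}
    (hz : z ∈ Z m) : (∏ i ∈ I, α i ^ (k * (j - f i))) * z ∈ Wsp k Z α I j m := by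
  have h : (Z m).map (LinearMap.mulLeft F (∏ i ∈ I, α i ^ (k * (j - f i)))) ≤
      Wsp k Z α I j m := Finset.le_sup (f := fun f : ι → ℕ =>
        (Z m).map (LinearMap.mulLeft F (∏ i ∈ I, α i ^ (k * (j - f i))))) hf
  exact h ⟨z, hz, rfl⟩

theorem Wsp_le {R : Type*} [CommRing R] [Algebra F R] {k : ℕ} {Z : ℕ → Submodule F R}
    {α : ι → R} {I : Finset ι} {j m : ℕ} {V : Submodule F R}
    (h : ∀ f ∈ I.piAntidiag j, ∀ z ∈ Z m, (∏ i ∈ I, α i ^ (k * (j - f i))) * z ∈ V) :
    Wsp k Z α I j m ≤ V := by
  refine Finset.sup_le ?_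
  intro f hf
  rintro _ ⟨z, hz, rfl⟩
  exact h f hf z hz

instance Wsp_finite {R : Type*} [CommRing R] [Algebra F R] (k : ℕ) (Z : ℕ → Submodule F R)
    (α : ι → R) (I : Finset ι) (j m : ℕ) [FiniteDimensional F (Z m)] :
    FiniteDimensional F (Wsp k Z α I j m) := by
  unfold Wsp
  exact Submodule.finiteDimensional_finset_sup _ _

/-- the affine forms `u_i (X + a_i)` -/
noncomputable def frm {S : Type*} [CommRing S] [Algebra F S] (u : ι → F) (a : ι → S) (i : ι) :
    S[X] := C (algebraMap F S (u i)) * (X + C (a i))

/-- the restricted forms `u_i (a_i - a_{i₀})` -/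
noncomputable def frm' {S : Type*} [CommRing S] [Algebra F S] (u : ι → F) (a : ι → S)
    (i₀ i : ι) : S := algebraMap F S (u i) * (a i - a i₀)

/-- restriction to the line `i₀` -/
noncomputable def ev {S : Type*} [CommRing S] [Algebra F S] (a : ι → S) (i₀ : ι) :
    S[X] →ₗ[F] S := (Polynomial.leval (-(a i₀))).restrictScalars F

omit [DecidableEq ι] in
theorem ev_apply {S : Type*} [CommRing S] [Algebra F S] (a : ι → S) (i₀ : ι) (p : S[X]) :
    ev (F := F) a i₀ p = p.eval (-(a i₀)) := rfl

theorem sum_range_mul_le (k j : ℕ) (g : ℕ → ℕ) :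
    ∑ e ∈ range (k * j), g e = ∑ l ∈ range j, ∑ s ∈ range k, g (k * l + s) := by
  induction j with
  | zero => simp
  | succ j ih =>
    rw [Finset.sum_range_succ, ← ih, Nat.mul_succ, Finset.sum_range_add]

section step

variable {S : Type*} [CommRing S] [IsDomain S] [Algebra F S]

theorem step_bound {k j m : ℕ} {Z : ℕ → Submodule F S[X]} {Z' : ℕ → Submodule F S}
    {u : ι → F} {a : ι → S} {I : Finset ι} {i₀ : ι} (hi₀ : i₀ ∉ I)
    (hfin : ∀ m, FiniteDimensional F (Z m)) (hfin' : ∀ m, FiniteDimensional F (Z' m))
    (hC : ∀ m, ∀ z ∈ Z' m, (C z : S[X]) ∈ Z m)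
    (hmul : ∀ m, ∀ z ∈ Z m, frm u a i₀ * z ∈ Z (m + 1))
    (hu : ∀ i, u i ≠ 0) (ha : ∀ i ∈ I, a i ≠ a i₀)
    (D' : ℕ → ℕ → ℕ)
    (hD' : ∀ l m', D' l m' ≤ finrank F (Wsp k Z' (frm' u a i₀) I l m')) :
    finrank F (Wsp k Z (frm u a) I j m) +
      ∑ l ∈ range j, ∑ s ∈ range (min k (m + 1)), D' l (m - s) ≤
      finrank F (Wsp k Z (frm u a) (insert i₀ I) j m) := by
  classical
  have hfinm := hfin m
  set V := Wsp k Z (frm u a) (insert i₀ I) j m with hV
  set π : S[X] := frm u a i₀ with hπdef
  have hinjS : Function.Injective (algebraMap F S) := (algebraMap F S).injective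
  have hCu : ∀ i, (C (algebraMap F S (u i)) : S[X]) ≠ 0 := by
    intro i
    rw [Ne, Polynomial.C_eq_zero]
    intro h
    exact hu i (hinjS (by rw [h, map_zero]))
  have hπ : π ≠ 0 := mul_ne_zero (hCu i₀) (Polynomial.X_add_C_ne_zero _)
  have hψ : ∀ y, ev (F := F) a i₀ (π * y) = 0 := by
    intro y
    rw [ev_apply, hπdef, frm]
    simp
  have hchain := finrank_chain V hπ (ev (F := F) a i₀) hψ (k * j)
  have hα' : ∀ i ∈ I, frm' (F := F) u a i₀ i ≠ 0 := by
    intro i hi
    refine mul_ne_zero ?_ (sub_ne_zero.mpr (ha i hi))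
    intro h
    exact hu i (hinjS (by rw [h, map_zero]))
  have hevf : ∀ i, (frm u a i).eval (-(a i₀)) = frm' (F := F) u a i₀ i := by
    intro i
    simp [frm, frm']
    ring_nf
    tauto
  -- powers of π raise the degree
  have hpow : ∀ s : ℕ, ∀ m', ∀ z ∈ Z m', π ^ s * z ∈ Z (m' + s) := by
    intro s
    induction s with
    | zero => intro m' z hz; simpa using hz
    | succ s ih =>
      intro m' z hz
      have h1 := hmul _ _ (ih m' z hz)
      have h2 : π ^ (s + 1) * z = π * (π ^ s * z) := by ring
      rw [h2]
      exact h1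
  -- last term
  have hlast : finrank F (Wsp k Z (frm u a) I j m) ≤
      finrank F (V.comap (LinearMap.mulLeft F (π ^ (k * j)))) := by
    have hfd := finite_comap_mul V (pow_ne_zero (k * j) hπ)
    refine Submodule.finrank_mono (Wsp_le ?_)
    intro f hf z hz
    rw [Submodule.mem_comap, LinearMap.mulLeft_apply]
    rw [Finset.mem_piAntidiag] at hf
    have hf0 : f i₀ = 0 := by
      by_contra h
      exact hi₀ (hf.2 i₀ h)
    have hmem : f ∈ (insert i₀ I).piAntidiag j := by
      rw [Finset.mem_piAntidiag]
      refine ⟨?_, fun i hi => Finset.mem_insert_of_mem (hf.2 i hi)⟩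
      rw [Finset.sum_insert hi₀, hf0, zero_add]
      exact hf.1
    have := mem_Wsp (F := F) (k := k) (Z := Z) (α := frm u a) hmem hz
    rw [Finset.prod_insert hi₀, hf0, Nat.sub_zero] at this
    rw [← mul_assoc]
    exact this
  -- middle terms
  have hmid : ∀ l ∈ range j, ∀ s ∈ range (min k (m + 1)), D' l (m - s) ≤
      finrank F ((V.comap (LinearMap.mulLeft F (π ^ (k * l + s)))).map (ev (F := F) a i₀)) := by
    intro l hl s hs
    rw [Finset.mem_range] at hl hs
    have hsm : s ≤ m := by omega
    refine (hD' l (m - s)).trans ?_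
    have hfd := finite_comap_mul V (pow_ne_zero (k * l + s) hπ)
    set c : S := ∏ i ∈ I, frm' (F := F) u a i₀ i ^ (k * (j - l)) with hc
    have hc0 : c ≠ 0 := Finset.prod_ne_zero_iff.mpr fun i hi => pow_ne_zero _ (hα' i hi)
    have hsub : Wsp k Z' (frm' u a i₀) I l (m - s) ≤
        ((V.comap (LinearMap.mulLeft F (π ^ (k * l + s)))).map (ev (F := F) a i₀)).comap
          (LinearMap.mulLeft F c) := by
      refine Wsp_le ?_
      intro f hf z' hz'
      rw [Submodule.mem_comap, LinearMap.mulLeft_apply, Submodule.mem_map]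
      rw [Finset.mem_piAntidiag] at hf
      have hf0 : f i₀ = 0 := by
        by_contra h
        exact hi₀ (hf.2 i₀ h)
      have hfl : ∀ i ∈ I, f i ≤ l := by
        intro i hi
        rw [← hf.1]
        exact Finset.single_le_sum (f := f) (fun _ _ => Nat.zero_le _) hi
      refine ⟨(∏ i ∈ I, frm u a i ^ (k * (j - f i))) * C z', ?_, ?_⟩
      · rw [Submodule.mem_comap, LinearMap.mulLeft_apply]
        -- new exponent vector
        have hmem : (Function.update f i₀ (j - l)) ∈ (insert i₀ I).piAntidiag j := by
          rw [Finset.mem_piAntidiag]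
          constructor
          · rw [Finset.sum_insert hi₀, Function.update_self]
            have : ∑ x ∈ I, Function.update f i₀ (j - l) x = ∑ x ∈ I, f x := by
              refine Finset.sum_congr rfl fun x hx => ?_
              rw [Function.update_of_ne]
              intro h
              exact hi₀ (h ▸ hx)
            rw [this, hf.1]
            omega
          · intro i hi
            by_cases h : i = i₀
            · rw [h]; exact Finset.mem_insert_self _ _
            · rw [Function.update_of_ne h] at hi
              exact Finset.mem_insert_of_mem (hf.2 i hi)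
        have hz : π ^ s * C z' ∈ Z m := by
          have := hpow s (m - s) _ (hC _ z' hz')
          rwa [Nat.sub_add_cancel hsm] at this
        have := mem_Wsp (F := F) (k := k) (Z := Z) (α := frm u a) hmem hz
        rw [Finset.prod_insert hi₀, Function.update_self] at this
        have h2 : ∏ x ∈ I, frm u a x ^ (k * (j - Function.update f i₀ (j - l) x)) =
            ∏ x ∈ I, frm u a x ^ (k * (j - f x)) := by
          refine Finset.prod_congr rfl fun x hx => ?_
          rw [Function.update_of_ne]
          intro h
          exact hi₀ (h ▸ hx)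
        rw [h2] at this
        have h3 : j - (j - l) = l := by omega
        rw [h3, ← hπdef] at this
        have h4 : π ^ (k * l + s) * ((∏ i ∈ I, frm u a i ^ (k * (j - f i))) * C z') =
            π ^ (k * l) * (∏ x ∈ I, frm u a x ^ (k * (j - f x))) * (π ^ s * C z') := by
          rw [pow_add]; ring
        rw [h4]
        exact this
      · rw [ev_apply, Polynomial.eval_mul, Polynomial.eval_C, Polynomial.eval_prod]
        have h5 : ∏ i ∈ I, (frm u a i ^ (k * (j - f i))).eval (-(a i₀)) =
            c * ∏ i ∈ I, frm' (F := F) u a i₀ i ^ (k * (l - f i)) := by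
          rw [hc, ← Finset.prod_mul_distrib]
          refine Finset.prod_congr rfl fun i hi => ?_
          rw [Polynomial.eval_pow, hevf, ← pow_add]
          congr 1
          have := hfl i hi
          rw [← Nat.mul_add]
          congr 1
          omega
        rw [h5, mul_assoc]
    have hinj : Function.Injective (LinearMap.mulLeft F c) := by
      intro x y h
      simpa [hc0] using h
    have hfd' : FiniteDimensional F (Z' (m - s)) := hfin' _
    have := LinearMap.finrank_le_finrank_of_injective
      (f := (LinearMap.mulLeft F c).restrict (p := Wsp k Z' (frm' u a i₀) I l (m - s))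
        (q := (V.comap (LinearMap.mulLeft F (π ^ (k * l + s)))).map (ev (F := F) a i₀))
        (fun x hx => hsub hx)) (by
        intro x y h
        apply Subtype.ext
        apply hinj
        have := congrArg Subtype.val h
        simpa using this)
    exact this
  have hmid2 : ∑ l ∈ range j, ∑ s ∈ range (min k (m + 1)), D' l (m - s) ≤
      ∑ e ∈ range (k * j),
        finrank F ((V.comap (LinearMap.mulLeft F (π ^ e))).map (ev (F := F) a i₀)) := by
    rw [sum_range_mul_le]
    refine Finset.sum_le_sum fun l hl => ?_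
    refine (Finset.sum_le_sum (hmid l hl)).trans ?_
    refine Finset.sum_le_sum_of_subset ?_
    intro s hs
    rw [Finset.mem_range] at *
    omega
  omega

end step

end Crest.Agent.R022.Cnt
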