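import Mathlib
import Crest.Agent.R022.CntStep

-- ▼ part R022/CntLift
section

/-! Row 22, stage-1 count (helper294), part 3: degree filtration `Zup`, base case, lifting of the
dimension bound from `S` to `S[X]`. -/

set_option autoImplicit false

namespace Crest.Agent.R022.Cnt

open Module Finset Polynomial

variable {F : Type*} [Field F] {ι : Type*} [DecidableEq ι]

section Zup

variable {S : Type*} [CommRing S] [Algebra F S]

/-- polynomials `∑ z_c X^c` with `z_c ∈ Z' (m - c)`, `c ≤ m` -/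
def Zup (Z' : ℕ → Submodule F S) (m : ℕ) : Submodule F S[X] where
  carrier := {p | ∀ c, (c ≤ m → p.coeff c ∈ Z' (m - c)) ∧ (m < c → p.coeff c = 0)}
  add_mem' := by
    intro p q hp hq c
    refine ⟨fun h => ?_, fun h => ?_⟩
    · rw [Polynomial.coeff_add]
      exact add_mem ((hp c).1 h) ((hq c).1 h)
    · rw [Polynomial.coeff_add, (hp c).2 h, (hq c).2 h, add_zero]
  zero_mem' := by
    intro c
    refine ⟨fun h => ?_, fun h => ?_⟩
    · rw [Polynomial.coeff_zero]
      exact zero_mem _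
    · rw [Polynomial.coeff_zero]
  smul_mem' := by
    intro r p hp c
    refine ⟨fun h => ?_, fun h => ?_⟩
    · rw [Polynomial.coeff_smul]
      exact Submodule.smul_mem _ _ ((hp c).1 h)
    · rw [Polynomial.coeff_smul, (hp c).2 h, smul_zero]

theorem mem_Zup {Z' : ℕ → Submodule F S} {m : ℕ} {p : S[X]} :
    p ∈ Zup Z' m ↔ ∀ c, (c ≤ m → p.coeff c ∈ Z' (m - c)) ∧ (m < c → p.coeff c = 0) := Iff.rfl

/-- coefficients -/
noncomputable def ZupEquiv (Z' : ℕ → Submodule F S) (m : ℕ) :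
    Zup Z' m ≃ₗ[F] ((c : Fin (m + 1)) → Z' (m - c)) where
  toFun p c := ⟨(p : S[X]).coeff c, ((mem_Zup.1 p.2) c).1 (Nat.lt_succ_iff.1 c.2)⟩
  map_add' p q := by
    funext c
    apply Subtype.ext
    simp
  map_smul' r p := by
    funext c
    apply Subtype.ext
    simp
  invFun g := ⟨∑ c : Fin (m + 1), Polynomial.monomial (c : ℕ) (g c : S), by
    rw [mem_Zup]
    intro c
    refine ⟨fun h => ?_, fun h => ?_⟩
    · rw [Polynomial.finsetSum_coeff]
      rw [Finset.sum_eq_single (⟨c, Nat.lt_succ_iff.2 h⟩ : Fin (m + 1))]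
      · simp
      · intro b _ hb
        rw [Polynomial.coeff_monomial, if_neg]
        intro hbc
        exact hb (Fin.ext hbc)
      · intro h'
        exact absurd (Finset.mem_univ _) h'
    · rw [Polynomial.finsetSum_coeff]
      refine Finset.sum_eq_zero fun b _ => ?_
      rw [Polynomial.coeff_monomial, if_neg]
      intro hbc
      have := b.2
      omega⟩
  left_inv p := by
    apply Subtype.ext
    ext c
    simp only [Polynomial.finsetSum_coeff, Polynomial.coeff_monomial]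
    by_cases h : c ≤ m
    · rw [Finset.sum_eq_single (⟨c, Nat.lt_succ_iff.2 h⟩ : Fin (m + 1))]
      · simp
      · intro b _ hb
        rw [if_neg]
        intro hbc
        exact hb (Fin.ext hbc)
      · intro h'
        exact absurd (Finset.mem_univ _) h'
    · rw [((mem_Zup.1 p.2) c).2 (by omega)]
      refine Finset.sum_eq_zero fun b _ => ?_
      rw [if_neg]
      intro hbc
      have := b.2
      omega
  right_inv g := by
    funext c
    apply Subtype.ext
    simp only [Polynomial.finsetSum_coeff, Polynomial.coeff_monomial]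
    rw [Finset.sum_eq_single c]
    · simp
    · intro b _ hb
      rw [if_neg]
      intro hbc
      exact hb (Fin.ext hbc)
    · intro h'
      exact absurd (Finset.mem_univ _) h'

theorem Zup_finite {Z' : ℕ → Submodule F S} (h : ∀ m, FiniteDimensional F (Z' m)) (m : ℕ) :
    FiniteDimensional F (Zup Z' m) :=
  Module.Finite.equiv (ZupEquiv Z' m).symm

theorem finrank_Zup {Z' : ℕ → Submodule F S} (h : ∀ m, FiniteDimensional F (Z' m)) (m : ℕ) :
    finrank F (Zup Z' m) = ∑ c ∈ range (m + 1), finrank F (Z' (m - c)) := by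
  rw [(ZupEquiv Z' m).finrank_eq, Module.finrank_pi_fintype, Finset.sum_range]

theorem C_mem_Zup {Z' : ℕ → Submodule F S} {m : ℕ} {z : S} (hz : z ∈ Z' m) :
    (C z : S[X]) ∈ Zup Z' m := by
  rw [mem_Zup]
  intro c
  rw [Polynomial.coeff_C]
  split_ifs with h
  · subst h
    exact ⟨fun _ => by simpa using hz, fun h => absurd h (Nat.not_lt_zero _)⟩
  · exact ⟨fun _ => zero_mem _, fun _ => rfl⟩

omit [DecidableEq ι] in
theorem frm_mul_mem_Zup {Z' : ℕ → Submodule F S} {m : ℕ} {u : ι → F} {a : ι → S} {i : ι}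
    (ha : ∀ m, ∀ z ∈ Z' m, a i * z ∈ Z' (m + 1)) {z : S[X]}
    (hz : z ∈ Zup Z' m) : frm u a i * z ∈ Zup Z' (m + 1) := by
  have key : (X + C (a i)) * z ∈ Zup Z' (m + 1) := by
    rw [mem_Zup] at hz ⊢
    intro c
    rw [add_mul, Polynomial.coeff_add, Polynomial.coeff_C_mul]
    rcases c with _ | c
    · refine ⟨fun _ => ?_, fun h => absurd h (Nat.not_lt_zero _)⟩
      rw [Polynomial.coeff_X_mul_zero, zero_add]
      have := ha _ _ ((hz 0).1 (Nat.zero_le _))
      simpa using this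
    · rw [Polynomial.coeff_X_mul]
      refine ⟨fun h => ?_, fun h => ?_⟩
      · have h1 : z.coeff c ∈ Z' (m + 1 - (c + 1)) := by
          have := (hz c).1 (by omega)
          rwa [show m + 1 - (c + 1) = m - c by omega]
        refine add_mem h1 ?_
        by_cases hc : c + 1 ≤ m
        · have := ha _ _ ((hz (c + 1)).1 hc)
          rwa [show m + 1 - (c + 1) = m - (c + 1) + 1 by omega]
        · rw [(hz (c + 1)).2 (by omega), mul_zero]
          exact zero_mem _
      · rw [(hz c).2 (by omega), (hz (c + 1)).2 (by omega), mul_zero, add_zero]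
  have h2 : frm u a i * z = (u i) • ((X + C (a i)) * z) := by
    rw [frm, mul_assoc, Algebra.smul_def]
    rfl
  rw [h2]
  exact Submodule.smul_mem _ _ key

end Zup

theorem Wsp_congr {R : Type*} [CommRing R] [Algebra F R] {k : ℕ} {Z : ℕ → Submodule F R}
    {α α' : ι → R} {I : Finset ι} (h : ∀ i ∈ I, α i = α' i) (j m : ℕ) :
    Wsp k Z α I j m = Wsp k Z α' I j m := by
  unfold Wsp
  refine Finset.sup_congr rfl fun f _ => ?_
  have : ∏ i ∈ I, α i ^ (k * (j - f i)) = ∏ i ∈ I, α' i ^ (k * (j - f i)) :=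
    Finset.prod_congr rfl fun i hi => by rw [h i hi]
  rw [this]

theorem Z_le_Wsp {R : Type*} [CommRing R] [Algebra F R] {k : ℕ} {Z : ℕ → Submodule F R}
    {α : ι → R} {i₁ : ι} (j m : ℕ) : Z m ≤ Wsp k Z α {i₁} j m := by
  intro z hz
  have hmem : (Pi.single i₁ j : ι → ℕ) ∈ ({i₁} : Finset ι).piAntidiag j := by
    rw [Finset.mem_piAntidiag]
    constructor
    · simp
    · intro i hi
      by_contra h
      rw [Finset.mem_singleton] at h
      exact hi (Pi.single_eq_of_ne h _)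
  have := mem_Wsp (F := F) (k := k) (α := α) hmem hz
  simpa using this

/-- the recursion for the dimension bound -/
def DR (k : ℕ) (D : ℕ → ℕ → ℕ → ℕ) (z : ℕ → ℕ) (c j m : ℕ) : ℕ :=
  z m + ∑ c' ∈ range c, ∑ l ∈ range j, ∑ s ∈ range (min k (m + 1)), D c' l (m - s)

theorem DR_succ (k : ℕ) (D : ℕ → ℕ → ℕ → ℕ) (z : ℕ → ℕ) (c j m : ℕ) :
    DR k D z (c + 1) j m = DR k D z c j m +
      ∑ l ∈ range j, ∑ s ∈ range (min k (m + 1)), D c l (m - s) := by
  unfold DR
  rw [Finset.sum_range_succ]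
  ring

section lift

variable {S : Type*} [CommRing S] [IsDomain S] [Algebra F S]

/-- lifting the dimension bound from `S` to `S[X]`. `D` is indexed by `#I - 1`. -/
theorem lift_bound {k : ℕ} {Z' : ℕ → Submodule F S} (hfin' : ∀ m, FiniteDimensional F (Z' m))
    {u : ι → F} {a : ι → S} (hu : ∀ i, u i ≠ 0) (T : Finset ι)
    (ha : ∀ i ∈ T, ∀ i' ∈ T, a i = a i' → i = i')
    (haZ : ∀ i ∈ T, ∀ m, ∀ z ∈ Z' m, a i * z ∈ Z' (m + 1))
    (D : ℕ → ℕ → ℕ → ℕ) (z : ℕ → ℕ) (hz : ∀ m, z m ≤ finrank F (Zup Z' m))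
    (hD : ∀ i₀ ∈ T, ∀ I ⊆ T.erase i₀, I.Nonempty → ∀ l m,
      D (I.card - 1) l m ≤ finrank F (Wsp k Z' (frm' u a i₀) I l m)) :
    ∀ I ⊆ T, I.Nonempty → ∀ j m,
      DR k D z (I.card - 1) j m ≤ finrank F (Wsp k (Zup Z') (frm u a) I j m) := by
  have hfinZ := fun m => Zup_finite (F := F) hfin' m
  intro I
  induction I using Finset.induction_on with
  | empty => intro _ h; exact absurd h Finset.not_nonempty_empty
  | insert i₀ I hi₀ ih =>
    intro hIT _ j m
    have hi₀T : i₀ ∈ T := hIT (Finset.mem_insert_self _ _)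
    rcases I.eq_empty_or_nonempty with rfl | hne
    · have h1 : DR k D z ((insert i₀ (∅ : Finset ι)).card - 1) j m = z m := by
        simp [DR]
      rw [h1]
      refine (hz m).trans ?_
      have := hfinZ m
      exact Submodule.finrank_mono (Z_le_Wsp (F := F) (i₁ := i₀) j m)
    · have hcard : (insert i₀ I).card - 1 = (I.card - 1) + 1 := by
        rw [Finset.card_insert_of_notMem hi₀]
        have := hne.card_pos
        omega
      rw [hcard, DR_succ]
      have hIT' : I ⊆ T := fun i hi => hIT (Finset.mem_insert_of_mem hi)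
      have h1 := ih hIT' hne j m
      have h2 := step_bound (F := F) (k := k) (j := j) (m := m) (Z := Zup Z') (Z' := Z')
        (u := u) (a := a) (I := I) (i₀ := i₀) hi₀ hfinZ hfin'
        (fun m z hz => C_mem_Zup hz)
        (fun m z hz => frm_mul_mem_Zup (haZ i₀ hi₀T) hz) hu
        (fun i hi h => hi₀ (by rw [← ha i (hIT' hi) i₀ hi₀T h]; exact hi))
        (fun l m' => D (I.card - 1) l m')
        (fun l m' => hD i₀ hi₀T I (fun i hi => Finset.mem_erase.2
          ⟨fun h => hi₀ (h ▸ hi), hIT' hi⟩) hne l m')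
      exact (Nat.add_le_add_right h1 _).trans h2

end lift

end Crest.Agent.R022.Cnt
end

-- ▼ part R022/CntPlane
section

/-! Row 22, stage-1 count (helper294), part 5: the dimension bound for plane slices
`α_i = t₂ + θ_i t₁ + a_i` in general position. `F[X][X]`: inner variable `t₁`, outer `t₂`. -/

set_option autoImplicit false

namespace Crest.Agent.R022.Cnt

open Module Finset Polynomial

variable {F : Type*} [Field F] {ι : Type*} [DecidableEq ι]

/-- constants -/
noncomputable def Z0 (F : Type*) [Field F] : ℕ → Submodule F F := fun _ => ⊤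
/-- polynomials of degree `≤ m` in one variable -/
noncomputable def Z1 (F : Type*) [Field F] : ℕ → Submodule F F[X] := Zup (Z0 F)
/-- polynomials of degree `≤ m` in two variables -/
noncomputable def Z2 (F : Type*) [Field F] : ℕ → Submodule F F[X][X] := Zup (Z1 F)

theorem Z0_finite (m : ℕ) : FiniteDimensional F (Z0 F m) := by
  unfold Z0; infer_instance

theorem finrank_Z0 (m : ℕ) : finrank F (Z0 F m) = 1 := by
  unfold Z0
  rw [finrank_top, Module.finrank_self]

theorem Z1_finite (m : ℕ) : FiniteDimensional F (Z1 F m) := Zup_finite Z0_finite m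

theorem finrank_Z1 (m : ℕ) : finrank F (Z1 F m) = m + 1 := by
  unfold Z1
  rw [finrank_Zup Z0_finite]
  simp [finrank_Z0]

theorem Z2_finite (m : ℕ) : FiniteDimensional F (Z2 F m) := Zup_finite Z1_finite m

theorem finrank_Z2 (m : ℕ) : finrank F (Z2 F m) = ∑ c ∈ range (m + 1), (m - c + 1) := by
  unfold Z2
  rw [finrank_Zup Z1_finite]
  simp [finrank_Z1]

/-- dimension bounds, `c = #I - 1` -/
def D1 (k : ℕ) : ℕ → ℕ → ℕ → ℕ := DR k (fun _ _ _ => 1) (fun m => m + 1)
def D2 (k : ℕ) : ℕ → ℕ → ℕ → ℕ := DR k (D1 k) (fun m => ∑ c ∈ range (m + 1), (m - c + 1))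

theorem D1_eq (k c l m : ℕ) : D1 k c l m = m + 1 + c * (l * min k (m + 1)) := by
  simp [D1, DR]

theorem line_bound {k : ℕ} {u a : ι → F} (hu : ∀ i, u i ≠ 0) (T : Finset ι)
    (ha : ∀ i ∈ T, ∀ i' ∈ T, a i = a i' → i = i') :
    ∀ I ⊆ T, I.Nonempty → ∀ j m,
      D1 k (I.card - 1) j m ≤ finrank F (Wsp k (Z1 F) (frm u a) I j m) := by
  refine lift_bound (F := F) (S := F) (Z' := Z0 F) Z0_finite hu T ha
    (fun _ _ _ _ _ => Submodule.mem_top) (fun _ _ _ => 1) (fun m => m + 1)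
    (fun m => (finrank_Z1 (F := F) m).ge) ?_
  intro i₀ hi₀ I hI hne l m
  have hfd := Z0_finite (F := F) m
  obtain ⟨i₁, hi₁⟩ := hne
  have hmem : (Pi.single i₁ l : ι → ℕ) ∈ I.piAntidiag l := by
    rw [Finset.mem_piAntidiag]
    constructor
    · rw [Finset.sum_eq_single i₁]
      · simp
      · intro b _ hb
        exact Pi.single_eq_of_ne hb _
      · intro h
        exact absurd hi₁ h
    · intro i hi
      by_contra h
      have : i ≠ i₁ := fun h' => h (h' ▸ hi₁)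
      exact hi (Pi.single_eq_of_ne this _)
  have h1 := mem_Wsp (F := F) (k := k) (Z := Z0 F) (α := frm' u a i₀) (m := m) hmem
    (z := 1) Submodule.mem_top
  rw [Nat.one_le_iff_ne_zero, Ne, Submodule.finrank_eq_zero]
  intro hbot
  rw [hbot, Submodule.mem_bot, mul_one] at h1
  rw [Finset.prod_eq_zero_iff] at h1
  obtain ⟨i, hi, h2⟩ := h1
  have h4 : frm' (F := F) u a i₀ i = 0 := by
    by_contra hne
    exact pow_ne_zero _ hne h2
  rw [frm'] at h4
  rcases mul_eq_zero.1 h4 with h5 | h5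
  · exact hu i (by simpa using h5)
  · have h6 := hI hi
    rw [Finset.mem_erase] at h6
    exact h6.1 (ha i h6.2 i₀ hi₀ (sub_eq_zero.1 h5))

/-- the affine forms `θ_i t₁ + a_i` -/
noncomputable def Aff (θ a : ι → F) (i : ι) : F[X] := C (θ i) * X + C (a i)

/-- the affine forms `t₂ + θ_i t₁ + a_i` -/
noncomputable def alp (θ a : ι → F) (i : ι) : F[X][X] := X + C (Aff θ a i)

omit [DecidableEq ι] in
theorem alp_eq (θ a : ι → F) : alp θ a = frm (fun _ => (1 : F)) (Aff θ a) := by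
  funext i
  simp [alp, frm]

theorem X_mul_mem_Z1 {m : ℕ} {z : F[X]} (hz : z ∈ Z1 F m) : X * z ∈ Z1 F (m + 1) := by
  have := frm_mul_mem_Zup (F := F) (S := F) (ι := Unit) (Z' := Z0 F) (m := m) (u := fun _ => 1)
    (a := fun _ => 0) (i := ()) (fun _ _ _ => Submodule.mem_top) (z := z) hz
  show X * z ∈ Zup (Z0 F) (m + 1)
  simpa [frm] using this

theorem Z1_mono {m m' : ℕ} (h : m ≤ m') : Z1 F m ≤ Z1 F m' := by
  intro z hz
  rw [Z1, mem_Zup] at hz ⊢
  intro c
  exact ⟨fun _ => Submodule.mem_top, fun hc => (hz c).2 (by omega)⟩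

omit [DecidableEq ι] in
theorem Aff_mul_mem {θ a : ι → F} {i : ι} {m : ℕ} {z : F[X]} (hz : z ∈ Z1 F m) :
    Aff θ a i * z ∈ Z1 F (m + 1) := by
  have h1 : Aff θ a i * z = (θ i) • (X * z) + (a i) • z := by
    rw [Aff, Polynomial.smul_eq_C_mul, Polynomial.smul_eq_C_mul]
    ring
  rw [h1]
  exact add_mem (Submodule.smul_mem _ _ (X_mul_mem_Z1 hz))
    (Submodule.smul_mem _ _ (Z1_mono (Nat.le_succ m) hz))

/-- the dimension bound for a plane slice in general position -/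
theorem plane_bound {k : ℕ} {θ a : ι → F} (hθ : Function.Injective θ)
    (hgp : ∀ i₀ i i', i ≠ i₀ → i' ≠ i₀ → i ≠ i' →
      (a i - a i₀) * (θ i' - θ i₀) ≠ (a i' - a i₀) * (θ i - θ i₀)) (T : Finset ι) :
    ∀ I ⊆ T, I.Nonempty → ∀ j m,
      D2 k (I.card - 1) j m ≤ finrank F (Wsp k (Z2 F) (alp θ a) I j m) := by
  rw [alp_eq]
  refine lift_bound (F := F) (S := F[X]) (Z' := Z1 F) Z1_finite (fun _ => one_ne_zero) T ?_
    (fun i _ m z hz => Aff_mul_mem hz) (D1 k) _
    (fun m => (finrank_Z2 (F := F) m).ge) ?_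
  · intro i _ i' _ h
    have h1 := congrArg (fun p => Polynomial.coeff p 1) h
    simp only [Aff, Polynomial.coeff_add, Polynomial.coeff_C_mul, Polynomial.coeff_X_one,
      mul_one] at h1
    rw [Polynomial.coeff_C_succ, Polynomial.coeff_C_succ, add_zero, add_zero] at h1
    exact hθ h1
  · intro i₀ hi₀ I hI hne l m
    set u' : ι → F := fun i => if i = i₀ then 1 else θ i - θ i₀ with hu'
    set a' : ι → F := fun i => (a i - a i₀) / (θ i - θ i₀) with ha'
    have hsub : ∀ i, i ≠ i₀ → θ i - θ i₀ ≠ 0 := fun i hi h => hi (hθ (sub_eq_zero.1 h))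
    have hu'0 : ∀ i, u' i ≠ 0 := by
      intro i
      simp only [hu']
      split_ifs with h
      · exact one_ne_zero
      · exact hsub i h
    have hcongr : Wsp k (Z1 F) (frm' (fun _ => (1 : F)) (Aff θ a) i₀) I l m =
        Wsp k (Z1 F) (frm u' a') I l m := by
      refine Wsp_congr (fun i hi => ?_) l m
      have hi' : i ≠ i₀ := (Finset.mem_erase.1 (hI hi)).1
      have h1 := hsub i hi'
      rw [frm', frm, map_one, one_mul, Aff, Aff]
      simp only [hu', ha', if_neg hi']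
      have h2 : (algebraMap F F[X]) = C := rfl
      rw [Algebra.algebraMap_self_apply]
      have h3 : C (a i - a i₀) = C (θ i - θ i₀) * C ((a i - a i₀) / (θ i - θ i₀)) := by
        rw [← C_mul]
        congr 1
        field_simp
      rw [mul_add, ← h3, C_sub, C_sub]
      ring
    rw [hcongr]
    refine line_bound (F := F) hu'0 (T.erase i₀) ?_ I hI hne l m
    intro i hi i' hi' h
    by_contra hne'
    have hi1 := (Finset.mem_erase.1 hi).1
    have hi2 := (Finset.mem_erase.1 hi').1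
    refine hgp i₀ i i' hi1 hi2 hne' ?_
    simp only [ha'] at h
    rwa [div_eq_div_iff (hsub i hi1) (hsub i' hi2)] at h

end Crest.Agent.R022.Cnt
end

-- ▼ part R022/CntSelect
section

/-! Row 22, stage-1 count (helper294), part 4: greedy choice of a linearly independent subfamily with
small total weight. -/

set_option autoImplicit false

namespace Crest.Agent.R022.Cnt

open Module Finset

variable {F : Type*} [Field F] {V : Type*} [AddCommGroup V] [Module F V] {Ω : Type*}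
  [DecidableEq Ω]

theorem exists_insert {x : Ω → V} {s T : Finset Ω} (hs : LinearIndepOn F x (s : Set Ω))
    (hlt : s.card < finrank F (Submodule.span F (x '' (T : Set Ω)))) :
    ∃ ω ∈ T, ω ∉ s ∧ LinearIndepOn F x ((insert ω s : Finset Ω) : Set Ω) := by
  classical
  by_contra hcon
  push Not at hcon
  have hle : Submodule.span F (x '' (T : Set Ω)) ≤ Submodule.span F (x '' (s : Set Ω)) := by
    rw [Submodule.span_le]
    rintro _ ⟨ω, hω, rfl⟩
    by_cases hωs : ω ∈ s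
    · exact Submodule.subset_span ⟨ω, hωs, rfl⟩
    · have h1 := hcon ω hω hωs
      by_contra h2
      apply h1
      rw [Finset.coe_insert]
      exact (linearIndepOn_insert (by simpa using hωs)).2 ⟨hs, h2⟩
  have hfin : FiniteDimensional F (Submodule.span F (x '' (s : Set Ω))) :=
    FiniteDimensional.span_of_finite F (s.finite_toSet.image x)
  have h1 := Submodule.finrank_mono hle
  have h2 : finrank F (Submodule.span F (x '' (s : Set Ω))) ≤ s.card := by
    have h3 := finrank_span_finset_le_card (R := F) (s.image x)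
    have h4 : ((s.image x : Finset V) : Set V) = x '' (s : Set Ω) := by simp
    rw [Set.finrank, h4] at h3
    exact h3.trans Finset.card_image_le
  omega

theorem exists_extend {x : Ω → V} {s T : Finset Ω} (hs : LinearIndepOn F x (s : Set Ω)) (n : ℕ)
    (hle : s.card + n ≤ finrank F (Submodule.span F (x '' (T : Set Ω)))) :
    ∃ s' : Finset Ω, s ⊆ s' ∧ (∀ ω ∈ s', ω ∉ s → ω ∈ T) ∧ s'.card = s.card + n ∧
      LinearIndepOn F x (s' : Set Ω) := by
  induction n with
  | zero => exact ⟨s, Subset.refl _, fun ω h h' => absurd h h', rfl, hs⟩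
  | succ n ih =>
    obtain ⟨s', h1, h2, h3, h4⟩ := ih (by omega)
    obtain ⟨ω, hωT, hωs, hli⟩ := exists_insert (T := T) h4 (by omega)
    refine ⟨insert ω s', h1.trans (Finset.subset_insert _ _), ?_, ?_, hli⟩
    · intro ω' hω' hn
      rw [Finset.mem_insert] at hω'
      rcases hω' with rfl | h
      · exact hωT
      · exact h2 ω' h hn
    · rw [Finset.card_insert_of_notMem hωs, h3]
      ring

/-- greedy choice: from lower bounds `H y` for the dimension of the span of the vectors of weight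
`≤ y` one gets an independent subfamily with `H Y` elements and small total weight -/
theorem exists_greedy {x : Ω → V} (w : Ω → ℝ) (T : ℕ → Finset Ω)
    (hT : ∀ y, ∀ ω ∈ T y, w ω ≤ y) (H : ℕ → ℕ) (hH : Monotone H) (Y : ℕ)
    (hdim : ∀ y ≤ Y, H y ≤ finrank F (Submodule.span F (x '' (T y : Set Ω)))) :
    ∃ s : Finset Ω, (∀ ω ∈ s, ∃ y ≤ Y, ω ∈ T y) ∧ s.card = H Y ∧ LinearIndepOn F x (s : Set Ω) ∧
      ∑ ω ∈ s, w ω ≤ (Y : ℝ) * H Y - ∑ y ∈ range Y, (H y : ℝ) := by
  induction Y with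
  | zero =>
    obtain ⟨s, h1, h2, h3, h4⟩ := exists_extend (F := F) (x := x) (s := ∅) (T := T 0)
      (by simp) (H 0) (by simpa using hdim 0 le_rfl)
    refine ⟨s, fun ω hω => ⟨0, le_rfl, h2 ω hω (Finset.notMem_empty _)⟩, by simpa using h3, h4, ?_⟩
    have : ∑ ω ∈ s, w ω ≤ ∑ ω ∈ s, (0 : ℝ) := Finset.sum_le_sum fun ω hω => by
      have := hT 0 ω (h2 ω hω (Finset.notMem_empty _))
      simpa using this
    simpa using this
  | succ Y ih =>
    obtain ⟨s, h1, h2, h3, h4⟩ := ih fun y hy => hdim y (by omega)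
    have hmon := hH (Nat.le_succ Y)
    obtain ⟨s', g1, g2, g3, g4⟩ := exists_extend (F := F) (T := T (Y + 1)) h3 (H (Y + 1) - H Y)
      (by
        have := hdim (Y + 1) le_rfl
        rw [h2]
        simp only [Nat.succ_eq_add_one] at hmon
        omega)
    refine ⟨s', ?_, ?_, g4, ?_⟩
    · intro ω hω
      by_cases h : ω ∈ s
      · obtain ⟨y, hy, hyT⟩ := h1 ω h
        exact ⟨y, by omega, hyT⟩
      · exact ⟨Y + 1, le_rfl, g2 ω hω h⟩
    · rw [g3, h2]
      simp only [Nat.succ_eq_add_one] at hmon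
      omega
    · have hsplit : ∑ ω ∈ s', w ω = ∑ ω ∈ s, w ω + ∑ ω ∈ s' \ s, w ω := by
        rw [add_comm]
        exact (Finset.sum_sdiff g1).symm
      have hcard : (s' \ s).card = H (Y + 1) - H Y := by
        rw [Finset.card_sdiff_of_subset g1, g3]
        omega
      have hb : ∑ ω ∈ s' \ s, w ω ≤ ∑ ω ∈ s' \ s, ((Y + 1 : ℕ) : ℝ) :=
        Finset.sum_le_sum fun ω hω => by
          rw [Finset.mem_sdiff] at hω
          exact hT _ _ (g2 ω hω.1 hω.2)
      rw [Finset.sum_const, hcard, nsmul_eq_mul] at hb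
      have hsub : ((H (Y + 1) - H Y : ℕ) : ℝ) = (H (Y + 1) : ℝ) - H Y := by
        rw [Nat.cast_sub hmon]
      rw [hsub] at hb
      rw [hsplit, Finset.sum_range_succ]
      push_cast at hb ⊢
      nlinarith [h4, hb]

end Crest.Agent.R022.Cnt
end

-- ▼ part R022/CntFam
section

/-! Row 22, stage-1 count (helper294), part 6: the monomials `t^e b^f` as polynomials in `n` over
the ring `R` of functions of `t`, and the lower bound for the dimension of their span. -/

set_option autoImplicit false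

namespace Crest.Agent.R022.Cnt

open Module Finset Polynomial

variable {F : Type*} [Field F] {ι : Type*} [DecidableEq ι] [Fintype ι]
  {κ : Type*} [DecidableEq κ] [Fintype κ] {E : Type*} [DecidableEq E]
  {R : Type*} [CommRing R] [IsDomain R] [Algebra F R]

/-- generic splitting -/
theorem finrank_split {A S : Type*} [AddCommGroup A] [Module F A] [AddCommGroup S] [Module F S]
    (V V' : Submodule F A) [FiniteDimensional F V] (h : V' ≤ V) (K : A →ₗ[F] S)
    (hK : ∀ y ∈ V', K y = 0) :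
    finrank F (V.map K) + finrank F V' ≤ finrank F V := by
  set φ : V →ₗ[F] S := K.comp V.subtype with hφ
  have hrk := φ.finrank_range_add_finrank_ker
  have hran : LinearMap.range φ = V.map K := by
    rw [hφ, LinearMap.range_comp, Submodule.range_subtype]
  rw [hran] at hrk
  let g : V' →ₗ[F] LinearMap.ker φ :=
    LinearMap.codRestrict (LinearMap.ker φ) (Submodule.inclusion h) (by
      intro c
      rw [LinearMap.mem_ker]
      exact hK _ c.2)
  have hg : Function.Injective g := by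
    intro a b hab
    apply Subtype.ext
    have h' : ((g a : V) : A) = ((g b : V) : A) := by rw [hab]
    exact h'
  have := LinearMap.finrank_le_finrank_of_injective hg
  omega

omit [Fintype ι] in
theorem coeff_prod_pow {R : Type*} [CommRing R] (c : ι → R[X]) (hc : ∀ i, (c i).natDegree ≤ 1)
    (f : ι → ℕ) (s : Finset ι) :
    (∏ i ∈ s, c i ^ f i).natDegree ≤ ∑ i ∈ s, f i ∧
      (∏ i ∈ s, c i ^ f i).coeff (∑ i ∈ s, f i) = ∏ i ∈ s, (c i).coeff 1 ^ f i := by
  induction s using Finset.induction_on with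
  | empty => simp
  | insert i s hi ih =>
    rw [Finset.prod_insert hi, Finset.sum_insert hi, Finset.prod_insert hi]
    have h1 : (c i ^ f i).natDegree ≤ f i := by
      have := Polynomial.natDegree_pow_le_of_le (f i) (hc i)
      simpa using this
    have h2 : (c i ^ f i).coeff (f i) = (c i).coeff 1 ^ f i := by
      have := Polynomial.coeff_pow_of_natDegree_le (m := f i) (hc i)
      simpa using this
    refine ⟨Polynomial.natDegree_mul_le_of_le h1 ih.1, ?_⟩
    rw [Polynomial.coeff_mul_add_eq_of_natDegree_le h1 ih.1, h2, ih.2]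

/-- the monomial function `t^e b^f N^(k (J - |f|))` -/
noncomputable def mon (k J : ℕ) (α : ι → R) (mo : E → R) (B : κ → R[X]) (ω : E × (κ → ℕ)) : R[X] :=
  C (mo ω.1) * (∏ l, B l ^ ω.2 l) * C ((∏ i, α i) ^ (k * (J - ∑ l, ω.2 l)))

/-- the index set of monomials with `|f| = j`, `e ∈ Ex m` -/
def idx (κ : Type*) [DecidableEq κ] [Fintype κ] (Ex : ℕ → Finset E) (j m : ℕ) :
    Finset (E × (κ → ℕ)) :=
  (Ex m) ×ˢ (univ : Finset κ).piAntidiag j

omit [DecidableEq E] in
theorem mem_idx {Ex : ℕ → Finset E} {j m : ℕ} {ω : E × (κ → ℕ)} :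
    ω ∈ idx κ Ex j m ↔ ω.1 ∈ Ex m ∧ ∑ l, ω.2 l = j := by
  unfold idx
  rw [Finset.mem_product, Finset.mem_piAntidiag]
  constructor
  · rintro ⟨h, h', _⟩
    exact ⟨h, h'⟩
  · rintro ⟨h, h'⟩
    exact ⟨h, h', fun _ _ => Finset.mem_univ _⟩

/-- the span of degree `j` monomials in the `B l` -/
noncomputable def Qsp (F : Type*) [Field F] {R : Type*} [CommRing R] [Algebra F R]
    (B : κ → R[X]) (j : ℕ) : Submodule F R[X] :=
  Submodule.span F ((fun f : κ → ℕ => ∏ l, B l ^ f l) '' {f | ∑ l, f l = j})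

omit [IsDomain R] in
theorem mul_mem_Qsp {B : κ → R[X]} {j : ℕ} {c q : R[X]}
    (hc : c ∈ Submodule.span F (Set.range B)) (hq : q ∈ Qsp F B j) : c * q ∈ Qsp F B (j + 1) := by
  unfold Qsp at *
  induction hc, hq using Submodule.span_induction₂ with
  | mem_mem x y hx hy =>
    obtain ⟨l, rfl⟩ := hx
    obtain ⟨f, hf, rfl⟩ := hy
    refine Submodule.subset_span ⟨(f + Pi.single l 1 : κ → ℕ), ?_, ?_⟩
    · show ∑ l', (f + Pi.single l 1 : κ → ℕ) l' = j + 1
      simp only [Pi.add_apply, Finset.sum_add_distrib]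
      rw [show ∑ l, f l = j from hf]
      simp
    · show ∏ l', B l' ^ ((f + Pi.single l 1 : κ → ℕ) l') = B l * ∏ l', B l' ^ f l'
      simp only [Pi.add_apply, pow_add, Finset.prod_mul_distrib]
      have h1 : ∏ x, B x ^ (Pi.single l 1 : κ → ℕ) x = B l := by
        rw [Finset.prod_eq_single l]
        · simp
        · intro b _ hb
          rw [Pi.single_eq_of_ne hb, pow_zero]
        · intro h
          exact absurd (Finset.mem_univ _) h
      rw [h1, mul_comm]
  | zero_left y hy => rw [zero_mul]; exact zero_mem _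
  | zero_right x hx => rw [mul_zero]; exact zero_mem _
  | add_left x y z hx hy hz h1 h2 => rw [add_mul]; exact add_mem h1 h2
  | add_right x y z hx hy hz h1 h2 => rw [mul_add]; exact add_mem h1 h2
  | smul_left r x y hx hy h => rw [smul_mul_assoc]; exact Submodule.smul_mem _ _ h
  | smul_right r x y hx hy h => rw [mul_smul_comm]; exact Submodule.smul_mem _ _ h

omit [Fintype ι] [IsDomain R] in
theorem prod_mem_Qsp {B : κ → R[X]} {c : ι → R[X]}
    (hc : ∀ i, c i ∈ Submodule.span F (Set.range B)) (f : ι → ℕ) (s : Finset ι) :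
    ∏ i ∈ s, c i ^ f i ∈ Qsp F B (∑ i ∈ s, f i) := by
  induction s using Finset.induction_on with
  | empty =>
    refine Submodule.subset_span ⟨0, ?_, ?_⟩
    · simp
    · simp
  | insert i s hi ih =>
    rw [Finset.prod_insert hi, Finset.sum_insert hi]
    have key : ∀ n : ℕ, c i ^ n * ∏ i ∈ s, c i ^ f i ∈ Qsp F B (n + ∑ i ∈ s, f i) := by
      intro n
      induction n with
      | zero => simpa using ih
      | succ n ihn =>
        have := mul_mem_Qsp (hc i) ihn
        rw [pow_succ', mul_assoc, show n + 1 + ∑ i ∈ s, f i = n + ∑ i ∈ s, f i + 1 by ring]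
        exact this
    exact key (f i)

omit [DecidableEq ι] [IsDomain R] [DecidableEq E] in
theorem mul_mem_span_mon {k J j m : ℕ} {α : ι → R} {mo : E → R} {Z : ℕ → Submodule F R}
    {Ex : ℕ → Finset E} (hEx : ∀ m, Z m ≤ Submodule.span F (mo '' (Ex m : Set E)))
    {B : κ → R[X]} {z : R}
    {q : R[X]} (hz : z ∈ Z m) (hq : q ∈ Qsp F B j) :
    C z * q * C ((∏ i, α i) ^ (k * (J - j))) ∈
      Submodule.span F (mon k J α mo B '' (idx κ Ex j m : Set _)) := by
  have hz' := hEx m hz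
  clear hz
  unfold Qsp at hq
  induction hz', hq using Submodule.span_induction₂ with
  | mem_mem x y hx hy =>
    obtain ⟨e, he, rfl⟩ := hx
    obtain ⟨f, hf, rfl⟩ := hy
    refine Submodule.subset_span ⟨(e, f), ?_, ?_⟩
    · rw [Finset.mem_coe, mem_idx]
      exact ⟨he, hf⟩
    · show mon k J α mo B (e, f) = _
      unfold mon
      simp only
      rw [show ∑ l, f l = j from hf]
  | zero_left y hy => simp
  | zero_right x hx => simp
  | add_left x y z hx hy hz h1 h2 =>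
    rw [C_add, add_mul, add_mul]; exact add_mem h1 h2
  | add_right x y z hx hy hz h1 h2 => rw [mul_add, add_mul]; exact add_mem h1 h2
  | smul_left r x y hx hy h =>
    have : C (r • x) = r • (C x : R[X]) := by
      rw [Polynomial.smul_C]
    rw [this, smul_mul_assoc, smul_mul_assoc]
    exact Submodule.smul_mem _ _ h
  | smul_right r x y hx hy h =>
    rw [mul_smul_comm, smul_mul_assoc]; exact Submodule.smul_mem _ _ h

/-- the index set with budgets `m j`, `j < J'` -/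
def idxs (κ : Type*) [DecidableEq κ] [Fintype κ] (Ex : ℕ → Finset E) (m : ℕ → ℕ) (J' : ℕ) :
    Finset (E × (κ → ℕ)) := (range J').biUnion fun j => idx κ Ex j (m j)

theorem mem_idxs {Ex : ℕ → Finset E} {m : ℕ → ℕ} {J' : ℕ} {ω : E × (κ → ℕ)} :
    ω ∈ idxs κ Ex m J' ↔ ∑ l, ω.2 l < J' ∧ ω.1 ∈ Ex (m (∑ l, ω.2 l)) := by
  unfold idxs
  rw [Finset.mem_biUnion]
  constructor
  · rintro ⟨j, hj, h⟩
    rw [mem_idx] at h
    rw [h.2]
    exact ⟨Finset.mem_range.1 hj, h.1⟩
  · rintro ⟨h1, h2⟩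
    exact ⟨_, Finset.mem_range.2 h1, mem_idx.2 ⟨h2, rfl⟩⟩

omit [IsDomain R] in
theorem prod_swap {α : ι → R} {k j : ℕ} {f : ι → ℕ} (hf : ∑ i, f i = j) :
    ∏ i, ∏ i' ∈ univ.erase i, α i' ^ (k * f i) = ∏ i, α i ^ (k * (j - f i)) := by
  have h8 : ∀ i, ∏ i' ∈ univ.erase i, α i' ^ (k * f i) =
      ∏ i', α i' ^ (if i' = i then 0 else k * f i) := by
    intro i
    rw [← Finset.mul_prod_erase univ _ (Finset.mem_univ i), if_pos rfl, pow_zero, one_mul]
    refine Finset.prod_congr rfl fun i' hi' => ?_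
    rw [if_neg (Finset.ne_of_mem_erase hi')]
  simp_rw [h8]
  rw [Finset.prod_comm]
  refine Finset.prod_congr rfl fun i' _ => ?_
  rw [Finset.prod_pow_eq_pow_sum]
  congr 1
  rw [← Finset.add_sum_erase univ _ (Finset.mem_univ i'), if_pos rfl, zero_add]
  have h9 : ∑ x ∈ univ.erase i', (if i' = x then 0 else k * f x) =
      ∑ x ∈ univ.erase i', k * f x := by
    refine Finset.sum_congr rfl fun x hx => ?_
    rw [if_neg (Finset.ne_of_mem_erase hx).symm]
  rw [h9, ← Finset.mul_sum]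
  congr 1
  have h10 := Finset.add_sum_erase univ f (Finset.mem_univ i')
  omega

/-- **the dimension bound**: the functions `t^e b^f` with `|f| = j < J'`, `e ∈ Ex (m j)` span a
space of dimension `≥ ∑_{j < J'} dim W_j(m j)`. Here `c i` stands for `N^k β_i`, i.e.
`μ (n - θ'_i) ∏_{i' ≠ i} α_{i'}^k`. -/
theorem fam_dim {k J : ℕ} {α : ι → R} (hα : ∀ i, α i ≠ 0) {mo : E → R} {Z : ℕ → Submodule F R}
    (hfinZ : ∀ m, FiniteDimensional F (Z m))
    {Ex : ℕ → Finset E} (hEx : ∀ m, Z m ≤ Submodule.span F (mo '' (Ex m : Set E)))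
    {D : ℕ → ℕ → ℕ} (hW : ∀ j m, D j m ≤ finrank F (Wsp k Z α univ j m))
    {B : κ → R[X]} {c : ι → R[X]} {μ : F} (hμ : μ ≠ 0)
    (hB : ∀ l, (B l).natDegree ≤ 1) (hc : ∀ i, (c i).natDegree ≤ 1)
    (hc1 : ∀ i, (c i).coeff 1 = algebraMap F R μ * ∏ i' ∈ univ.erase i, α i' ^ k)
    (hcB : ∀ i, c i ∈ Submodule.span F (Set.range B)) (m : ℕ → ℕ) (J' : ℕ) :
    ∑ j ∈ range J', D j (m j) ≤
      finrank F (Submodule.span F (mon k J α mo B '' (idxs κ Ex m J' : Set _))) := by
  induction J' with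
  | zero => simp
  | succ j ih =>
    rw [Finset.sum_range_succ]
    set V : Submodule F R[X] := Submodule.span F (mon k J α mo B '' (idxs κ Ex m (j + 1) : Set _))
      with hV
    set V' : Submodule F R[X] := Submodule.span F (mon k J α mo B '' (idxs κ Ex m j : Set _))
      with hV'
    have hfd : FiniteDimensional F V :=
      FiniteDimensional.span_of_finite F ((idxs κ Ex m (j + 1)).finite_toSet.image _)
    have hle : V' ≤ V := by
      refine Submodule.span_mono (Set.image_mono ?_)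
      intro ω hω
      rw [Finset.mem_coe, mem_idxs] at *
      exact ⟨by omega, hω.2⟩
    have hdeg : ∀ ω, (mon k J α mo B ω).natDegree ≤ ∑ l, ω.2 l := by
      intro ω
      unfold mon
      refine Polynomial.natDegree_mul_C_le _ _ |>.trans ?_
      refine Polynomial.natDegree_C_mul_le _ _ |>.trans ?_
      exact (coeff_prod_pow B hB ω.2 univ).1
    set K : R[X] →ₗ[F] R := (Polynomial.lcoeff R j).restrictScalars F with hK
    have hKV' : ∀ y ∈ V', K y = 0 := by
      intro y hy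
      have : V' ≤ LinearMap.ker K := by
        rw [hV', Submodule.span_le]
        rintro _ ⟨ω, hω, rfl⟩
        rw [Finset.mem_coe, mem_idxs] at hω
        rw [SetLike.mem_coe, LinearMap.mem_ker]
        show (mon k J α mo B ω).coeff j = 0
        exact Polynomial.coeff_eq_zero_of_natDegree_lt (lt_of_le_of_lt (hdeg ω) hω.1)
      exact this hy
    have h1 := finrank_split V V' hle K hKV'
    have hα0 : (∏ i, α i) ^ (k * (J - j)) ≠ 0 :=
      pow_ne_zero _ (Finset.prod_ne_zero_iff.2 fun i _ => hα i)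
    have h2 : finrank F (Wsp k Z α univ j (m j)) ≤ finrank F (V.map K) := by
      have hfZ := hfinZ (m j)
      -- multiplication by `μ^j N^(k (J - j))`
      set g : R := (algebraMap F R (μ ^ j)) * (∏ i, α i) ^ (k * (J - j)) with hg
      have hg0 : g ≠ 0 := by
        refine mul_ne_zero ?_ hα0
        intro h
        have := (algebraMap F R).injective (h.trans (map_zero _).symm)
        exact pow_ne_zero _ hμ this
      have hinj : Function.Injective (LinearMap.mulLeft F g) := by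
        intro x y h
        simpa [hg0] using h
      have hsub : Wsp k Z α univ j (m j) ≤ (V.map K).comap (LinearMap.mulLeft F g) := by
        refine Wsp_le ?_
        intro f hf z hz
        rw [Submodule.mem_comap, LinearMap.mulLeft_apply, Submodule.mem_map]
        rw [Finset.mem_piAntidiag] at hf
        refine ⟨C z * (∏ i, c i ^ f i) * C ((∏ i, α i) ^ (k * (J - j))), ?_, ?_⟩
        · have h3 := prod_mem_Qsp (F := F) hcB f univ
          rw [hf.1] at h3
          have h4 := mul_mem_span_mon (k := k) (J := J) (α := α) hEx hz h3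
          refine Submodule.span_mono (Set.image_mono ?_) h4
          intro ω hω
          rw [Finset.mem_coe, mem_idx] at hω
          rw [Finset.mem_coe, mem_idxs, hω.2]
          exact ⟨Nat.lt_succ_self _, hω.1⟩
        · show (C z * (∏ i, c i ^ f i) * C ((∏ i, α i) ^ (k * (J - j)))).coeff j = _
          rw [Polynomial.coeff_mul_C, Polynomial.coeff_C_mul]
          have h5 := (coeff_prod_pow c hc f univ).2
          rw [hf.1] at h5
          rw [h5]
          have h6 : ∏ i, (c i).coeff 1 ^ f i =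
              algebraMap F R (μ ^ j) * ∏ i, α i ^ (k * (j - f i)) := by
            have h7 : ∀ i, (c i).coeff 1 ^ f i = algebraMap F R (μ ^ f i) *
                ∏ i' ∈ univ.erase i, α i' ^ (k * f i) := by
              intro i
              rw [hc1 i, mul_pow, map_pow, ← Finset.prod_pow]
              congr 1
              refine Finset.prod_congr rfl fun i' _ => ?_
              rw [pow_mul]
            simp_rw [h7]
            rw [Finset.prod_mul_distrib, ← map_prod, Finset.prod_pow_eq_pow_sum, hf.1,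
              prod_swap hf.1]
          rw [h6, hg]
          ring
      have := LinearMap.finrank_le_finrank_of_injective
        (f := (LinearMap.mulLeft F g).restrict (p := Wsp k Z α univ j (m j))
          (q := V.map K) (fun x hx => hsub hx)) (by
          intro x y h
          apply Subtype.ext
          apply hinj
          have := congrArg Subtype.val h
          simpa using this)
      exact this
    have h3 := hW j (m j)
    omega

end Crest.Agent.R022.Cnt
end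

-- ▼ part R022/CntNum
section

/-! Row 22, stage-1 count (helper294), part 7: explicit lower bound for `D2`, generators of `Z2`. -/

set_option autoImplicit false

namespace Crest.Agent.R022.Cnt

open Module Finset Polynomial

/-- the sum of `min`-free type: explicit lower bound for `D2` when `m ≥ 2k` -/
theorem D2_lower {k c j m : ℕ} (hm : 2 * k ≤ m) :
    ((m : ℝ) ^ 2 / 2 + (c : ℝ) * k * j * ((m : ℝ) - k) +
      (k : ℝ) ^ 2 * (c * (c - 1) / 2) * (j * (j - 1) / 2)) ≤ (D2 k c j m : ℝ) := by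
  have h1 : (D2 k c j m : ℕ) = (∑ e ∈ range (m + 1), (m - e + 1)) +
      ∑ c' ∈ range c, ∑ l ∈ range j, ∑ s ∈ range k, ((m - s) + 1 + c' * (l * k)) := by
    unfold D2
    rw [DR]
    have hmin : min k (m + 1) = k := by omega
    rw [hmin]
    congr 1
    refine Finset.sum_congr rfl fun c' _ => Finset.sum_congr rfl fun l _ =>
      Finset.sum_congr rfl fun s hs => ?_
    rw [D1_eq]
    have hs' := Finset.mem_range.1 hs
    have : min k (m - s + 1) = k := by omega
    rw [this]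
  have h2 : ((∑ e ∈ range (m + 1), (m - e + 1) : ℕ) : ℝ) ≥ (m : ℝ) ^ 2 / 2 := by
    have h3 : ∑ e ∈ range (m + 1), (m - e + 1) = ∑ e ∈ range (m + 1), (e + 1) := by
      have := Finset.sum_range_reflect (fun e => e + 1) (m + 1)
      rw [← this]
      refine Finset.sum_congr rfl fun e he => ?_
      have := Finset.mem_range.1 he
      omega
    rw [h3]
    have h4 : ∀ n : ℕ, ((∑ e ∈ range (n + 1), (e + 1) : ℕ) : ℝ) = ((n : ℝ) + 1) * (n + 2) / 2 := by
      intro n
      induction n with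
      | zero => norm_num
      | succ n ih =>
        rw [Finset.sum_range_succ, Nat.cast_add, ih]
        push_cast
        ring
    rw [h4]
    have : (0 : ℝ) ≤ m := Nat.cast_nonneg m
    nlinarith
  have h5 : ∀ c' l s : ℕ, s ∈ range k →
      ((m : ℝ) - k) + c' * (l * k) ≤ (((m - s) + 1 + c' * (l * k) : ℕ) : ℝ) := by
    intro c' l s hs
    have hs' := Finset.mem_range.1 hs
    have hsm : s ≤ m := by omega
    push_cast [Nat.cast_sub hsm]
    have : (s : ℝ) ≤ k := by exact_mod_cast hs'.le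
    linarith
  have h6 : ((∑ c' ∈ range c, ∑ l ∈ range j, ∑ s ∈ range k, ((m - s) + 1 + c' * (l * k)) : ℕ) : ℝ) ≥
      ∑ c' ∈ range c, ∑ l ∈ range j, ∑ s ∈ range k, (((m : ℝ) - k) + c' * (l * k)) := by
    push_cast
    refine Finset.sum_le_sum fun c' _ => Finset.sum_le_sum fun l _ => Finset.sum_le_sum fun s hs => ?_
    have := h5 c' l s hs
    push_cast at this
    exact this
  have hg : ∀ n : ℕ, ∑ l ∈ range n, (l : ℝ) = (n : ℝ) * (n - 1) / 2 := by
    intro n
    induction n with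
    | zero => simp
    | succ n ih =>
      rw [Finset.sum_range_succ, ih]
      push_cast
      ring
  have h7 : ∑ c' ∈ range c, ∑ l ∈ range j, ∑ s ∈ range k, (((m : ℝ) - k) + c' * (l * k)) =
      (c : ℝ) * k * j * ((m : ℝ) - k) + (k : ℝ) ^ 2 * (c * (c - 1) / 2) * (j * (j - 1) / 2) := by
    simp only [Finset.sum_const, Finset.card_range, nsmul_eq_mul, mul_add, Finset.sum_add_distrib]
    have h8 : ∀ c' : ℕ, ∑ x ∈ range j, (k : ℝ) * ((c' : ℝ) * (x * k)) =
        (k : ℝ) ^ 2 * (j * (j - 1) / 2) * c' := by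
      intro c'
      rw [← hg j, Finset.mul_sum, Finset.sum_mul]
      refine Finset.sum_congr rfl fun x _ => ?_
      ring
    simp_rw [h8]
    rw [← Finset.mul_sum, hg c]
    ring
  rw [h1, Nat.cast_add]
  linarith [h2, h6, h7.ge, h7.le]

variable {F : Type*} [Field F]

/-- exponents of the monomials of degree `≤ m` in `t` -/
def Ex2 (m : ℕ) : Finset (ℕ × ℕ) := ((range (m + 1)) ×ˢ (range (m + 1))).filter fun e => e.1 + e.2 ≤ m

theorem mem_Ex2 {m : ℕ} {e : ℕ × ℕ} : e ∈ Ex2 m ↔ e.1 + e.2 ≤ m := by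
  unfold Ex2
  rw [Finset.mem_filter, Finset.mem_product, Finset.mem_range, Finset.mem_range]
  constructor
  · exact fun h => h.2
  · intro h
    exact ⟨⟨by omega, by omega⟩, h⟩

/-- the monomials: `e.1` = exponent of the outer variable, `e.2` of the inner one -/
noncomputable def mo2 (F : Type*) [Field F] (e : ℕ × ℕ) : F[X][X] := X ^ e.1 * C (X ^ e.2)

theorem Z1_le_span (m : ℕ) : Z1 F m ≤ Submodule.span F ((fun e : ℕ => (X : F[X]) ^ e) '' {e | e ≤ m}) := by
  intro p hp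
  rw [Z1, mem_Zup] at hp
  rw [p.as_sum_support_C_mul_X_pow]
  refine Submodule.sum_mem _ fun e he => ?_
  rw [← Polynomial.smul_eq_C_mul]
  refine Submodule.smul_mem _ _ (Submodule.subset_span ⟨e, ?_, rfl⟩)
  by_contra h
  exact (Polynomial.mem_support_iff.1 he) ((hp e).2 (by simpa using h))

theorem Z2_le_span (m : ℕ) : Z2 F m ≤ Submodule.span F (mo2 F '' (Ex2 m : Set (ℕ × ℕ))) := by
  intro p hp
  rw [Z2, mem_Zup] at hp
  rw [p.as_sum_support_C_mul_X_pow]
  refine Submodule.sum_mem _ fun e he => ?_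
  have hem : e ≤ m := by
    by_contra h
    exact (Polynomial.mem_support_iff.1 he) ((hp e).2 (by omega))
  have h1 := Z1_le_span (m - e) ((hp e).1 hem)
  generalize p.coeff e = q at h1 ⊢
  induction h1 using Submodule.span_induction with
  | mem x hx =>
    obtain ⟨e', he', rfl⟩ := hx
    refine Submodule.subset_span ⟨(e, e'), ?_, ?_⟩
    · rw [Finset.mem_coe, mem_Ex2]
      have : e' ≤ m - e := he'
      show e + e' ≤ m
      omega
    · rw [mo2, mul_comm]
  | zero => simp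
  | add x y _ _ hx hy =>
    rw [C_add, add_mul]
    exact add_mem hx hy
  | smul r x _ hx =>
    have : C (r • x) * (X : F[X][X]) ^ e = r • (C x * X ^ e) := by
      rw [← Polynomial.smul_C, smul_mul_assoc]
    rw [this]
    exact Submodule.smul_mem _ _ hx

end Crest.Agent.R022.Cnt
end

-- ▼ part R022/CntAsym
section

/-! Row 22, stage-1 count (helper294), part 8: the asymptotic count and the choice of parameters. -/

set_option autoImplicit false

namespace Crest.Agent.R022.Cnt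

open Module Finset Filter Topology

/-- the constant of the count: `∑_j dim ~ C3 y^3` -/
noncomputable def C3 (ρ : ℝ) (k c : ℕ) : ℝ :=
  1 / (6 * ρ) + (c : ℝ) * k / (6 * ρ ^ 2) + (k : ℝ) ^ 2 * (c * (c - 1)) / (12 * ρ ^ 3)

theorem sum_id (n : ℕ) : ∑ j ∈ range (n + 1), (j : ℝ) = (n : ℝ) * (n + 1) / 2 := by
  induction n with
  | zero => simp
  | succ n ih => rw [Finset.sum_range_succ, ih]; push_cast; ring

theorem sum_sq (n : ℕ) : ∑ j ∈ range (n + 1), (j : ℝ) ^ 2 = (n : ℝ) * (n + 1) * (2 * n + 1) / 6 := by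
  induction n with
  | zero => simp
  | succ n ih => rw [Finset.sum_range_succ, ih]; push_cast; ring

/-- normalised count -/
noncomputable def Pcount (ρ : ℝ) (k c : ℕ) (ν x : ℝ) : ℝ :=
  (ν + x) * (1 - x) ^ 2 / 2 - ρ * (1 - x) * (ν * (ν + x) / 2) +
    ρ ^ 2 / 2 * (ν * (ν + x) * (2 * ν + x) / 6) +
    c * k * (1 - (1 + k) * x) * (ν * (ν + x) / 2) - c * k * ρ * (ν * (ν + x) * (2 * ν + x) / 6) +
    (k : ℝ) ^ 2 * (c * (c - 1) / 2) / 2 *
      (ν * (ν + x) * (2 * ν + x) / 6 - x * (ν * (ν + x) / 2))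

theorem Pcount_zero {ρ : ℝ} (hρ : 0 < ρ) (k c : ℕ) : Pcount ρ k c (1 / ρ) 0 = C3 ρ k c := by
  unfold Pcount C3
  field_simp
  ring

theorem count_lower {ρ : ℝ} (hρ : 0 < ρ) (k c : ℕ) (y : ℕ) (hy : 0 < y) (n : ℕ)
    (hn : ρ * n ≤ (y : ℝ) - (2 * k + 1)) :
    (y : ℝ) ^ 3 * Pcount ρ k c ((n : ℝ) / y) (1 / y) ≤
      ((∑ j ∈ range (n + 1), D2 k c j ⌊(y : ℝ) - ρ * j⌋₊ : ℕ) : ℝ) := by
  have hy' : (0 : ℝ) < y := by exact_mod_cast hy
  have h1 : ∀ j ∈ range (n + 1),
      ((y : ℝ) - 1 - ρ * j) ^ 2 / 2 + (c : ℝ) * k * j * ((y : ℝ) - 1 - k - ρ * j) +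
        (k : ℝ) ^ 2 * (c * (c - 1) / 2) * (((j : ℝ) ^ 2 - j) / 2) ≤
      (D2 k c j ⌊(y : ℝ) - ρ * j⌋₊ : ℝ) := by
    intro j hj
    have hjn : (j : ℝ) ≤ n := by
      have := Finset.mem_range.1 hj
      exact_mod_cast Nat.lt_succ_iff.1 this
    have hpos : (2 * k + 1 : ℝ) ≤ (y : ℝ) - ρ * j := by nlinarith
    set m : ℕ := ⌊(y : ℝ) - ρ * j⌋₊ with hm
    have hm1 : 2 * k ≤ m := by
      apply Nat.le_floor
      push_cast
      linarith
    have hm2 : (y : ℝ) - ρ * j - 1 < m := Nat.sub_one_lt_floor _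
    have hk0 : (0 : ℝ) ≤ k := Nat.cast_nonneg k
    have hb : (0 : ℝ) ≤ (y : ℝ) - ρ * j - 1 := by nlinarith
    refine le_trans ?_ (D2_lower hm1)
    have e1 : ((y : ℝ) - 1 - ρ * j) ^ 2 ≤ (m : ℝ) ^ 2 := by
      apply pow_le_pow_left₀ <;> linarith
    have e2 : (c : ℝ) * k * j * ((y : ℝ) - 1 - k - ρ * j) ≤ (c : ℝ) * k * j * ((m : ℝ) - k) := by
      apply mul_le_mul_of_nonneg_left (by linarith) (by positivity)
    have e3 : (k : ℝ) ^ 2 * (c * (c - 1) / 2) * (((j : ℝ) ^ 2 - j) / 2) =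
        (k : ℝ) ^ 2 * (c * (c - 1) / 2) * ((j : ℝ) * (j - 1) / 2) := by ring
    rw [e3]
    linarith
  have h2 : ∑ j ∈ range (n + 1), (((y : ℝ) - 1 - ρ * j) ^ 2 / 2 +
      (c : ℝ) * k * j * ((y : ℝ) - 1 - k - ρ * j) +
        (k : ℝ) ^ 2 * (c * (c - 1) / 2) * (((j : ℝ) ^ 2 - j) / 2)) =
      (y : ℝ) ^ 3 * Pcount ρ k c ((n : ℝ) / y) (1 / y) := by
    have h3 : ∀ j : ℕ, ((y : ℝ) - 1 - ρ * j) ^ 2 / 2 +
      (c : ℝ) * k * j * ((y : ℝ) - 1 - k - ρ * j) +
        (k : ℝ) ^ 2 * (c * (c - 1) / 2) * (((j : ℝ) ^ 2 - j) / 2) =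
        ((y : ℝ) - 1) ^ 2 / 2 + (-(ρ * ((y : ℝ) - 1)) + c * k * ((y : ℝ) - 1 - k) -
          (k : ℝ) ^ 2 * (c * (c - 1) / 2) / 2) * j +
        (ρ ^ 2 / 2 - c * k * ρ + (k : ℝ) ^ 2 * (c * (c - 1) / 2) / 2) * (j : ℝ) ^ 2 := by
      intro j; ring
    rw [Finset.sum_congr rfl fun j _ => h3 j, Finset.sum_add_distrib, Finset.sum_add_distrib,
      ← Finset.mul_sum, ← Finset.mul_sum, sum_id, sum_sq, Finset.sum_const, Finset.card_range,
      nsmul_eq_mul]
    unfold Pcount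
    push_cast
    field_simp
    ring
  rw [← h2]
  push_cast
  refine Finset.sum_le_sum fun j hj => ?_
  exact_mod_cast h1 j hj

/-- the asymptotic count -/
theorem count_asym {ρ : ℝ} (hρ : 0 < ρ) (k c : ℕ) {c0 : ℝ} (hc0 : c0 < C3 ρ k c) :
    ∃ y0 : ℕ, ∀ y : ℕ, y0 ≤ y → ∃ n : ℕ, ρ * n ≤ y ∧
      c0 * (y : ℝ) ^ 3 ≤ ((∑ j ∈ range (n + 1), D2 k c j ⌊(y : ℝ) - ρ * j⌋₊ : ℕ) : ℝ) := by
  have hcont : Continuous fun p : ℝ × ℝ => Pcount ρ k c p.1 p.2 := by
    unfold Pcount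
    fun_prop
  have hlim1 : Tendsto (fun y : ℕ => (1 : ℝ) / y) atTop (𝓝 0) :=
    tendsto_one_div_atTop_nhds_zero_nat
  set n : ℕ → ℕ := fun y => ⌊((y : ℝ) - (2 * k + 1)) / ρ⌋₊ with hn
  have hev : ∀ᶠ y : ℕ in atTop, (2 * k + 1 : ℝ) ≤ y := by
    filter_upwards [eventually_ge_atTop (2 * k + 1)] with y hy
    exact_mod_cast hy
  have hup : ∀ᶠ y : ℕ in atTop, (n y : ℝ) / y ≤ (1 / ρ) * (1 - (2 * k + 1) * (1 / y)) := by
    filter_upwards [hev, eventually_gt_atTop 0] with y hy hy0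
    have hy' : (0 : ℝ) < y := by exact_mod_cast hy0
    have h1 : (n y : ℝ) ≤ ((y : ℝ) - (2 * k + 1)) / ρ :=
      Nat.floor_le (div_nonneg (by linarith) hρ.le)
    rw [div_le_iff₀ hy']
    calc (n y : ℝ) ≤ ((y : ℝ) - (2 * k + 1)) / ρ := h1
      _ = _ := by field_simp
  have hlo : ∀ᶠ y : ℕ in atTop, (1 / ρ) * (1 - (2 * k + 1) * (1 / y)) - 1 / y ≤ (n y : ℝ) / y := by
    filter_upwards [hev, eventually_gt_atTop 0] with y hy hy0
    have hy' : (0 : ℝ) < y := by exact_mod_cast hy0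
    have h1 : ((y : ℝ) - (2 * k + 1)) / ρ - 1 ≤ n y := (Nat.sub_one_lt_floor _).le
    rw [le_div_iff₀ hy']
    calc _ = ((y : ℝ) - (2 * k + 1)) / ρ - 1 := by field_simp
      _ ≤ _ := h1
  have hlimn : Tendsto (fun y : ℕ => (n y : ℝ) / y) atTop (𝓝 (1 / ρ)) := by
    refine tendsto_of_tendsto_of_tendsto_of_le_of_le' ?_ ?_ hlo hup
    · have := ((hlim1.const_mul (2 * k + 1 : ℝ)).const_sub 1).const_mul (1 / ρ)
      have h2 := this.sub hlim1
      simpa using h2
    · have := ((hlim1.const_mul (2 * k + 1 : ℝ)).const_sub 1).const_mul (1 / ρ)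
      simpa using this
  have hlim : Tendsto (fun y : ℕ => Pcount ρ k c ((n y : ℝ) / y) (1 / y)) atTop
      (𝓝 (C3 ρ k c)) := by
    have hpair : Tendsto (fun y : ℕ => (((n y : ℝ) / y, (1 : ℝ) / y) : ℝ × ℝ)) atTop
        (𝓝 ((1 / ρ, 0) : ℝ × ℝ)) := hlimn.prodMk_nhds hlim1
    have h9 : Tendsto (fun p : ℝ × ℝ => Pcount ρ k c p.1 p.2) (𝓝 ((1 / ρ, 0) : ℝ × ℝ))
        (𝓝 (C3 ρ k c)) := by
      rw [← Pcount_zero hρ]
      exact hcont.tendsto ((1 / ρ, 0) : ℝ × ℝ)
    have h10 := h9.comp hpair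
    rw [Function.comp_def] at h10
    exact h10
  have hev2 := hlim.eventually (lt_mem_nhds hc0)
  obtain ⟨y0, hy0⟩ := eventually_atTop.1 (hev2.and (hev.and (eventually_gt_atTop 0)))
  refine ⟨y0, fun y hy => ⟨n y, ?_, ?_⟩⟩
  · obtain ⟨-, h2, h3⟩ := hy0 y hy
    have h1 : (n y : ℝ) ≤ ((y : ℝ) - (2 * k + 1)) / ρ :=
      Nat.floor_le (div_nonneg (by linarith) hρ.le)
    rw [le_div_iff₀ hρ] at h1
    have hk0 : (0 : ℝ) ≤ k := Nat.cast_nonneg k
    linarith
  · obtain ⟨h1, h2, h3⟩ := hy0 y hy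
    have h4 : (n y : ℝ) ≤ ((y : ℝ) - (2 * k + 1)) / ρ :=
      Nat.floor_le (div_nonneg (by linarith) hρ.le)
    rw [le_div_iff₀ hρ] at h4
    refine le_trans ?_ (count_lower hρ k c y h3 (n y) (by linarith))
    have hy' : (0 : ℝ) < y := by exact_mod_cast h3
    nlinarith [pow_pos hy' 3]

/-- the count function used in the greedy choice -/
noncomputable def Hf (c0 : ℝ) (y0 y : ℕ) : ℕ := if y < y0 then 0 else ⌊c0 * (y : ℝ) ^ 3⌋₊

theorem Hf_mono {c0 : ℝ} (hc0 : 0 < c0) (y0 : ℕ) : Monotone (Hf c0 y0) := by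
  intro a b hab
  unfold Hf
  split_ifs with h1 h2 h2
  · exact le_rfl
  · exact Nat.zero_le _
  · omega
  · apply Nat.floor_le_floor
    have : (a : ℝ) ≤ b := by exact_mod_cast hab
    gcongr

theorem sum_cube (Y : ℕ) : ∑ y ∈ range Y, (y : ℝ) ^ 3 = ((Y : ℝ) * (Y - 1) / 2) ^ 2 := by
  induction Y with
  | zero => simp
  | succ n ih => rw [Finset.sum_range_succ, ih]; push_cast; ring

theorem sum_Hf_lower {c0 : ℝ} (hc0 : 0 < c0) (y0 Y : ℕ) :
    c0 * ((Y : ℝ) ^ 4 / 4 - (Y : ℝ) ^ 3 / 2) - Y - c0 * (y0 : ℝ) ^ 4 ≤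
      ∑ y ∈ range Y, (Hf c0 y0 y : ℝ) := by
  have h1 : ∀ y ∈ range Y, c0 * (y : ℝ) ^ 3 - 1 - (if y < y0 then c0 * (y0 : ℝ) ^ 3 else 0) ≤
      (Hf c0 y0 y : ℝ) := by
    intro y _
    unfold Hf
    split_ifs with h
    · have : (y : ℝ) ≤ y0 := by exact_mod_cast h.le
      have : (y : ℝ) ^ 3 ≤ (y0 : ℝ) ^ 3 := by gcongr
      push_cast
      nlinarith
    · have := (Nat.sub_one_lt_floor (c0 * (y : ℝ) ^ 3)).le
      linarith
  refine le_trans ?_ (Finset.sum_le_sum h1)
  rw [Finset.sum_sub_distrib, Finset.sum_sub_distrib, ← Finset.mul_sum, sum_cube, Finset.sum_const,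
    Finset.card_range, Finset.sum_ite, Finset.sum_const_zero, add_zero, Finset.sum_const,
    nsmul_eq_mul, nsmul_eq_mul, mul_one]
  have h2 : (((range Y).filter fun y => y < y0).card : ℝ) ≤ y0 := by
    have : ((range Y).filter fun y => y < y0) ⊆ range y0 := by
      intro y hy
      rw [Finset.mem_filter] at hy
      exact Finset.mem_range.2 hy.2
    have h3 := Finset.card_le_card this
    rw [Finset.card_range] at h3
    exact_mod_cast h3
  have h3 : (((range Y).filter fun y => y < y0).card : ℝ) * (c0 * (y0 : ℝ) ^ 3) ≤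
      y0 * (c0 * (y0 : ℝ) ^ 3) := by
    apply mul_le_mul_of_nonneg_right h2
    positivity
  nlinarith [sq_nonneg (Y : ℝ)]

/-- choice of the parameters of the determinant -/
theorem exists_params {ρ κ c0 : ℝ} (hρ : 0 < ρ) (hκ : 0 < κ) (hc0 : 0 < c0)
    (hthr : (9 / 8 : ℝ) ^ 2 < κ ^ 2 * (2 * c0 * ρ)) (y0 Y0 : ℕ) :
    ∃ Y m J w : ℕ, Y0 ≤ Y ∧ y0 ≤ Y ∧ (Y : ℝ) < ρ * (J + 1) ∧
      w + (J + 1) * (m + 2).choose 3 ≤ m * Hf c0 y0 Y ∧
      (Y : ℝ) * Hf c0 y0 Y - ∑ y ∈ range Y, (Hf c0 y0 y : ℝ) < κ * w := by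
  set μ : ℝ := Real.sqrt (2 * c0 * ρ) with hμ
  have hμ2 : μ ^ 2 = 2 * c0 * ρ := Real.sq_sqrt (by positivity)
  have hμ0 : 0 < μ := Real.sqrt_pos.2 (by positivity)
  have hκμ : 9 / 8 < κ * μ := by
    have h1 : (9 / 8 : ℝ) ^ 2 < (κ * μ) ^ 2 := by rw [mul_pow, hμ2]; exact hthr
    exact lt_of_pow_lt_pow_left₀ 2 (by positivity) h1
  set g : ℝ → ℝ := fun x => κ * ((μ - x) * (c0 - x ^ 3) - (1 / ρ + x) * (μ + 2 * x) ^ 3 / 6) -
    (3 / 4 * c0 + c0 / 2 * x + x ^ 3 + c0 * (y0 : ℝ) ^ 4 * x ^ 4) with hg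
  have hgc : Continuous g := by
    rw [hg]; fun_prop
  have hg0 : 0 < g 0 := by
    have h1 : g 0 = 2 / 3 * c0 * (κ * μ) - 3 / 4 * c0 := by
      rw [hg]
      have h2 : μ ^ 3 = 2 * c0 * ρ * μ := by rw [pow_succ, hμ2]
      simp only [sub_zero, add_zero, mul_zero, ne_eq, OfNat.ofNat_ne_zero, not_false_eq_true,
        zero_pow]
      rw [h2]
      field_simp
      ring
    rw [h1]
    nlinarith
  have hlim1 : Tendsto (fun y : ℕ => (1 : ℝ) / y) atTop (𝓝 0) :=
    tendsto_one_div_atTop_nhds_zero_nat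
  have hlim2 : Tendsto (fun y : ℕ => g ((1 : ℝ) / y)) atTop (𝓝 (g 0)) :=
    (hgc.tendsto 0).comp hlim1
  have hlim3 : Tendsto (fun y : ℕ => (μ - (1 : ℝ) / y) * (c0 - ((1 : ℝ) / y) ^ 3) -
      (1 / ρ + (1 : ℝ) / y) * (μ + 2 * ((1 : ℝ) / y)) ^ 3 / 6) atTop (𝓝 (2 / 3 * c0 * μ)) := by
    have hc : Continuous fun x : ℝ => (μ - x) * (c0 - x ^ 3) - (1 / ρ + x) * (μ + 2 * x) ^ 3 / 6 := by
      fun_prop
    have h3 := (hc.tendsto 0).comp hlim1
    have h4 : (μ - 0) * (c0 - 0 ^ 3) - (1 / ρ + 0) * (μ + 2 * 0) ^ 3 / 6 = 2 / 3 * c0 * μ := by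
      have h2 : μ ^ 3 = 2 * c0 * ρ * μ := by rw [pow_succ, hμ2]
      simp only [sub_zero, add_zero, mul_zero, ne_eq, OfNat.ofNat_ne_zero, not_false_eq_true,
        zero_pow]
      rw [h2]
      field_simp
      ring
    rw [h4] at h3
    rw [Function.comp_def] at h3
    exact h3
  have hev1 := hlim2.eventually (lt_mem_nhds hg0)
  have hev2 := hlim3.eventually (lt_mem_nhds (show (0 : ℝ) < 2 / 3 * c0 * μ by positivity))
  have hev3 : ∀ᶠ y : ℕ in atTop, (1 : ℝ) / y < μ := hlim1.eventually (gt_mem_nhds hμ0)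
  have hev4 : ∀ᶠ y : ℕ in atTop, (1 : ℝ) / y < c0 := hlim1.eventually (gt_mem_nhds hc0)
  obtain ⟨Y, ⟨⟨⟨hY1, hY2⟩, hY3⟩, hY4⟩, hY5⟩ := (((hev1.and hev2).and hev3).and hev4 |>.and
    (eventually_ge_atTop (max (max y0 Y0) 1))).exists
  have hYy0 : y0 ≤ Y := by omega
  have hYY0 : Y0 ≤ Y := by omega
  have hYpos : (0 : ℝ) < Y := by
    have : 0 < Y := by omega
    exact_mod_cast this
  have hY1' : (1 : ℝ) ≤ Y := by
    have : 1 ≤ Y := by omega
    exact_mod_cast this
  have hH : Hf c0 y0 Y = ⌊c0 * (Y : ℝ) ^ 3⌋₊ := by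
    unfold Hf
    rw [if_neg (by omega)]
  have hHlo : c0 * (Y : ℝ) ^ 3 - 1 ≤ Hf c0 y0 Y := by
    rw [hH]; exact (Nat.sub_one_lt_floor _).le
  have hHup : (Hf c0 y0 Y : ℝ) ≤ c0 * (Y : ℝ) ^ 3 := by
    rw [hH]; exact Nat.floor_le (by positivity)
  set m : ℕ := ⌊μ * Y⌋₊ with hm
  have hmlo : μ * Y - 1 ≤ m := (Nat.sub_one_lt_floor _).le
  have hmup : (m : ℝ) ≤ μ * Y := Nat.floor_le (by positivity)
  set J : ℕ := ⌊(Y : ℝ) / ρ⌋₊ with hJ
  have hJup : (J : ℝ) ≤ Y / ρ := Nat.floor_le (by positivity)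
  have hJlo : (Y : ℝ) / ρ < J + 1 := Nat.lt_floor_add_one _
  have hch : (((m + 2).choose 3 : ℕ) : ℝ) ≤ (μ * Y + 2) ^ 3 / 6 := by
    have h1 := Nat.choose_le_pow_div (α := ℝ) 3 (m + 2)
    have h2 : ((Nat.factorial 3 : ℕ) : ℝ) = 6 := by norm_num [Nat.factorial]
    rw [h2] at h1
    refine h1.trans ?_
    push_cast
    gcongr
  have hneg1 : 0 ≤ μ * Y - 1 := by
    rw [div_lt_iff₀ hYpos] at hY3
    linarith
  have hneg2 : 0 ≤ c0 * (Y : ℝ) ^ 3 - 1 := by
    rw [div_lt_iff₀ hYpos] at hY4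
    have : c0 * (Y : ℝ) ≤ c0 * (Y : ℝ) ^ 3 := by
      apply mul_le_mul_of_nonneg_left _ hc0.le
      calc (Y : ℝ) = Y ^ 1 := (pow_one _).symm
        _ ≤ Y ^ 3 := pow_le_pow_right₀ hY1' (by norm_num)
    linarith
  have hprod : (μ * Y - 1) * (c0 * (Y : ℝ) ^ 3 - 1) ≤ (m : ℝ) * Hf c0 y0 Y :=
    mul_le_mul hmlo hHlo hneg2 (Nat.cast_nonneg m)
  have hsub : ((J : ℝ) + 1) * ((m + 2).choose 3 : ℕ) ≤ (Y / ρ + 1) * ((μ * Y + 2) ^ 3 / 6) := by
    apply mul_le_mul (by linarith) hch (by positivity) (by positivity)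
  have hW : (μ * Y - 1) * (c0 * (Y : ℝ) ^ 3 - 1) - (Y / ρ + 1) * ((μ * Y + 2) ^ 3 / 6) =
      (Y : ℝ) ^ 4 * ((μ - (1 : ℝ) / Y) * (c0 - ((1 : ℝ) / Y) ^ 3) -
      (1 / ρ + (1 : ℝ) / Y) * (μ + 2 * ((1 : ℝ) / Y)) ^ 3 / 6) := by
    field_simp
  have hWpos : 0 < (μ * Y - 1) * (c0 * (Y : ℝ) ^ 3 - 1) - (Y / ρ + 1) * ((μ * Y + 2) ^ 3 / 6) := by
    rw [hW]
    positivity
  have hle : (J + 1) * (m + 2).choose 3 ≤ m * Hf c0 y0 Y := by
    have : (((J + 1) * (m + 2).choose 3 : ℕ) : ℝ) ≤ ((m * Hf c0 y0 Y : ℕ) : ℝ) := by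
      push_cast
      push_cast at hsub
      linarith
    exact_mod_cast this
  refine ⟨Y, m, J, m * Hf c0 y0 Y - (J + 1) * (m + 2).choose 3, hYY0, hYy0, ?_, ?_, ?_⟩
  · rw [div_lt_iff₀ hρ] at hJlo
    linarith
  · omega
  · rw [Nat.cast_sub hle]
    push_cast
    push_cast at hsub
    have hs := sum_Hf_lower hc0 y0 Y
    have h1 : (Y : ℝ) * Hf c0 y0 Y ≤ Y * (c0 * (Y : ℝ) ^ 3) :=
      mul_le_mul_of_nonneg_left hHup hYpos.le
    have h2 : κ * ((μ * Y - 1) * (c0 * (Y : ℝ) ^ 3 - 1) - (Y / ρ + 1) * ((μ * Y + 2) ^ 3 / 6)) ≤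
        κ * ((m : ℝ) * Hf c0 y0 Y - ((J : ℝ) + 1) * ((m + 2).choose 3 : ℕ)) := by
      apply mul_le_mul_of_nonneg_left _ hκ.le
      push_cast
      linarith
    have h3 : (Y : ℝ) ^ 4 * g ((1 : ℝ) / Y) =
        κ * ((μ * Y - 1) * (c0 * (Y : ℝ) ^ 3 - 1) - (Y / ρ + 1) * ((μ * Y + 2) ^ 3 / 6)) -
        (3 / 4 * c0 * (Y : ℝ) ^ 4 + c0 / 2 * (Y : ℝ) ^ 3 + Y + c0 * (y0 : ℝ) ^ 4) := by
      rw [hW, hg]
      field_simp
    have h4 : 0 < (Y : ℝ) ^ 4 * g ((1 : ℝ) / Y) := by positivity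
    rw [h3] at h4
    have h5 : (Y : ℝ) * (c0 * (Y : ℝ) ^ 3) = c0 * (Y : ℝ) ^ 4 := by ring
    have h6 : c0 * ((Y : ℝ) ^ 4 / 4 - (Y : ℝ) ^ 3 / 2) =
      c0 * (Y : ℝ) ^ 4 / 4 - c0 / 2 * (Y : ℝ) ^ 3 := by ring
    rw [h5] at h1
    rw [h6] at hs
    have h7 : (Y : ℝ) * Hf c0 y0 Y - ∑ y ∈ range Y, (Hf c0 y0 y : ℝ) ≤
      3 / 4 * c0 * (Y : ℝ) ^ 4 + c0 / 2 * (Y : ℝ) ^ 3 + Y + c0 * (y0 : ℝ) ^ 4 := by linarith
    calc _ ≤ _ := h7
      _ < κ * ((μ * Y - 1) * (c0 * (Y : ℝ) ^ 3 - 1) - (Y / ρ + 1) * ((μ * Y + 2) ^ 3 / 6)) := by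
        linarith
      _ ≤ _ := h2

end Crest.Agent.R022.Cnt
end

-- ▼ part R022/CntMain

/-! Row 22, stage-1 count (helper294), part 9: the family of monomials used in the stage-1 determinant. -/

set_option autoImplicit false

namespace Crest.Agent.R022.Cnt

open Module Finset Filter Topology Polynomial

/-- weight of the monomial `t^e b^f` -/
noncomputable def wt {κ' : Type*} [Fintype κ'] (ρ : ℝ) (ω : (ℕ × ℕ) × (κ' → ℕ)) : ℝ :=
  ((ω.1.1 + ω.1.2 : ℕ) : ℝ) + ρ * ((∑ l, ω.2 l : ℕ) : ℝ)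

theorem exists_family {d k : ℕ} {ρ κ : ℝ} (hρ : 0 < ρ) (hκ : 0 < κ)
    (hthr : (9 / 8 : ℝ) ^ 2 < κ ^ 2 * (2 * C3 ρ k d * ρ)) :
    ∃ Y m J w s : ℕ, (Y : ℝ) < ρ * (J + 1) ∧ w + (J + 1) * (m + 2).choose 3 ≤ m * s ∧
      ∃ W : ℝ, W < κ * w ∧
      ∀ (F : Type) [Field F] (ι : Type) [Fintype ι] [DecidableEq ι], Fintype.card ι = d + 1 →
        ∀ (θ a : ι → F), Function.Injective θ →
        (∀ i₀ i i', i ≠ i₀ → i' ≠ i₀ → i ≠ i' →
          (a i - a i₀) * (θ i' - θ i₀) ≠ (a i' - a i₀) * (θ i - θ i₀)) →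
        ∀ (κ' : Type) [Fintype κ'] [DecidableEq κ'] (B : κ' → F[X][X][X])
          (c : ι → F[X][X][X]) (μ : F), μ ≠ 0 → (∀ l, (B l).natDegree ≤ 1) →
          (∀ i, (c i).natDegree ≤ 1) →
          (∀ i, (c i).coeff 1 = algebraMap F F[X][X] μ * ∏ i' ∈ univ.erase i, alp θ a i' ^ k) →
          (∀ i, c i ∈ Submodule.span F (Set.range B)) →
          ∃ T : Finset ((ℕ × ℕ) × (κ' → ℕ)), T.card = s ∧
            (∀ ω ∈ T, wt ρ ω ≤ Y ∧ ∑ l, ω.2 l ≤ J) ∧
            LinearIndepOn F (mon k J (alp θ a) (mo2 F) B) (T : Set ((ℕ × ℕ) × (κ' → ℕ))) ∧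
            ∑ ω ∈ T, wt ρ ω ≤ W := by
  -- the constant c0
  set cmin : ℝ := (9 / 8 : ℝ) ^ 2 / (κ ^ 2 * (2 * ρ)) with hcmin
  have hcm0 : 0 < cmin := by positivity
  have hden : 0 < κ ^ 2 * (2 * ρ) := by positivity
  have hcm : cmin < C3 ρ k d := by
    rw [hcmin, div_lt_iff₀ hden]
    nlinarith
  obtain ⟨c0, hc1, hc2⟩ := exists_between hcm
  have hc0 : 0 < c0 := hcm0.trans hc1
  have hthr' : (9 / 8 : ℝ) ^ 2 < κ ^ 2 * (2 * c0 * ρ) := by
    rw [hcmin, div_lt_iff₀ hden] at hc1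
    nlinarith
  obtain ⟨y0, hy0⟩ := count_asym hρ k d hc2
  obtain ⟨Y, m, J, w, -, hYy0, hJ, hw, hW⟩ := exists_params hρ hκ hc0 hthr' y0 0
  refine ⟨Y, m, J, w, Hf c0 y0 Y, hJ, hw, _, hW, ?_⟩
  intro F _ ι _ _ hι θ a hθ hgp κ' _ _ B c μ hμ hB hc hc1' hcB
  have hne : (univ : Finset ι).Nonempty := by
    rw [← Finset.card_pos, Finset.card_univ, hι]
    omega
  choose! n hn1 hn2 using hy0
  set T : ℕ → Finset ((ℕ × ℕ) × (κ' → ℕ)) := fun y =>
    if y < y0 then ∅ else idxs κ' Ex2 (fun j => ⌊(y : ℝ) - ρ * j⌋₊) (n y + 1) with hT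
  have hTw : ∀ y, ∀ ω ∈ T y, wt ρ ω ≤ y := by
    intro y ω hω
    simp only [hT] at hω
    split_ifs at hω with h
    · exact absurd hω (Finset.notMem_empty _)
    · rw [mem_idxs, mem_Ex2] at hω
      obtain ⟨h1, h2⟩ := hω
      have h3 := hn1 y (not_lt.1 h)
      have h4 : ((∑ l, ω.2 l : ℕ) : ℝ) ≤ n y := by
        exact_mod_cast Nat.lt_succ_iff.1 h1
      have h5 : (0 : ℝ) ≤ (y : ℝ) - ρ * ((∑ l, ω.2 l : ℕ) : ℝ) := by nlinarith
      have h6 := Nat.floor_le h5
      have h7 : ((ω.1.1 + ω.1.2 : ℕ) : ℝ) ≤ ⌊(y : ℝ) - ρ * ((∑ l, ω.2 l : ℕ) : ℝ)⌋₊ := by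
        exact_mod_cast h2
      unfold wt
      linarith
  have hα : ∀ i, alp θ a i ≠ 0 := by
    intro i h
    have h1 := congrArg (fun p => Polynomial.coeff p 1) h
    simp [alp, Polynomial.coeff_X] at h1
  have hdim : ∀ y ≤ Y, Hf c0 y0 y ≤
      finrank F (Submodule.span F (mon k J (alp θ a) (mo2 F) B '' (T y : Set _))) := by
    intro y _
    by_cases h : y < y0
    · unfold Hf
      rw [if_pos h]
      exact Nat.zero_le _
    · have h1 := fam_dim (F := F) (k := k) (J := J) (α := alp θ a) hα (mo := mo2 F) (Z := Z2 F)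
        Z2_finite (Ex := Ex2) Z2_le_span (D := D2 k d)
        (fun j m => by
          have := plane_bound (k := k) hθ hgp univ univ (Finset.Subset.refl _)
            hne j m
          simpa [hι] using this)
        hμ hB hc hc1' hcB (fun j => ⌊(y : ℝ) - ρ * j⌋₊) (n y + 1)
      have hTy : T y = idxs κ' Ex2 (fun j => ⌊(y : ℝ) - ρ * j⌋₊) (n y + 1) := by
        simp only [hT, if_neg h]
      rw [hTy]
      refine le_trans ?_ h1
      have h2 := hn2 y (not_lt.1 h)
      unfold Hf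
      rw [if_neg h]
      exact Nat.floor_le_of_le h2
  obtain ⟨s, h1, h2, h3, h4⟩ := exists_greedy (F := F) (x := mon k J (alp θ a) (mo2 F) B)
    (wt ρ) T hTw (Hf c0 y0) (Hf_mono hc0 y0) Y hdim
  refine ⟨s, h2, ?_, h3, h4⟩
  intro ω hω
  obtain ⟨y, hyY, hy⟩ := h1 ω hω
  have h5 := hTw y ω hy
  have h6 : (y : ℝ) ≤ Y := by exact_mod_cast hyY
  refine ⟨h5.trans h6, ?_⟩
  by_contra hlt
  push Not at hlt
  have h7 : ((J : ℝ) + 1) ≤ ((∑ l, ω.2 l : ℕ) : ℝ) := by exact_mod_cast hlt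
  have h8 : ρ * ((∑ l, ω.2 l : ℕ) : ℝ) ≤ wt ρ ω := by
    unfold wt
    have : (0 : ℝ) ≤ ((ω.1.1 + ω.1.2 : ℕ) : ℝ) := Nat.cast_nonneg _
    linarith
  nlinarith

end Crest.Agent.R022.Cnt
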