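import Mathlib
import Crest.Agent.R022.CntMain
import Crest.Agent.R022.SliceDefs

/-! Row 22, stage-1 count (helper294), part 10: the bridge to the integral slice polynomials. -/

set_option autoImplicit false

namespace Crest.Agent.R022.Cnt

open Module Finset Polynomial Crest.Agent.R022.Torsor

/-- `t_0 ↦` outer variable, `t_1 ↦` inner variable -/
noncomputable def Phi : MvPolynomial (Fin 2) ℂ →ₐ[ℂ] ℂ[X][X] :=
  MvPolynomial.aeval ![X, C X]

/-- base change of integer polynomials in `t` -/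
noncomputable def PhiZ : MvPolynomial (Fin 2) ℤ →+* ℂ[X][X] :=
  (Phi : MvPolynomial (Fin 2) ℂ →+* ℂ[X][X]).comp (MvPolynomial.map (Int.castRingHom ℂ))

/-- base change of integer polynomials in `t, n` -/
noncomputable def Psi : (MvPolynomial (Fin 2) ℤ)[X] →+* ℂ[X][X][X] := Polynomial.mapRingHom PhiZ

theorem PhiZ_apply (P : MvPolynomial (Fin 2) ℤ) :
    PhiZ P = Phi (MvPolynomial.map (Int.castRingHom ℂ) P) := rfl

theorem Phi_C (x : ℂ) : Phi (MvPolynomial.C x) = C (C x) := by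
  unfold Phi
  rw [MvPolynomial.aeval_C]
  rfl

theorem Phi_X0 : Phi (MvPolynomial.X 0) = X := by
  unfold Phi
  rw [MvPolynomial.aeval_X]
  rfl

theorem Phi_X1 : Phi (MvPolynomial.X 1) = C X := by
  unfold Phi
  rw [MvPolynomial.aeval_X]
  rfl

theorem Phi_aP {d : ℕ} (z : Fin d → ℂ) (hd : 2 ≤ d) (a0 : Fin d → ℤ) (i : Fin d) :
    Phi (aP z 2 a0 i) = alp z (cst z a0) i := by
  rw [aP_two z hd a0 i, map_add, map_add, map_mul, Phi_C, Phi_C, Phi_X0, Phi_X1, alp, Aff]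
  rw [C_add, C_mul]
  ring

theorem Phi_coP {d : ℕ} (z : Fin d → ℂ) (hd : 2 ≤ d) (a0 : Fin d → ℤ) (i : Fin d) :
    Phi (coP z 2 a0 i) = ∏ i' ∈ univ.erase i, alp z (cst z a0) i' := by
  unfold coP
  rw [map_prod]
  exact Finset.prod_congr rfl fun j _ => Phi_aP z hd a0 j

theorem sum_mul_sub {R κ' : Type*} [CommRing R] (s : Finset κ') (x : R) (f g : κ' → R) :
    ∑ l ∈ s, (x * f l - g l) = x * ∑ l ∈ s, f l - ∑ l ∈ s, g l := by
  rw [Finset.mul_sum, Finset.sum_sub_distrib]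

section
variable {F : Polynomial ℤ} (hF : F.Monic)

theorem PhiZ_Nf (z : Fin F.natDegree → ℂ) (hd : 2 ≤ F.natDegree) (hinj : Function.Injective z)
    (hz : ∀ i, F.eval₂ (Int.castRingHom ℂ) (z i) = 0) (a0 : Fin F.natDegree → ℤ) :
    PhiZ (Nf hF 2 a0) = ∏ i, alp z (cst z a0) i := by
  rw [PhiZ_apply, map_Nf hF z hinj hz, map_prod]
  exact Finset.prod_congr rfl fun j _ => Phi_aP z hd a0 j

theorem PhiZ_Sf (z : Fin F.natDegree → ℂ) (hd : 2 ≤ F.natDegree) (hinj : Function.Injective z)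
    (hz : ∀ i, F.eval₂ (Int.castRingHom ℂ) (z i) = 0) (a0 : Fin F.natDegree → ℤ) (k : ℕ)
    (y : AdjoinRoot F) (l) :
    PhiZ (Sf hF 2 a0 k y l) = ∑ i, C (C ((Matrix.vandermonde z)⁻¹ l i * Torsor.ev F (z i) (hz i) y)) *
      (∏ i' ∈ univ.erase i, alp z (cst z a0) i') ^ k := by
  rw [PhiZ_apply, map_Sf hF z hinj hz, map_sum]
  refine Finset.sum_congr rfl fun i _ => ?_
  rw [map_mul, Phi_C, map_pow, Phi_coP z hd]

/-- the cleared coordinate `N(t)^k b_l = M (n A_l(t) - B_l(t))` -/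
noncomputable def Bt (k : ℕ) (M : ℤ) (a0 : Fin F.natDegree → ℤ) (l : Fin F.natDegree) :
    (MvPolynomial (Fin 2) ℤ)[X] :=
  C (MvPolynomial.C M) * (X * C (Sf hF 2 a0 k 1 l) - C (Sf hF 2 a0 k (AdjoinRoot.root F) l))

/-- the cleared monomial `t^e b^f N^(kJ)` -/
noncomputable def monZ (k : ℕ) (M : ℤ) (J : ℕ) (a0 : Fin F.natDegree → ℤ)
    (ω : (ℕ × ℕ) × (Fin F.natDegree → ℕ)) : (MvPolynomial (Fin 2) ℤ)[X] :=
  C (MvPolynomial.X 0 ^ ω.1.1 * MvPolynomial.X 1 ^ ω.1.2) * (∏ l, Bt hF k M a0 l ^ ω.2 l) *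
    C (Nf hF 2 a0 ^ (k * (J - ∑ l, ω.2 l)))

theorem Bt_natDegree (k : ℕ) (M : ℤ) (a0 : Fin F.natDegree → ℤ) (l : Fin F.natDegree) :
    (Bt hF k M a0 l).natDegree ≤ 1 := by
  unfold Bt
  refine (Polynomial.natDegree_C_mul_le _ _).trans ?_
  refine (Polynomial.natDegree_sub_le _ _).trans ?_
  rw [Polynomial.natDegree_C]
  refine max_le ?_ (Nat.zero_le _)
  refine (Polynomial.natDegree_mul_le).trans ?_
  rw [Polynomial.natDegree_C]
  exact Nat.add_le_add (Polynomial.natDegree_X_le) le_rfl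


theorem Psi_monZ (z : Fin F.natDegree → ℂ) (hd : 2 ≤ F.natDegree) (hinj : Function.Injective z)
    (hz : ∀ i, F.eval₂ (Int.castRingHom ℂ) (z i) = 0) (k : ℕ) (M : ℤ) (J : ℕ)
    (a0 : Fin F.natDegree → ℤ) (ω : (ℕ × ℕ) × (Fin F.natDegree → ℕ)) :
    Psi (monZ hF k M J a0 ω) =
      mon k J (alp z (cst z a0)) (mo2 ℂ) (fun l => Psi (Bt hF k M a0 l)) ω := by
  unfold monZ mon
  rw [map_mul, map_mul, map_prod]
  have h1 : Psi (C (MvPolynomial.X 0 ^ ω.1.1 * MvPolynomial.X 1 ^ ω.1.2)) =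
      C (mo2 ℂ ω.1) := by
    unfold Psi
    rw [Polynomial.coe_mapRingHom, Polynomial.map_C, map_mul, map_pow, map_pow, PhiZ_apply,
      PhiZ_apply, MvPolynomial.map_X, MvPolynomial.map_X, Phi_X0, Phi_X1, mo2, C_pow]
  have h2 : Psi (C (Nf hF 2 a0 ^ (k * (J - ∑ l, ω.2 l)))) =
      C ((∏ i, alp z (cst z a0) i) ^ (k * (J - ∑ l, ω.2 l))) := by
    unfold Psi
    rw [Polynomial.coe_mapRingHom, Polynomial.map_C, map_pow, PhiZ_Nf hF z hd hinj hz]
  rw [h1, h2]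
  simp only [map_pow]

/-- the combination `∑ z_i^l N^k b_l = M (n - z_i) ∏_{i' ≠ i} α_{i'}^k` -/
theorem sum_Bt (z : Fin F.natDegree → ℂ) (hd : 2 ≤ F.natDegree) (hinj : Function.Injective z)
    (hz : ∀ i, F.eval₂ (Int.castRingHom ℂ) (z i) = 0) (k : ℕ) (M : ℤ)
    (a0 : Fin F.natDegree → ℤ) (i : Fin F.natDegree) :
    ∑ l : Fin F.natDegree, (z i ^ (l : ℕ)) • Psi (Bt hF k M a0 l) =
      C (C (C (M : ℂ))) * ((X - C (C (C (z i)))) *
        C ((∏ i' ∈ univ.erase i, alp z (cst z a0) i') ^ k)) := by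
  have hV : Matrix.vandermonde z * (Matrix.vandermonde z)⁻¹ = 1 := by
    apply Matrix.mul_nonsing_inv
    exact isUnit_iff_ne_zero.mpr (Matrix.det_vandermonde_ne_zero_iff.mpr hinj)
  have hδ : ∀ i', ∑ l : Fin F.natDegree, z i ^ (l : ℕ) * (Matrix.vandermonde z)⁻¹ l i' = if i = i' then 1 else 0 := by
    intro i'
    have := congrFun (congrFun hV i) i'
    rw [Matrix.mul_apply, Matrix.one_apply] at this
    simpa [Matrix.vandermonde_apply] using this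
  have hB : ∀ l, Psi (Bt hF k M a0 l) = C (C (C (M : ℂ))) *
      (X * C (PhiZ (Sf hF 2 a0 k 1 l)) - C (PhiZ (Sf hF 2 a0 k (AdjoinRoot.root F) l))) := by
    intro l
    unfold Bt Psi
    rw [Polynomial.coe_mapRingHom, Polynomial.map_mul, Polynomial.map_sub, Polynomial.map_mul,
      Polynomial.map_C, Polynomial.map_X, Polynomial.map_C, Polynomial.map_C, PhiZ_apply,
      MvPolynomial.map_C, Phi_C]
    rfl
  have hS : ∀ y : AdjoinRoot F, ∑ l : Fin F.natDegree, C (C (z i ^ (l : ℕ))) * PhiZ (Sf hF 2 a0 k y l) =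
      C (C (Torsor.ev F (z i) (hz i) y)) * (∏ i' ∈ univ.erase i, alp z (cst z a0) i') ^ k := by
    intro y
    simp_rw [PhiZ_Sf hF z hd hinj hz, Finset.mul_sum]
    rw [Finset.sum_comm]
    have h1 : ∀ i', ∑ l : Fin F.natDegree, (C (C (z i ^ (l : ℕ))) : ℂ[X][X]) *
        (C (C ((Matrix.vandermonde z)⁻¹ l i' * Torsor.ev F (z i') (hz i') y)) *
        (∏ i'' ∈ univ.erase i', alp z (cst z a0) i'') ^ k) =
        C (C ((if i = i' then 1 else 0) * Torsor.ev F (z i') (hz i') y)) *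
        (∏ i'' ∈ univ.erase i', alp z (cst z a0) i'') ^ k := by
      intro i'
      rw [← hδ i', Finset.sum_mul, map_sum, map_sum, Finset.sum_mul]
      refine Finset.sum_congr rfl fun l _ => ?_
      rw [← mul_assoc, ← C_mul, ← C_mul, mul_assoc]
    rw [Finset.sum_congr rfl fun i' _ => h1 i']
    rw [Finset.sum_eq_single i]
    · simp
    · intro b _ hb
      rw [if_neg (Ne.symm hb)]
      simp
    · intro h
      exact absurd (Finset.mem_univ _) h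
  have h2 : ∀ l : Fin F.natDegree, (z i ^ (l : ℕ)) • Psi (Bt hF k M a0 l) =
      C (C (C (M : ℂ))) * (X * C (C (C (z i ^ (l : ℕ))) * PhiZ (Sf hF 2 a0 k 1 l)) -
        C (C (C (z i ^ (l : ℕ))) * PhiZ (Sf hF 2 a0 k (AdjoinRoot.root F) l))) := by
    intro l
    rw [hB, Algebra.smul_def]
    have : algebraMap ℂ ℂ[X][X][X] (z i ^ (l : ℕ)) = C (C (C (z i ^ (l : ℕ)))) := rfl
    rw [this, C_mul, C_mul]
    ring
  have h4 : ∑ l : Fin F.natDegree, (X * C (C (C (z i ^ (l : ℕ))) * PhiZ (Sf hF 2 a0 k 1 l)) -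
        C (C (C (z i ^ (l : ℕ))) * PhiZ (Sf hF 2 a0 k (AdjoinRoot.root F) l))) =
      X * C (∑ l : Fin F.natDegree, C (C (z i ^ (l : ℕ))) * PhiZ (Sf hF 2 a0 k 1 l)) -
        C (∑ l : Fin F.natDegree, C (C (z i ^ (l : ℕ))) *
          PhiZ (Sf hF 2 a0 k (AdjoinRoot.root F) l)) := by
    rw [map_sum, map_sum]
    exact sum_mul_sub (R := ℂ[X][X][X]) Finset.univ X
      (fun l : Fin F.natDegree => C (C (C (z i ^ (l : ℕ))) * PhiZ (Sf hF 2 a0 k 1 l)))
      (fun l => C (C (C (z i ^ (l : ℕ))) * PhiZ (Sf hF 2 a0 k (AdjoinRoot.root F) l)))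
  rw [Finset.sum_congr rfl fun l _ => h2 l, ← Finset.mul_sum, h4, hS, hS]
  have h3 : Torsor.ev F (z i) (hz i) 1 = 1 := map_one _
  rw [h3, ev_root]
  rw [C_mul, C_mul]
  simp only [map_one, one_mul]
  ring

/-- value of a polynomial in `t, n` at an integer point -/
noncomputable def val (G : (MvPolynomial (Fin 2) ℤ)[X]) (t : Fin 2 → ℤ) (m : ℤ) : ℤ :=
  (G.map (MvPolynomial.eval t)).eval m


end

/-- **stage-1 family on a slice in general position** -/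
theorem slice_family {d k : ℕ} (hd : 1 ≤ d) {ρ κ : ℝ} (hρ : 0 < ρ) (hκ : 0 < κ)
    (hthr : (9 / 8 : ℝ) ^ 2 < κ ^ 2 * (2 * C3 ρ k d * ρ)) :
    ∃ Y m J w s : ℕ, (Y : ℝ) < ρ * (J + 1) ∧ w + (J + 1) * (m + 2).choose 3 ≤ m * s ∧
      ∃ W : ℝ, W < κ * w ∧
      ∀ {F : Polynomial ℤ} (hF : F.Monic), F.natDegree = d + 1 →
        ∀ (z : Fin F.natDegree → ℂ), Function.Injective z →
        (∀ i, F.eval₂ (Int.castRingHom ℂ) (z i) = 0) →
        ∀ (M : ℤ), M ≠ 0 → ∀ a0 : Fin F.natDegree → ℤ, GenPos z a0 →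
          ∃ T : Finset ((ℕ × ℕ) × (Fin F.natDegree → ℕ)), T.card = s ∧
            (∀ ω ∈ T, wt ρ ω ≤ Y ∧ ∑ l, ω.2 l ≤ J) ∧
            ∑ ω ∈ T, wt ρ ω ≤ W ∧
            ∀ a : (ℕ × ℕ) × (Fin F.natDegree → ℕ) → ℤ, (∃ ω ∈ T, a ω ≠ 0) →
              ∑ ω ∈ T, C (MvPolynomial.C (a ω)) * monZ hF k M J a0 ω ≠ 0 := by
  obtain ⟨Y, m, J, w, s, h1, h2, W, h3, h4⟩ := exists_family (d := d) (k := k) hρ hκ hthr
  refine ⟨Y, m, J, w, s, h1, h2, W, h3, ?_⟩
  intro F hF hdeg z hinj hz M hM a0 hgp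
  have hd2 : 2 ≤ F.natDegree := by omega
  set B : Fin F.natDegree → ℂ[X][X][X] := fun l => Psi (Bt hF k M a0 l) with hB
  set c : Fin F.natDegree → ℂ[X][X][X] := fun i => ∑ l : Fin F.natDegree, (z i ^ (l : ℕ)) • B l with hc
  have hceq := fun i => sum_Bt hF z hd2 hinj hz k M a0 i
  have hMC : (M : ℂ) ≠ 0 := by exact_mod_cast hM
  have hBdeg : ∀ l, (B l).natDegree ≤ 1 := by
    intro l
    exact (Polynomial.natDegree_map_le).trans (Bt_natDegree hF k M a0 l)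
  obtain ⟨T, hT1, hT2, hT3, hT4⟩ := h4 ℂ (Fin F.natDegree) (by rw [Fintype.card_fin, hdeg]) z
    (cst z a0) hinj (fun i₀ i i' hi hi' hne => hgp i i' i₀ hne hi hi') (Fin F.natDegree) B c
    (M : ℂ) hMC hBdeg
    (by
      intro i
      refine (Polynomial.natDegree_sum_le _ _).trans ?_
      rw [Finset.fold_max_le]
      refine ⟨Nat.zero_le _, fun l _ => ?_⟩
      exact (Polynomial.natDegree_smul_le _ _).trans (hBdeg l))
    (by
      intro i
      show (∑ l : Fin F.natDegree, (z i ^ (l : ℕ)) • Psi (Bt hF k M a0 l)).coeff 1 = _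
      rw [hceq i, Polynomial.coeff_C_mul, Polynomial.coeff_mul_C, Polynomial.coeff_sub,
        Polynomial.coeff_X_one, Polynomial.coeff_C_succ, sub_zero, one_mul, Finset.prod_pow]
      rfl)
    (by
      intro i
      exact Submodule.sum_mem _ fun l _ => Submodule.smul_mem _ _
        (Submodule.subset_span ⟨l, rfl⟩))
  refine ⟨T, hT1, hT2, hT4, ?_⟩
  intro a ⟨ω₀, hω₀, ha⟩ h0
  have h5 := congrArg Psi h0
  rw [map_sum, map_zero] at h5
  have h6 : ∀ ω ∈ T, Psi (C (MvPolynomial.C (a ω)) * monZ hF k M J a0 ω) =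
      ((a ω : ℤ) : ℂ) • mon k J (alp z (cst z a0)) (mo2 ℂ) B ω := by
    intro ω _
    rw [map_mul, Psi_monZ hF z hd2 hinj hz, Algebra.smul_def]
    congr 1
    unfold Psi
    rw [Polynomial.coe_mapRingHom, Polynomial.map_C, PhiZ_apply, MvPolynomial.map_C, Phi_C]
    rfl
  rw [Finset.sum_congr rfl h6] at h5
  have h7 := (linearIndepOn_finset_iff.1 hT3) (fun ω => ((a ω : ℤ) : ℂ)) h5 ω₀ hω₀
  exact ha (by exact_mod_cast h7)

end Crest.Agent.R022.Cnt
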