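import Mathlib
import Crest.Agent.R22.TypeCount107

/-! Row 22: type expansions modulo `l ^ m` (helper364).

`HasExp S s n l m J φ` : on the point set `S` the integer function `φ` is congruent modulo `l ^ m`
to a polynomial in `n` of degree `≤ J` whose coefficients are integer polynomials in the local
parameters `s` (each divisible by `l` on `S`).

Closure under sums, products (degrees add), exact division by a function invertible modulo `l`
(`HasExp.div`), reduction of the `n`-degree when `n` satisfies an equation with leading coefficient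
invertible modulo `l` (`HasExp.reduce`), implicit function theorem (`HasExp.implicit`), and the
final conversion to types (`exists_types`). -/

set_option autoImplicit false

open Finset Polynomial

namespace Crest.Agent.R022.Expand

variable {P σ : Type*}

theorem dvd_congr_right {a b c : ℤ} (h : a ∣ b) (e : c = b) : a ∣ c := e ▸ h

/-- `φ` is, modulo `l ^ m` on `S`, a polynomial in `n` of degree `≤ J` with coefficients polynomials
in the local parameters `s`. -/
def HasExp (S : Set P) (s : P → σ → ℤ) (n : P → ℤ) (l : ℤ) (m J : ℕ) (φ : P → ℤ) : Prop :=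
  ∃ G : Polynomial (MvPolynomial σ ℤ), G.natDegree ≤ J ∧
    ∀ p ∈ S, l ^ m ∣ φ p - G.eval₂ (MvPolynomial.eval (s p)) (n p)

namespace HasExp

variable {S : Set P} {s : P → σ → ℤ} {n : P → ℤ} {l : ℤ} {m J J' : ℕ} {φ ψ : P → ℤ}

theorem mono (h : HasExp S s n l m J φ) (hJ : J ≤ J') : HasExp S s n l m J' φ := by
  obtain ⟨G, hG, h⟩ := h
  exact ⟨G, hG.trans hJ, h⟩

theorem mono_set {T : Set P} (h : HasExp S s n l m J φ) (hT : T ⊆ S) : HasExp T s n l m J φ := by
  obtain ⟨G, hG, h⟩ := h
  exact ⟨G, hG, fun p hp => h p (hT hp)⟩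

theorem congr_mod (h : HasExp S s n l m J φ) (hφ : ∀ p ∈ S, l ^ m ∣ ψ p - φ p) :
    HasExp S s n l m J ψ := by
  obtain ⟨G, hG, h⟩ := h
  refine ⟨G, hG, fun p hp => ?_⟩
  have := dvd_add (hφ p hp) (h p hp)
  rwa [sub_add_sub_cancel] at this

theorem congr (h : HasExp S s n l m J φ) (hφ : ∀ p ∈ S, ψ p = φ p) :
    HasExp S s n l m J ψ :=
  h.congr_mod fun p hp => by rw [hφ p hp, sub_self]; exact dvd_zero _

/-- Coefficient polynomials in the local parameters. -/
theorem coeff (Q : MvPolynomial σ ℤ) :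
    HasExp S s n l m J (fun p => MvPolynomial.eval (s p) Q) :=
  ⟨C Q, by simp, fun p _ => by simp⟩

theorem const (c : ℤ) : HasExp S s n l m J (fun _ => c) :=
  (coeff (MvPolynomial.C c)).congr fun p _ => by simp

theorem zero : HasExp S s n l m J (fun _ => 0) := const 0

theorem one : HasExp S s n l m J (fun _ => 1) := const 1

theorem param (i : σ) : HasExp S s n l m J (fun p => s p i) :=
  (coeff (MvPolynomial.X i)).congr fun p _ => by simp

theorem var : HasExp S s n l m 1 n :=
  ⟨X, natDegree_X_le, fun p _ => by simp⟩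

theorem var_pow (j : ℕ) : HasExp S s n l m j (fun p => n p ^ j) :=
  ⟨X ^ j, natDegree_X_pow_le j, fun p _ => by simp⟩

theorem add (h : HasExp S s n l m J φ) (h' : HasExp S s n l m J ψ) :
    HasExp S s n l m J (fun p => φ p + ψ p) := by
  obtain ⟨G, hG, h⟩ := h
  obtain ⟨G', hG', h'⟩ := h'
  refine ⟨G + G', (natDegree_add_le _ _).trans (max_le hG hG'), fun p hp => ?_⟩
  have := dvd_add (h p hp) (h' p hp)
  rw [eval₂_add]
  exact dvd_congr_right this (by ring)

theorem neg (h : HasExp S s n l m J φ) : HasExp S s n l m J (fun p => -φ p) := by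
  obtain ⟨G, hG, h⟩ := h
  refine ⟨-G, by rwa [natDegree_neg], fun p hp => ?_⟩
  have := dvd_neg.mpr (h p hp)
  rw [eval₂_neg]
  exact dvd_congr_right this (by ring)

theorem sub (h : HasExp S s n l m J φ) (h' : HasExp S s n l m J ψ) :
    HasExp S s n l m J (fun p => φ p - ψ p) := by
  simpa [sub_eq_add_neg] using h.add h'.neg

theorem mul (h : HasExp S s n l m J φ) (h' : HasExp S s n l m J' ψ) :
    HasExp S s n l m (J + J') (fun p => φ p * ψ p) := by
  obtain ⟨G, hG, h⟩ := h
  obtain ⟨G', hG', h'⟩ := h'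
  refine ⟨G * G', natDegree_mul_le.trans (add_le_add hG hG'), fun p hp => ?_⟩
  rw [eval₂_mul]
  have h1 := h p hp
  have h2 := h' p hp
  have : φ p * ψ p - eval₂ (MvPolynomial.eval (s p)) (n p) G *
      eval₂ (MvPolynomial.eval (s p)) (n p) G' =
      (φ p - eval₂ (MvPolynomial.eval (s p)) (n p) G) * ψ p +
      eval₂ (MvPolynomial.eval (s p)) (n p) G *
        (ψ p - eval₂ (MvPolynomial.eval (s p)) (n p) G') := by ring
  rw [this]
  exact dvd_add (h1.mul_right _) (h2.mul_left _)

theorem mul_zero_left (h : HasExp S s n l m 0 φ) (h' : HasExp S s n l m J ψ) :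
    HasExp S s n l m J (fun p => φ p * ψ p) := by
  simpa using h.mul h'

theorem const_mul (c : ℤ) (h' : HasExp S s n l m J ψ) :
    HasExp S s n l m J (fun p => c * ψ p) :=
  mul_zero_left (const c) h'

theorem pow (h : HasExp S s n l m J φ) (k : ℕ) : HasExp S s n l m (k * J) (fun p => φ p ^ k) := by
  induction k with
  | zero => simpa using (one : HasExp S s n l m 0 _)
  | succ k ih =>
    have := ih.mul h
    rw [Nat.succ_mul]
    exact this.congr fun p _ => pow_succ _ _

theorem pow_zero (h : HasExp S s n l m 0 φ) (k : ℕ) : HasExp S s n l m 0 (fun p => φ p ^ k) := by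
  simpa using h.pow k

theorem sum {ι : Type*} (T : Finset ι) (F : ι → P → ℤ) (h : ∀ i ∈ T, HasExp S s n l m J (F i)) :
    HasExp S s n l m J (fun p => ∑ i ∈ T, F i p) := by
  classical
  induction T using Finset.induction_on with
  | empty => simpa using (zero : HasExp S s n l m J _)
  | insert a T ha ih =>
    have h1 := (h a (mem_insert_self a T)).add (ih fun i hi => h i (mem_insert_of_mem hi))
    exact h1.congr fun p _ => Finset.sum_insert ha

theorem prod {ι : Type*} (T : Finset ι) (F : ι → P → ℤ) (K : ι → ℕ)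
    (h : ∀ i ∈ T, HasExp S s n l m (K i) (F i)) :
    HasExp S s n l m (∑ i ∈ T, K i) (fun p => ∏ i ∈ T, F i p) := by
  classical
  induction T using Finset.induction_on with
  | empty => simpa using (one : HasExp S s n l m 0 _)
  | insert a T ha ih =>
    have h1 := (h a (mem_insert_self a T)).mul (ih fun i hi => h i (mem_insert_of_mem hi))
    rw [Finset.sum_insert ha]
    exact h1.congr fun p _ => Finset.prod_insert ha


/-- A polynomial in functions with expansions of degree `0` has an expansion of degree `0`. -/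
theorem mvPolynomial {κ : Type*} (x : P → κ → ℤ) (h : ∀ i, HasExp S s n l m 0 (fun p => x p i))
    (Q : MvPolynomial κ ℤ) : HasExp S s n l m 0 (fun p => MvPolynomial.eval (x p) Q) := by
  induction Q using MvPolynomial.induction_on with
  | C a => exact (const a).congr fun p _ => by simp
  | add Q Q' h1 h2 => exact (h1.add h2).congr fun p _ => by simp
  | mul_X Q i h1 => exact (h1.mul (h i)).congr fun p _ => by simp

/-- Univariate polynomial version. -/
theorem polynomial {x : P → ℤ} (h : HasExp S s n l m 0 x)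
    (Q : Polynomial ℤ) : HasExp S s n l m 0 (fun p => Q.eval (x p)) := by
  induction Q using Polynomial.induction_on with
  | C a => exact (const a).congr fun p _ => by simp
  | add Q Q' h1 h2 => exact (h1.add h2).congr fun p _ => by simp
  | monomial k a h1 => exact (h1.mul h).congr fun p _ => by simp [_root_.pow_succ, mul_assoc]

/-- Exact division by a function which is invertible modulo `l` on `S`. -/
theorem div {D : P → ℤ} (hD : HasExp S s n l m 0 D) (u : ℤ) (hu : ∀ p ∈ S, l ∣ 1 - u * D p)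
    (hψ : HasExp S s n l m J ψ) (h : ∀ p ∈ S, l ^ m ∣ D p * φ p - ψ p) :
    HasExp S s n l m J φ := by
  have hW : HasExp S s n l m 0 (fun p => ∑ i ∈ range m, u * (1 - u * D p) ^ i) :=
    sum _ _ fun i _ => const_mul u ((one.sub (const_mul u hD)).pow_zero i)
  refine (mul_zero_left hW hψ).congr_mod fun p hp => ?_
  have h1 : (∑ i ∈ range m, u * (1 - u * D p) ^ i) * D p = 1 - (1 - u * D p) ^ m := by
    rw [← Finset.mul_sum]
    have := mul_neg_geom_sum (1 - u * D p) m
    rw [← this]; ring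
  have h2 : φ p - (∑ i ∈ range m, u * (1 - u * D p) ^ i) * ψ p =
      (∑ i ∈ range m, u * (1 - u * D p) ^ i) * (D p * φ p - ψ p) +
        (1 - u * D p) ^ m * φ p := by
    have : φ p = (∑ i ∈ range m, u * (1 - u * D p) ^ i) * D p * φ p +
        (1 - u * D p) ^ m * φ p := by rw [h1]; ring
    linear_combination this
  rw [h2]
  exact dvd_add ((h p hp).mul_left _) ((pow_dvd_pow_of_dvd (hu p hp) m).mul_right _)



/-- Improve the precision: from `z ≡ Q(s)` modulo `l ^ j` (`j ≥ 1`, `l ∣ z`) to modulo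
`l ^ (j + 1)`, for `z` satisfying an equation `∑ c_i z ^ i = 0` with `c_1` invertible modulo `l`. -/
theorem implicit_step {j K : ℕ} {z : P → ℤ} {c : ℕ → P → ℤ} (hj : 1 ≤ j)
    (hc : ∀ i ≤ K, HasExp S s n l (j + 1) 0 (c i)) (hK : 1 ≤ K) (u : ℤ)
    (hu : ∀ p ∈ S, l ∣ 1 - u * c 1 p) (hz : ∀ p ∈ S, l ∣ z p)
    (heq : ∀ p ∈ S, l ^ (j + 1) ∣ ∑ i ∈ range (K + 1), c i p * z p ^ i)
    (h : HasExp S s n l j 0 z) : HasExp S s n l (j + 1) 0 z := by
  obtain ⟨G, hG, h⟩ := h
  obtain ⟨Q, rfl⟩ : ∃ Q, G = C Q := ⟨G.coeff 0, eq_C_of_natDegree_le_zero hG⟩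
  simp only [eval₂_C] at h
  have hQ : ∀ p ∈ S, l ∣ MvPolynomial.eval (s p) Q := by
    intro p hp
    have h1 : l ∣ z p - MvPolynomial.eval (s p) Q :=
      (dvd_pow_self l (by omega)).trans (h p hp)
    have h2 := dvd_sub (hz p hp) h1
    rwa [sub_sub_cancel] at h2
  -- the right hand side
  have hR : HasExp S s n l (j + 1) 0 (fun p => -(c 0 p + ∑ i ∈ Ico 2 (K + 1),
      c i p * MvPolynomial.eval (s p) Q ^ i)) := by
    refine ((hc 0 (by omega)).add (sum _ _ fun i hi => ?_)).neg
    have hi' := mem_Ico.mp hi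
    exact (hc i (by omega)).mul ((coeff (J := 0) Q).pow_zero i)
  refine div (hc 1 hK) u hu hR fun p hp => ?_
  have h1 := heq p hp
  have h2 : ∑ i ∈ range (K + 1), c i p * z p ^ i =
      c 0 p + c 1 p * z p + ∑ i ∈ Ico 2 (K + 1), c i p * z p ^ i := by
    rw [Finset.range_eq_Ico, ← Finset.sum_Ico_consecutive _ (Nat.zero_le 2) (by omega)]
    congr 1
    simp [Finset.sum_range_succ]
  have h3 : l ^ (j + 1) ∣ ∑ i ∈ Ico 2 (K + 1), c i p * z p ^ i -
      ∑ i ∈ Ico 2 (K + 1), c i p * MvPolynomial.eval (s p) Q ^ i := by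
    rw [← Finset.sum_sub_distrib]
    refine Finset.dvd_sum fun i hi => ?_
    have hi' := mem_Ico.mp hi
    rw [← mul_sub]
    refine Dvd.dvd.mul_left ?_ _
    obtain ⟨k, rfl⟩ : ∃ k, i = k + 2 := ⟨i - 2, by omega⟩
    rw [← geom_sum₂_mul (z p) (MvPolynomial.eval (s p) Q) (k + 2), mul_comm, _root_.pow_succ]
    refine mul_dvd_mul (h p hp) (Finset.dvd_sum fun a ha => ?_)
    have ha' := mem_range.mp ha
    rcases Nat.eq_zero_or_pos a with h0 | h0
    · subst h0
      exact Dvd.dvd.mul_left (dvd_pow (hQ p hp) (by omega)) _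
    · exact Dvd.dvd.mul_right (dvd_pow (hz p hp) (by omega)) _
  rw [h2] at h1
  have h4 := dvd_sub h1 h3
  exact dvd_congr_right h4 (by ring)

/-- **Implicit function theorem modulo `l ^ m`.** If `z` is divisible by `l` on `S` and satisfies
`∑_{i ≤ K} c_i z ^ i = 0` with `c_1` invertible modulo `l`, then `z` is a polynomial in the local
parameters modulo `l ^ m`. -/
theorem implicit {K : ℕ} {z : P → ℤ} {c : ℕ → P → ℤ}
    (hc : ∀ m, ∀ i ≤ K, HasExp S s n l m 0 (c i)) (hK : 1 ≤ K) (u : ℤ)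
    (hu : ∀ p ∈ S, l ∣ 1 - u * c 1 p) (hz : ∀ p ∈ S, l ∣ z p)
    (heq : ∀ p ∈ S, ∑ i ∈ range (K + 1), c i p * z p ^ i = 0) (m : ℕ) :
    HasExp S s n l m 0 z := by
  induction m with
  | zero => exact ⟨0, by simp, fun p _ => by simp⟩
  | succ j ih =>
    rcases Nat.eq_zero_or_pos j with h0 | h0
    · subst h0
      refine ⟨0, by simp, fun p hp => ?_⟩
      simpa using hz p hp
    · exact implicit_step h0 (fun i hi => hc (j + 1) i hi) hK u hu hz
        (fun p hp => by rw [heq p hp]; exact dvd_zero _) ih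


/-! ### Functions on an `r`-dimensional slice -/

section slice

variable {κ : Type*} {t : P → κ → ℤ} {t0 : κ → ℤ}

/-- coordinates in the class of `t0` -/
theorem coord (i : κ) : HasExp S (fun p i => t p i - t0 i) n l m J (fun p => t p i) :=
  ((param i).add (const (t0 i))).congr fun p _ => by ring

/-- polynomials in the coordinates -/
theorem coord_poly (Q : MvPolynomial κ ℤ) :
    HasExp S (fun p i => t p i - t0 i) n l m 0 (fun p => MvPolynomial.eval (t p) Q) :=
  mvPolynomial t (fun i => coord i) Q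

theorem dvd_eval_sub (Q : MvPolynomial κ ℤ) {x y : κ → ℤ} (h : ∀ i, l ∣ x i - y i) :
    l ∣ MvPolynomial.eval x Q - MvPolynomial.eval y Q := by
  induction Q using MvPolynomial.induction_on with
  | C a => simp
  | add p q hp hq =>
    exact dvd_congr_right (dvd_add hp hq) (by simp only [map_add]; ring)
  | mul_X p i hp =>
    exact dvd_congr_right (dvd_add (hp.mul_right (x i)) ((h i).mul_left (MvPolynomial.eval y p)))
      (by simp only [map_mul, MvPolynomial.eval_X]; ring)

/-- A function with `φ * D(t) ^ K = ∑_{j ≤ J} G_j(t) n ^ j`, `D(t0)` prime to `l`. -/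
theorem slice (D : MvPolynomial κ ℤ) (K : ℕ) (G : ℕ → MvPolynomial κ ℤ)
    (ht : ∀ p ∈ S, ∀ i, l ∣ t p i - t0 i) (hD : IsCoprime (MvPolynomial.eval t0 D) l)
    (hφ : ∀ p ∈ S, φ p * (MvPolynomial.eval (t p) D) ^ K =
      ∑ j ∈ range (J + 1), MvPolynomial.eval (t p) (G j) * n p ^ j) :
    HasExp S (fun p i => t p i - t0 i) n l m J φ := by
  obtain ⟨u, v, huv⟩ := hD.pow_left (m := K)
  have h1 : HasExp S (fun p i => t p i - t0 i) n l m J
      (fun p => ∑ j ∈ range (J + 1), MvPolynomial.eval (t p) (G j) * n p ^ j) := by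
    refine sum _ _ fun j hj => ?_
    have hj' := mem_range.mp hj
    exact mul_zero_left (coord_poly (G j)) ((var_pow j).mono (by omega))
  refine div ((coord_poly D).pow_zero K) u (fun p hp => ?_) h1 fun p hp => ?_
  · have h2 : l ∣ (MvPolynomial.eval (t p) D) ^ K - (MvPolynomial.eval t0 D) ^ K :=
      (dvd_eval_sub D (ht p hp)).trans (sub_dvd_pow_sub_pow _ _ K)
    exact dvd_congr_right (dvd_sub (dvd_mul_left l v) (h2.mul_left u))
      (by linear_combination -huv)
  · rw [← hφ p hp, mul_comm, sub_self]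
    exact dvd_zero _


end slice

end HasExp

open Crest.Agent.R22 in
/-- Conversion to types. -/
theorem exists_types {r : ℕ} {S : Set P} {s : P → Fin r → ℤ} {n : P → ℤ} {l : ℕ} {m J : ℕ}
    {φ : P → ℤ} (hs : ∀ p ∈ S, ∀ i, (l : ℤ) ∣ s p i) (h : HasExp S s n l m J φ) :
    ∃ c : Fin (J + 1) × (Fin r → Fin m) → ℤ, ∀ p ∈ S,
      (l : ℤ) ^ m ∣ φ p - ∑ x : Fin (J + 1) × (Fin r → Fin m),
        c x * (n p ^ (x.1 : ℕ) * ∏ i, s p i ^ (x.2 i : ℕ)) := by
  obtain ⟨G, hG, h⟩ := h
  choose c hc using fun j : Fin (J + 1) => TypeExp.exists_taylor l m (G.coeff j) 0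
  refine ⟨fun x => c x.1 x.2, fun p hp => ?_⟩
  have h1 := h p hp
  have h2 : G.eval₂ (MvPolynomial.eval (s p)) (n p) = ∑ j : Fin (J + 1),
      MvPolynomial.eval (s p) (G.coeff j) * n p ^ (j : ℕ) := by
    rw [eval₂_eq_sum_range' _ (n := J + 1) (by omega)]
    exact (Fin.sum_univ_eq_sum_range
      (fun j => MvPolynomial.eval (s p) (G.coeff j) * n p ^ j) (J + 1)).symm
  have h3 : (l : ℤ) ^ m ∣ ∑ j : Fin (J + 1), n p ^ (j : ℕ) *
      (MvPolynomial.eval (s p) (G.coeff j) - ∑ e, c j e * ∏ i, s p i ^ (e i : ℕ)) := by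
    refine Finset.dvd_sum fun j _ => Dvd.dvd.mul_left ?_ _
    have := hc j (s p) (fun i => by simpa using hs p hp i)
    simpa using this
  have h4 := dvd_add h1 h3
  refine dvd_congr_right h4 ?_
  rw [h2, Fintype.sum_prod_type]
  have h5 : ∑ j : Fin (J + 1), n p ^ (j : ℕ) *
      (MvPolynomial.eval (s p) (G.coeff j) - ∑ e, c j e * ∏ i, s p i ^ (e i : ℕ)) =
      ∑ j : Fin (J + 1), MvPolynomial.eval (s p) (G.coeff j) * n p ^ (j : ℕ) -
      ∑ j : Fin (J + 1), ∑ e, c j e * (n p ^ (j : ℕ) * ∏ i, s p i ^ (e i : ℕ)) := by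
    rw [← Finset.sum_sub_distrib]
    refine Finset.sum_congr rfl fun j _ => ?_
    rw [mul_sub, Finset.mul_sum]
    congr 1
    · ring
    · exact Finset.sum_congr rfl fun e _ => by ring
  rw [h5]
  ring

open Crest.Agent.R22 in
/-- **Determinant step for functions with expansions.** For each auxiliary `l ∈ L` there are `r`
local parameters divisible by `l` in which all the functions `F i` have expansions of `n`-degree
`≤ J` modulo `l ^ m`. -/
theorem relation_hasExp {ι : Type*} [Fintype ι] [DecidableEq ι] {r J m w : ℕ} (S : Set P)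
    (F : ι → P → ℤ) (L : Finset ℕ) (hL : (L : Set ℕ).Pairwise Nat.Coprime)
    (hexp : ∀ l ∈ L, ∃ (s : P → Fin r → ℤ) (n : P → ℤ), (∀ p ∈ S, ∀ i, (l : ℤ) ∣ s p i) ∧
      ∀ i, HasExp S s n l m J (F i))
    (B : ι → ℝ) (hB : ∀ p ∈ S, ∀ i, |(F i p : ℝ)| ≤ B i)
    (hw : w + (J + 1) * (m + r).choose (r + 1) ≤ m * Fintype.card ι)
    (hlt : (Fintype.card ι).factorial * ∏ i, B i < ((∏ l ∈ L, l : ℕ) : ℝ) ^ w) :
    ∃ a : ι → ℤ, a ≠ 0 ∧ ∀ p ∈ S, ∑ i, a i * F i p = 0 := by
  refine DetCore.relation_of_class S F B hB L hL w m (fun l hl => ?_) hlt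
  obtain ⟨s, n, hs, hF⟩ := hexp l hl
  choose c hc using fun i => exists_types hs (hF i)
  refine ⟨Fin (J + 1) × (Fin r → Fin m), inferInstance, TypeCount.ord J r m, c,
    fun x p => n p ^ (x.1 : ℕ) * ∏ i, s p i ^ (x.2 i : ℕ), ?_, ?_, ?_⟩
  · intro x p hp
    refine Dvd.dvd.mul_left ?_ _
    rw [TypeCount.ord, ← Finset.prod_pow_eq_pow_sum]
    exact Finset.prod_dvd_prod_of_dvd _ _ fun i _ => pow_dvd_pow_of_dvd (hs p hp i) _
  · intro i p hp
    exact hc i p hp
  · intro T k hT
    have := TypeCount.ord_lower J r m T k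
    rw [hT] at this
    omega

end Crest.Agent.R022.Expand
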