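import Mathlib
import Crest.Agent.R022.Expand
import Crest.Agent.R22.PolyKit859
import Crest.Agent.R022.SliceDefs

-- ▼ part R022/Curve354A
section

/-! Row 22, stage 4 (helper354): algebra of the curve stage. -/

set_option autoImplicit false

open Polynomial Finset

namespace Crest.Agent.R022.Curve354

/-- A polynomial of degree `< #S` vanishing at the (distinct) points `x p`, `p ∈ S`, is zero. -/
theorem eq_zero_of_many {k P : Type*} [Field k] (Q : k[X]) (S : Finset P) (x : P → k)
    (hx : Set.InjOn x S) (hcard : Q.natDegree < S.card) (h : ∀ p ∈ S, Q.eval (x p) = 0) :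
    Q = 0 := by
  classical
  refine Polynomial.eq_zero_of_natDegree_lt_card_of_eval_eq_zero' Q (S.image x) ?_ ?_
  · intro i hi
    obtain ⟨p, hp, rfl⟩ := Finset.mem_image.mp hi
    exact h p hp
  · rwa [Finset.card_image_of_injOn hx]

/-- Points where a nonzero polynomial does not vanish: at most `natDegree` points are lost. -/
theorem card_filter_ne {k P : Type*} [Field k] [DecidableEq k] (Q : k[X]) (hQ : Q ≠ 0)
    (S : Finset P) (x : P → k) (hx : Set.InjOn x S) :
    S.card ≤ (S.filter fun p => Q.eval (x p) ≠ 0).card + Q.natDegree := by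
  have h1 : (S.filter fun p => Q.eval (x p) = 0).card ≤ Q.natDegree := by
    by_contra hcon
    push Not at hcon
    refine hQ (eq_zero_of_many Q (S.filter fun p => Q.eval (x p) = 0) x ?_ hcon ?_)
    · exact hx.mono (by
        intro p hp
        exact (Finset.mem_filter.mp (Finset.mem_coe.mp hp)).1)
    · intro p hp
      exact (Finset.mem_filter.mp hp).2
  have h2 := Finset.card_filter_add_card_filter_not (s := S) (fun p => Q.eval (x p) = 0)
  have h3 : (S.filter fun p => Q.eval (x p) ≠ 0).card =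
      (S.filter fun p => ¬ Q.eval (x p) = 0).card := rfl
  omega

/-- The Wronskian `X' R - k X R'` of a torsor parametrisation is divisible by `N ^ (k - 1)`. -/
theorem dvd_wronskian {K : Type*} [Field K] (k : ℕ) (hk : 1 ≤ k) (N β R Xh : K[X]) (c : K)
    (hX : Xh = N ^ k * β + C c * R ^ k) :
    N ^ (k - 1) ∣ derivative Xh * R - C (k : K) * Xh * derivative R := by
  obtain ⟨j, rfl⟩ : ∃ j, k = j + 1 := ⟨k - 1, by omega⟩
  subst hX
  refine ⟨C ((j + 1 : ℕ) : K) * derivative N * β * R + N * derivative β * R -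
    C ((j + 1 : ℕ) : K) * N * β * derivative R, ?_⟩
  simp only [derivative_add, derivative_mul, derivative_pow, derivative_C, Nat.add_sub_cancel]
  ring

theorem wronskian_eq_zero {ι : Type*} [Fintype ι] {K : Type*} [Field K] (k D : ℕ)
    (N β : ι → K[X]) (R Xh : K[X]) (c : ι → K)
    (hX : ∀ i, Xh = N i ^ k * β i + C (c i) * R ^ k)
    (hβ : ∀ i, (β i).natDegree ≤ 1) (hN : ∀ i, (N i).natDegree = D) (hR : R.natDegree ≤ D)
    (hN0 : ∀ i, N i ≠ 0) (hco : Pairwise (fun i j => IsCoprime (N i) (N j)))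
    (hD : 1 ≤ D) (hk : 1 ≤ k) (hdk : k + 1 < Fintype.card ι * (k - 1)) :
    derivative Xh * R - C (k : K) * Xh * derivative R = 0 := by
  classical
  by_contra hW
  have hdvd : ∏ i, N i ^ (k - 1) ∣ derivative Xh * R - C (k : K) * Xh * derivative R := by
    refine Finset.prod_dvd_of_coprime ?_ fun i _ => dvd_wronskian k hk _ _ _ _ _ (hX i)
    intro i _ j _ hij
    exact (hco hij).pow
  have h1 := Polynomial.natDegree_le_of_dvd hdvd hW
  have h2 : (∏ i, N i ^ (k - 1)).natDegree = Fintype.card ι * ((k - 1) * D) := by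
    rw [Polynomial.natDegree_prod _ _ fun i _ => pow_ne_zero _ (hN0 i)]
    simp [hN]
  -- degree of the Wronskian
  have hpos : 0 < Fintype.card ι := by
    rcases Nat.eq_zero_or_pos (Fintype.card ι) with h | h
    · rw [h] at hdk; omega
    · exact h
  obtain ⟨i0⟩ := Fintype.card_pos_iff.mp hpos
  have hXd : Xh.natDegree ≤ k * D + 1 := by
    rw [hX i0]
    refine (natDegree_add_le _ _).trans (max_le ?_ ?_)
    · refine natDegree_mul_le.trans (add_le_add ?_ (hβ i0))
      rw [natDegree_pow, hN]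
    · refine (natDegree_C_mul_le _ _).trans ?_
      rw [natDegree_pow]
      have := Nat.mul_le_mul_left k hR
      omega
  have h3 : (derivative Xh * R).natDegree ≤ (k + 1) * D := by
    refine natDegree_mul_le.trans ?_
    have := natDegree_derivative_le Xh
    have e : (k + 1) * D = k * D + D := by ring
    omega
  have h4 : (C (k : K) * Xh * derivative R).natDegree ≤ (k + 1) * D := by
    refine natDegree_mul_le.trans ?_
    have h5 : (C (k : K) * Xh).natDegree ≤ k * D + 1 := (natDegree_C_mul_le _ _).trans hXd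
    have h6 := natDegree_derivative_le R
    have e : (k + 1) * D = k * D + D := by ring
    omega
  have h7 := (natDegree_sub_le (derivative Xh * R) (C (k : K) * Xh * derivative R)).trans
    (max_le h3 h4)
  rw [h2] at h1
  have h8 : Fintype.card ι * (k - 1) * D ≤ (k + 1) * D := by
    rw [mul_assoc]; exact h1.trans h7
  have h9 := Nat.le_of_mul_le_mul_right h8 hD
  omega

/-- `Y` is an affine function of `X` on a large subset, from three polynomial relations. -/
theorem affine_of_relations {P : Type*} (S : Finset P) (X Y : P → ℚ) (f : ℕ)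
    (hX : Set.InjOn X S) (x1 y1 x2 y2 x3 y3 : ℚ[X])
    (h1 : ¬ (x1 = 0 ∧ y1 = 0)) (h2 : ¬ (x2 = 0 ∧ y2 = 0)) (h3 : ¬ (x3 = 0 ∧ y3 = 0))
    (h30 : y3.coeff 0 = 0)
    (dx1 : x1.natDegree ≤ f) (dy1 : y1.natDegree ≤ f) (dx2 : x2.natDegree ≤ f)
    (dy2 : y2.natDegree ≤ f) (dx3 : x3.natDegree ≤ f) (dy3 : y3.natDegree ≤ f)
    (r1 : ∀ p ∈ S, x1.eval (X p) + y1.eval (X p) * Y p = 0)
    (r2 : ∀ p ∈ S, x2.eval (Y p) + y2.eval (Y p) * X p = 0)
    (r3 : ∀ p ∈ S, x3.eval (X p) + y3.eval (Y p) = 0)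
    (hcard : f * f + 2 * f + 1 < S.card) :
    ∃ S' ⊆ S, S.card ≤ S'.card + f ∧ ∃ a c : ℚ, ∀ p ∈ S', Y p = a * X p + c := by
  classical
  -- y1 ≠ 0
  have hy1 : y1 ≠ 0 := by
    intro h
    refine h1 ⟨eq_zero_of_many x1 S X hX (by nlinarith) fun p hp => ?_, h⟩
    have := r1 p hp
    rw [h] at this
    simpa using this
  -- divide by the gcd
  obtain ⟨u, v, g, hg0, hxu, hyv, huv⟩ : ∃ u v g : ℚ[X], g ≠ 0 ∧ x1 = g * u ∧ y1 = g * v ∧
      IsCoprime u v := by
    have hgcd : EuclideanDomain.gcd x1 y1 ≠ 0 := by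
      intro h
      exact hy1 ((EuclideanDomain.gcd_eq_zero_iff.mp h).2)
    obtain ⟨u, hu⟩ := EuclideanDomain.gcd_dvd_left x1 y1
    obtain ⟨v, hv⟩ := EuclideanDomain.gcd_dvd_right x1 y1
    refine ⟨u, v, EuclideanDomain.gcd x1 y1, hgcd, hu, hv, ?_⟩
    have hb := EuclideanDomain.gcd_eq_gcd_ab x1 y1
    refine ⟨EuclideanDomain.gcdA x1 y1, EuclideanDomain.gcdB x1 y1, ?_⟩
    apply mul_left_cancel₀ hgcd
    calc EuclideanDomain.gcd x1 y1 * (EuclideanDomain.gcdA x1 y1 * u +
          EuclideanDomain.gcdB x1 y1 * v)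
        = (EuclideanDomain.gcd x1 y1 * u) * EuclideanDomain.gcdA x1 y1 +
          (EuclideanDomain.gcd x1 y1 * v) * EuclideanDomain.gcdB x1 y1 := by ring
      _ = x1 * EuclideanDomain.gcdA x1 y1 + y1 * EuclideanDomain.gcdB x1 y1 := by
          rw [← hu, ← hv]
      _ = EuclideanDomain.gcd x1 y1 * 1 := by rw [mul_one]; exact hb.symm
  have hv0 : v ≠ 0 := by
    rintro rfl
    exact hy1 (by rw [hyv, mul_zero])
  have hgd : g.natDegree ≤ f := by
    have := natDegree_le_of_dvd (Dvd.intro _ hyv.symm) hy1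
    omega
  have hvd : v.natDegree ≤ f := by
    have := natDegree_le_of_dvd (Dvd.intro_left _ hyv.symm) hy1
    omega
  have hud : u.natDegree ≤ f := by
    rcases eq_or_ne x1 0 with h | h
    · have : u = 0 := by
        rw [h] at hxu
        rcases mul_eq_zero.mp hxu.symm with h' | h'
        · exact absurd h' hg0
        · exact h'
      rw [this]; simp
    · have := natDegree_le_of_dvd (Dvd.intro_left _ hxu.symm) h
      omega
  set S' := S.filter fun p => g.eval (X p) ≠ 0 with hS'
  have hS'S : S' ⊆ S := Finset.filter_subset _ _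
  have hX' : Set.InjOn X S' := hX.mono (by exact_mod_cast hS'S)
  have hc' : S.card ≤ S'.card + f := by
    have h := card_filter_ne g hg0 S X hX
    rw [← hS'] at h
    omega
  have r1' : ∀ p ∈ S', u.eval (X p) + v.eval (X p) * Y p = 0 := by
    intro p hp
    have h4 := r1 p (hS'S hp)
    have h5 : g.eval (X p) ≠ 0 := (Finset.mem_filter.mp hp).2
    rw [hxu, hyv, eval_mul, eval_mul] at h4
    apply mul_left_cancel₀ h5
    linear_combination h4
  -- v is a unit
  have hvunit : IsUnit v := by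
    set e := y3.natDegree with he
    -- the identity
    have hid : x3 * v ^ e + ∑ i ∈ range (e + 1), C (y3.coeff i) * (-u) ^ i * v ^ (e - i) = 0 := by
      refine eq_zero_of_many _ S' X hX' ?_ fun p hp => ?_
      · have hdeg : (x3 * v ^ e + ∑ i ∈ range (e + 1),
            C (y3.coeff i) * (-u) ^ i * v ^ (e - i)).natDegree ≤ f + f * f := by
          refine (natDegree_add_le _ _).trans (max_le ?_ ?_)
          · refine natDegree_mul_le.trans (add_le_add dx3 ?_)
            rw [natDegree_pow]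
            exact Nat.mul_le_mul dy3 hvd
          · refine natDegree_sum_le_of_forall_le _ _ fun i hi => ?_
            have hi' := mem_range.mp hi
            refine natDegree_mul_le.trans ?_
            have h6 : (C (y3.coeff i) * (-u) ^ i).natDegree ≤ i * f := by
              refine (natDegree_C_mul_le _ _).trans ?_
              rw [natDegree_pow, natDegree_neg]
              exact Nat.mul_le_mul_left _ hud
            have h7 : (v ^ (e - i)).natDegree ≤ (e - i) * f := by
              rw [natDegree_pow]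
              exact Nat.mul_le_mul_left _ hvd
            have h8 : i * f + (e - i) * f = e * f := by
              rw [← add_mul]; congr 1; omega
            have h9 : e * f ≤ f * f := Nat.mul_le_mul_right _ dy3
            omega
        have : S.card ≤ S'.card + f := hc'
        omega
      · have h4 := r1' p hp
        have h5 := r3 p (hS'S hp)
        rw [eval_add, eval_mul, eval_pow, Polynomial.eval_finsetSum]
        have h6 : ∀ i ∈ range (e + 1), (C (y3.coeff i) * (-u) ^ i * v ^ (e - i)).eval (X p) =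
            y3.coeff i * Y p ^ i * (v.eval (X p)) ^ e := by
          intro i hi
          have hi' := mem_range.mp hi
          simp only [eval_mul, eval_pow, eval_neg, eval_C]
          have h7 : -u.eval (X p) = v.eval (X p) * Y p := by linear_combination -h4
          rw [h7, mul_pow]
          have h8 : (v.eval (X p)) ^ e = (v.eval (X p)) ^ i * (v.eval (X p)) ^ (e - i) := by
            rw [← pow_add]; congr 1; omega
          rw [h8]; ring
        rw [Finset.sum_congr rfl h6, ← Finset.sum_mul, ← Polynomial.eval_eq_sum_range, ← add_mul,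
          h5, zero_mul]
    -- e ≥ 1
    have he1 : 1 ≤ e := by
      by_contra hcon
      have he0 : e = 0 := by omega
      have hy3 : y3 = 0 := by
        have h7 : y3 = C (y3.coeff 0) := Polynomial.eq_C_of_natDegree_eq_zero (by omega)
        rw [h7, h30, C_0]
      refine h3 ⟨?_, hy3⟩
      refine eq_zero_of_many x3 S X hX (by nlinarith) fun p hp => ?_
      have := r3 p hp
      rw [hy3] at this
      simpa using this
    have hlead : y3.coeff e ≠ 0 := by
      rw [he]
      intro h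
      have : y3 = 0 := by
        rwa [Polynomial.coeff_natDegree, leadingCoeff_eq_zero] at h
      rw [this] at he
      simp at he
      omega
    have hdvd : v ∣ C (y3.coeff e) * (-u) ^ e := by
      rw [Finset.sum_range_succ] at hid
      have h6 : C (y3.coeff e) * (-u) ^ e = -(x3 * v ^ e +
          ∑ i ∈ range e, C (y3.coeff i) * (-u) ^ i * v ^ (e - i)) := by
        have : C (y3.coeff e) * (-u) ^ e * v ^ (e - e) = C (y3.coeff e) * (-u) ^ e := by simp
        rw [this] at hid
        linear_combination hid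
      rw [h6]
      refine (dvd_neg.mpr (dvd_add ?_ ?_))
      · exact Dvd.dvd.mul_left (dvd_pow_self v (by omega)) _
      · refine Finset.dvd_sum fun i hi => ?_
        have hi' := mem_range.mp hi
        exact Dvd.dvd.mul_left (dvd_pow_self v (by omega)) _
    have hcop : IsCoprime v (C (y3.coeff e) * (-u) ^ e) := by
      refine IsCoprime.mul_right ?_ ?_
      · exact (isCoprime_one_right).of_isCoprime_of_dvd_right
          ((Polynomial.isUnit_C.mpr (Ne.isUnit hlead)).dvd)
      · exact (huv.neg_left.symm).pow_right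
    exact hcop.isUnit_of_dvd' dvd_rfl hdvd
  obtain ⟨v0, hv0', hvC⟩ : ∃ v0 : ℚ, v0 ≠ 0 ∧ v = C v0 := by
    obtain ⟨c, hc, hcv⟩ := Polynomial.isUnit_iff.mp hvunit
    exact ⟨c, hc.ne_zero, hcv.symm⟩
  -- Y = R(X)
  set R : ℚ[X] := C (-v0⁻¹) * u with hR
  have hYR : ∀ p ∈ S', Y p = R.eval (X p) := by
    intro p hp
    have h4 := r1' p hp
    rw [hvC, eval_C] at h4
    rw [hR, eval_mul, eval_C]
    field_simp
    linear_combination h4
  have hRd : R.natDegree ≤ f := (natDegree_C_mul_le _ _).trans hud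
  have hR1 : R.natDegree ≤ 1 := by
    by_contra hcon
    push Not at hcon
    have hid : x2.comp R + y2.comp R * Polynomial.X = 0 := by
      refine eq_zero_of_many _ S' X hX' ?_ fun p hp => ?_
      · have : (x2.comp R + y2.comp R * Polynomial.X).natDegree ≤ f * f + 1 := by
          refine (natDegree_add_le _ _).trans (max_le ?_ ?_)
          · refine natDegree_comp_le.trans ?_
            have := Nat.mul_le_mul dx2 hRd
            omega
          · refine natDegree_mul_le.trans (add_le_add ?_ natDegree_X_le)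
            refine natDegree_comp_le.trans ?_
            exact Nat.mul_le_mul dy2 hRd
        have h6 := hc'
        have h7 : f * f + f + 1 < S'.card := by omega
        omega
      · have h4 := r2 p (hS'S hp)
        rw [hYR p hp] at h4
        simpa [eval_comp] using h4
    have hy2 : y2 ≠ 0 := by
      intro h
      rw [h] at hid
      simp only [zero_comp, zero_mul, add_zero] at hid
      refine h2 ⟨?_, h⟩
      rcases Polynomial.comp_eq_zero_iff.mp hid with h' | ⟨_, h'⟩
      · exact h'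
      · rw [h'] at hcon
        simp at hcon
    have hcomp0 : y2.comp R ≠ 0 := by
      intro h
      rcases Polynomial.comp_eq_zero_iff.mp h with h' | ⟨_, h'⟩
      · exact hy2 h'
      · rw [h'] at hcon
        simp at hcon
    have h5 : (x2.comp R).natDegree = (y2.comp R * Polynomial.X).natDegree := by
      have : x2.comp R = -(y2.comp R * Polynomial.X) := by linear_combination hid
      rw [this, natDegree_neg]
    rw [natDegree_comp, natDegree_mul_X hcomp0, natDegree_comp] at h5
    have h6 : R.natDegree ∣ 1 := by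
      have h7 : R.natDegree ∣ y2.natDegree * R.natDegree + 1 := by
        rw [← h5]; exact Dvd.intro_left _ rfl
      exact (Nat.dvd_add_right (Dvd.intro_left _ rfl)).mp h7
    have := Nat.le_of_dvd one_pos h6
    omega
  refine ⟨S', hS'S, hc', R.coeff 1, R.coeff 0, fun p hp => ?_⟩
  rw [hYR p hp]
  conv_lhs => rw [Polynomial.eq_X_add_C_of_natDegree_le_one hR1]
  simp

end Crest.Agent.R022.Curve354
end

-- ▼ part R022/Curve354B
section

/-! Row 22, stage 4 (helper354): the final algebraic contradiction of the curve stage. -/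

set_option autoImplicit false

open Polynomial Finset

namespace Crest.Agent.R022.Curve354

/-- reduction of a pair by the gcd -/
theorem exists_gcd2 {k : Type*} [Field k] (b c : k[X]) (hc : c ≠ 0) :
    ∃ g b' c' v w : k[X], g ≠ 0 ∧ b = g * b' ∧ c = g * c' ∧ v * b' + w * c' = 1 := by
  classical
  have hgcd : EuclideanDomain.gcd b c ≠ 0 := by
    intro h
    exact hc ((EuclideanDomain.gcd_eq_zero_iff.mp h).2)
  obtain ⟨u, hu⟩ := EuclideanDomain.gcd_dvd_left b c
  obtain ⟨v, hv⟩ := EuclideanDomain.gcd_dvd_right b c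
  have hb := EuclideanDomain.gcd_eq_gcd_ab b c
  refine ⟨EuclideanDomain.gcd b c, u, v, EuclideanDomain.gcdA b c, EuclideanDomain.gcdB b c,
    hgcd, hu, hv, ?_⟩
  apply mul_left_cancel₀ hgcd
  calc EuclideanDomain.gcd b c * (EuclideanDomain.gcdA b c * u + EuclideanDomain.gcdB b c * v)
      = (EuclideanDomain.gcd b c * u) * EuclideanDomain.gcdA b c +
        (EuclideanDomain.gcd b c * v) * EuclideanDomain.gcdB b c := by ring
    _ = b * EuclideanDomain.gcdA b c + c * EuclideanDomain.gcdB b c := by rw [← hu, ← hv]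
    _ = EuclideanDomain.gcd b c * 1 := by rw [mul_one]; exact hb.symm

/-- reduction of a triple by the gcd -/
theorem exists_gcd3 {k : Type*} [Field k] (a b c : k[X]) (hc : c ≠ 0) :
    ∃ g a' b' c' u v w : k[X], g ≠ 0 ∧ a = g * a' ∧ b = g * b' ∧ c = g * c' ∧
      u * a' + v * b' + w * c' = 1 := by
  obtain ⟨g2, b2, c2, v, w, hg2, hb, hc', h1⟩ := exists_gcd2 b c hc
  obtain ⟨g, a', g', s, t, hg, ha, hg', h2⟩ := exists_gcd2 a g2 hg2
  refine ⟨g, a', g' * b2, g' * c2, s, t * v, t * w, hg, ha, ?_, ?_, ?_⟩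
  · rw [hb, hg']; ring
  · rw [hc', hg']; ring
  · calc s * a' + t * v * (g' * b2) + t * w * (g' * c2)
        = s * a' + t * g' * (v * b2 + w * c2) := by ring
      _ = 1 := by rw [h1, mul_one, h2]

/-- If the Wronskian of `Xh` and `R ^ k` vanishes then `Xh` is a multiple of `R ^ k`. -/
theorem eq_of_wronskian {K : Type*} [Field K] [CharZero K] (k : ℕ) (hk : 1 ≤ k) (Xh R : K[X])
    (hW : derivative Xh * R - C (k : K) * Xh * derivative R = 0) (x0 : K) (hx0 : R.eval x0 ≠ 0) :
    Xh = C (Xh.eval x0 / R.eval x0 ^ k) * R ^ k := by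
  set c := Xh.eval x0 / R.eval x0 ^ k with hc
  by_contra hne
  set Z := Xh - C c * R ^ k with hZ
  have hZ0 : Z ≠ 0 := sub_ne_zero.mpr hne
  have hZr : Z.IsRoot x0 := by
    rw [IsRoot, hZ, eval_sub, eval_mul, eval_C, eval_pow, hc,
      div_mul_cancel₀ _ (pow_ne_zero _ hx0), sub_self]
  have hWZ : derivative Z * R = C (k : K) * Z * derivative R := by
    obtain ⟨j, rfl⟩ : ∃ j, k = j + 1 := ⟨k - 1, by omega⟩
    rw [hZ]
    simp only [derivative_sub, derivative_mul, derivative_pow, derivative_C, Nat.add_sub_cancel]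
    linear_combination hW
  have hm := derivative_rootMultiplicity_of_root hZr
  have hm1 : 1 ≤ Z.rootMultiplicity x0 := (Polynomial.rootMultiplicity_pos hZ0).mpr hZr
  have hdZ : derivative Z ≠ 0 := by
    intro h
    have h1 : Z.natDegree = 0 := Polynomial.derivative_eq_zero.mp h
    rw [Polynomial.eq_C_of_natDegree_eq_zero h1] at hZ0 hZr
    simp only [IsRoot, eval_C] at hZr
    rw [hZr] at hZ0
    simp at hZ0
  have h1 : (Polynomial.X - C x0) ^ Z.rootMultiplicity x0 ∣ derivative Z * R := by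
    rw [hWZ]
    exact Dvd.dvd.mul_right (Dvd.dvd.mul_left (Polynomial.pow_rootMultiplicity_dvd Z x0) _) _
  have h2 : IsCoprime ((Polynomial.X - C x0) ^ Z.rootMultiplicity x0) R := by
    refine IsCoprime.pow_left ?_
    rw [(Polynomial.irreducible_X_sub_C x0).coprime_iff_not_dvd, dvd_iff_isRoot]
    exact hx0
  have h3 := h2.dvd_of_dvd_mul_right h1
  have h4 := (Polynomial.le_rootMultiplicity_iff hdZ).mpr h3
  omega

theorem split_sum {d : ℕ} (hd : 2 ≤ d) (z u v w : ℂ) (a : Fin d → ℂ) :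
    ∑ j : Fin d, (if (j : ℕ) = 0 then u else if (j : ℕ) = 1 then v else a j * w) * z ^ (j : ℕ) =
      u + z * v + (∑ j : Fin d, if 2 ≤ (j : ℕ) then a j * z ^ (j : ℕ) else 0) * w := by
  have h : ∀ j : Fin d, (if (j : ℕ) = 0 then u else if (j : ℕ) = 1 then v else a j * w) *
      z ^ (j : ℕ) = (if j = ⟨0, by omega⟩ then u else 0) + (if j = ⟨1, by omega⟩ then z * v else 0) +
        (if 2 ≤ (j : ℕ) then a j * z ^ (j : ℕ) else 0) * w := by
    intro j
    rcases j with ⟨j, hj⟩
    rcases j with _ | _ | j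
    · simp
    · simp; ring
    · simp; ring
  rw [Finset.sum_congr rfl fun j _ => h j, Finset.sum_add_distrib, Finset.sum_add_distrib,
    Finset.sum_ite_eq' , Finset.sum_ite_eq', Finset.sum_mul]
  simp

/-- The final contradiction of the curve stage. -/
theorem final_contra {P : Type*} {d : ℕ} (hd : 2 ≤ d) (k e : ℕ) (hk : 1 ≤ k)
    (hdk : k + 1 < d * (k - 1)) (z : Fin d → ℂ) (hz : Function.Injective z)
    (hlin : ∀ i, ∀ c : Fin d → ℚ, ∑ j, (c j : ℂ) * z i ^ (j : ℕ) = 0 → c = 0)
    (a0 : Fin d → ℚ) (ha0 : ∃ j : Fin d, 2 ≤ (j : ℕ) ∧ a0 j ≠ 0) (aa : Fin d → ℂ)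
    (haa : ∀ i, aa i = ∑ j : Fin d, if 2 ≤ (j : ℕ) then (a0 j : ℂ) * z i ^ (j : ℕ) else 0)
    (M : ℂ) (hM : M ≠ 0) (S : Finset P) (x t0 t1 n : P → ℚ) (b : P → Fin d → ℚ)
    (hx : Set.InjOn x S) (ht : Set.InjOn (fun p => (t0 p, t1 p)) S)
    (R0 N00 N10 : ℚ[X]) (hR0 : R0 ≠ 0) (dR0 : R0.natDegree ≤ e) (dN00 : N00.natDegree ≤ e)
    (dN10 : N10.natDegree ≤ e)
    (h0 : ∀ p ∈ S, R0.eval (x p) * t0 p = N00.eval (x p))
    (h1 : ∀ p ∈ S, R0.eval (x p) * t1 p = N10.eval (x p))
    (A c : Fin d → ℚ) (hb : ∀ p ∈ S, ∀ j, b p j = A j * x p + c j)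
    (htor : ∀ p ∈ S, ∀ i, ((t0 p : ℂ) + z i * t1 p + aa i) ^ k *
      (∑ j, (b p j : ℂ) * z i ^ (j : ℕ)) = M * ((n p : ℂ) - z i))
    (hcard : k * e + e + 1 < S.card) : False := by
  classical
  obtain ⟨g, N0, N1, R, u, v, w, hg, hN0, hN1, hR, hbez⟩ := exists_gcd3 N00 N10 R0 hR0
  have hRne : R ≠ 0 := by
    rintro rfl
    exact hR0 (by rw [hR, mul_zero])
  have hgd : g.natDegree ≤ e :=
    (natDegree_le_of_dvd (Dvd.intro _ hR.symm) hR0).trans dR0
  have key : ∀ Q Q' : ℚ[X], Q = g * Q' → Q.natDegree ≤ e → Q'.natDegree ≤ e := by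
    intro Q Q' hQ hdQ
    rcases eq_or_ne Q' 0 with h | h
    · rw [h]; simp
    · have hQ0 : Q ≠ 0 := by rw [hQ]; exact mul_ne_zero hg h
      exact (natDegree_le_of_dvd (Dvd.intro_left _ hQ.symm) hQ0).trans hdQ
  have dR := key _ _ hR dR0
  have dN0 := key _ _ hN0 dN00
  have dN1 := key _ _ hN1 dN10
  set S' := S.filter fun p => g.eval (x p) ≠ 0 with hS'
  have hS'S : S' ⊆ S := Finset.filter_subset _ _
  have hx' : Set.InjOn x S' := hx.mono (by exact_mod_cast hS'S)
  have hc' : S.card ≤ S'.card + e := by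
    have h := card_filter_ne g hg S x hx
    rw [← hS'] at h
    omega
  have hcard' : k * e + 1 < S'.card := by omega
  have h0' : ∀ p ∈ S', R.eval (x p) * t0 p = N0.eval (x p) := by
    intro p hp
    have h4 := h0 p (hS'S hp)
    have h5 : g.eval (x p) ≠ 0 := (Finset.mem_filter.mp hp).2
    rw [hR, hN0, eval_mul, eval_mul] at h4
    apply mul_left_cancel₀ h5
    linear_combination h4
  have h1' : ∀ p ∈ S', R.eval (x p) * t1 p = N1.eval (x p) := by
    intro p hp
    have h4 := h1 p (hS'S hp)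
    have h5 : g.eval (x p) ≠ 0 := (Finset.mem_filter.mp hp).2
    rw [hR, hN1, eval_mul, eval_mul] at h4
    apply mul_left_cancel₀ h5
    linear_combination h4
  have hRx : ∀ p ∈ S', R.eval (x p) ≠ 0 := by
    intro p hp h
    have h4 := h0' p hp
    have h5 := h1' p hp
    rw [h, zero_mul] at h4 h5
    have h6 := congrArg (Polynomial.eval (x p)) hbez
    simp only [eval_add, eval_mul, eval_one, h, ← h4, ← h5] at h6
    simp at h6
  -- pass to ℂ
  let φ : ℚ →+* ℂ := algebraMap ℚ ℂ
  have hφ : ∀ q : ℚ, φ q = (q : ℂ) := fun q => by simp [φ]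
  set RC := R.map φ with hRC
  set xC : P → ℂ := fun p => (x p : ℂ) with hxC
  have hxC' : Set.InjOn xC S' := by
    intro p hp q hq h
    have h' : (x p : ℂ) = (x q : ℂ) := h
    exact hx' hp hq (Rat.cast_injective h')
  have evC : ∀ (Q : ℚ[X]) (p : P), (Q.map φ).eval (xC p) = ((Q.eval (x p) : ℚ) : ℂ) := by
    intro Q p
    rw [Polynomial.eval_map, hxC]
    simp only
    rw [← hφ (x p), Polynomial.eval₂_at_apply, hφ]
  let NN : Fin d → ℂ[X] := fun i => N0.map φ + C (z i) * N1.map φ + C (aa i) * RC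
  let BB : Fin d → ℂ[X] := fun i => C (∑ j, (A j : ℂ) * z i ^ (j : ℕ)) * Polynomial.X +
    C (∑ j, (c j : ℂ) * z i ^ (j : ℕ))
  have evN : ∀ i, ∀ p ∈ S', (NN i).eval (xC p) =
      RC.eval (xC p) * ((t0 p : ℂ) + z i * t1 p + aa i) := by
    intro i p hp
    simp only [NN, eval_add, eval_mul, eval_C, evC, hRC]
    rw [← h0' p hp, ← h1' p hp]
    push_cast
    ring
  have evB : ∀ i, ∀ p ∈ S', (BB i).eval (xC p) = ∑ j, (b p j : ℂ) * z i ^ (j : ℕ) := by
    intro i p hp
    simp only [BB, eval_add, eval_mul, eval_C, eval_X]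
    rw [Finset.sum_mul, ← Finset.sum_add_distrib]
    refine Finset.sum_congr rfl fun j _ => ?_
    rw [hb p (hS'S hp) j, hxC]
    push_cast
    ring
  let PP : Fin d → ℂ[X] := fun i => NN i ^ k * BB i + C (M * z i) * RC ^ k
  have evP : ∀ i, ∀ p ∈ S', (PP i).eval (xC p) = M * n p * (RC.eval (xC p)) ^ k := by
    intro i p hp
    simp only [PP, eval_add, eval_mul, eval_pow, eval_C]
    rw [evN i p hp, evB i p hp, mul_pow]
    have := htor p (hS'S hp) i
    linear_combination (RC.eval (xC p)) ^ k * this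
  have dRC : RC.natDegree ≤ e := by
    rw [hRC, Polynomial.natDegree_map]; exact dR
  have dNN : ∀ i, (NN i).natDegree ≤ e := by
    intro i
    refine (natDegree_add_le _ _).trans (max_le ((natDegree_add_le _ _).trans (max_le ?_ ?_)) ?_)
    · rw [Polynomial.natDegree_map]; exact dN0
    · refine (natDegree_C_mul_le _ _).trans ?_
      rw [Polynomial.natDegree_map]; exact dN1
    · exact (natDegree_C_mul_le _ _).trans dRC
  have dBB : ∀ i, (BB i).natDegree ≤ 1 := by
    intro i
    exact natDegree_linear_le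
  have dPP : ∀ i, (PP i).natDegree ≤ k * e + 1 := by
    intro i
    refine (natDegree_add_le _ _).trans (max_le ?_ ?_)
    · refine natDegree_mul_le.trans (add_le_add ?_ (dBB i))
      rw [natDegree_pow]
      exact Nat.mul_le_mul_left _ (dNN i)
    · refine (natDegree_C_mul_le _ _).trans ?_
      rw [natDegree_pow]
      exact (Nat.mul_le_mul_left _ dRC).trans (Nat.le_succ _)
  let i0 : Fin d := ⟨0, by omega⟩
  set Xh := PP i0 with hXh
  have hPX : ∀ i, Xh = PP i := by
    intro i
    have : Xh - PP i = 0 := by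
      refine eq_zero_of_many _ S' xC hxC' ?_ fun p hp => ?_
      · refine lt_of_le_of_lt ((natDegree_sub_le _ _).trans (max_le (dPP i0) (dPP i))) hcard'
      · rw [eval_sub, hXh, evP i0 p hp, evP i p hp, sub_self]
    exact sub_eq_zero.mp this
  -- the common degree
  set D := max (max N0.natDegree N1.natDegree) R.natDegree with hD
  have hcoef : ∀ i, (NN i).coeff D = ∑ j : Fin d, (((if (j : ℕ) = 0 then N0.coeff D else
      if (j : ℕ) = 1 then N1.coeff D else a0 j * R.coeff D) : ℚ) : ℂ) * z i ^ (j : ℕ) := by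
    intro i
    simp only [NN, hRC, coeff_add, coeff_C_mul, coeff_map, hφ]
    rw [haa i, ← split_sum hd (z i) _ _ _ (fun j => (a0 j : ℂ))]
    refine Finset.sum_congr rfl fun j _ => ?_
    split_ifs <;> push_cast <;> rfl
  have hNN : ∀ i, (NN i).coeff D ≠ 0 := by
    intro i h
    rw [hcoef i] at h
    have h5 := hlin i _ h
    have h6 : N0.coeff D = 0 := by
      have := congrFun h5 ⟨0, by omega⟩
      simpa using this
    have h7 : N1.coeff D = 0 := by
      have := congrFun h5 ⟨1, by omega⟩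
      simpa using this
    have h8 : R.coeff D = 0 := by
      obtain ⟨j, hj, hj0⟩ := ha0
      have := congrFun h5 j
      have e0 : ¬ (j : ℕ) = 0 := by omega
      have e1 : ¬ (j : ℕ) = 1 := by omega
      simpa [e0, e1, hj0] using this
    -- contradiction with the definition of D
    have hcase : D = R.natDegree ∨ (D = N0.natDegree ∧ N0.natDegree ≠ 0) ∨
        (D = N1.natDegree ∧ N1.natDegree ≠ 0) := by
      by_cases hR' : D = R.natDegree
      · exact Or.inl hR'
      · right
        have : D ≠ 0 := by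
          intro h0D
          have : R.natDegree ≤ D := le_max_right _ _
          omega
        rcases max_choice (max N0.natDegree N1.natDegree) R.natDegree with h9 | h9
        · rcases max_choice N0.natDegree N1.natDegree with h10 | h10
          · left
            rw [← hD, h10] at h9
            exact ⟨h9, by omega⟩
          · right
            rw [← hD, h10] at h9
            exact ⟨h9, by omega⟩
        · exact absurd h9 hR'
    rcases hcase with h9 | ⟨h9, h10⟩ | ⟨h9, h10⟩
    · rw [h9, Polynomial.coeff_natDegree, leadingCoeff_eq_zero] at h8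
      exact hRne h8
    · rw [h9, Polynomial.coeff_natDegree, leadingCoeff_eq_zero] at h6
      rw [h6] at h10
      simp at h10
    · rw [h9, Polynomial.coeff_natDegree, leadingCoeff_eq_zero] at h7
      rw [h7] at h10
      simp at h10
  have dNN' : ∀ i, (NN i).natDegree = D := by
    intro i
    refine le_antisymm ?_ (le_natDegree_of_ne_zero (hNN i))
    refine (natDegree_add_le _ _).trans (max_le ((natDegree_add_le _ _).trans (max_le ?_ ?_)) ?_)
    · rw [Polynomial.natDegree_map]; exact (le_max_left _ _).trans (le_max_left _ _)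
    · refine (natDegree_C_mul_le _ _).trans ?_
      rw [Polynomial.natDegree_map]; exact (le_max_right _ _).trans (le_max_left _ _)
    · refine (natDegree_C_mul_le _ _).trans ?_
      rw [hRC, Polynomial.natDegree_map]; exact le_max_right _ _
  have hNN0 : ∀ i, NN i ≠ 0 := by
    intro i h
    apply hNN i
    rw [h]; simp
  have hk0 : k ≠ 0 := by omega
  -- coprimality
  have hco : Pairwise (fun i j => IsCoprime (NN i) (NN j)) := by
    intro i j hij
    rw [Polynomial.isCoprime_iff_aeval_ne_zero_of_isAlgClosed ℂ ℂ]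
    intro s
    by_contra hcon
    push Not at hcon
    obtain ⟨hi, hj⟩ := hcon
    rw [Polynomial.coe_aeval_eq_eval] at hi hj
    have e1 : (PP i).eval s = M * z i * (RC.eval s) ^ k := by
      simp only [PP, eval_add, eval_mul, eval_pow, eval_C, hi]
      rw [zero_pow hk0]; ring
    have e2 : (PP j).eval s = M * z j * (RC.eval s) ^ k := by
      simp only [PP, eval_add, eval_mul, eval_pow, eval_C, hj]
      rw [zero_pow hk0]; ring
    rw [← hPX i] at e1
    rw [← hPX j] at e2
    have e3 : M * (z i - z j) * (RC.eval s) ^ k = 0 := by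
      linear_combination e2 - e1
    have e4 : RC.eval s = 0 := by
      rcases mul_eq_zero.mp e3 with h | h
      · rcases mul_eq_zero.mp h with h' | h'
        · exact absurd h' hM
        · exact absurd (hz (sub_eq_zero.mp h')) hij
      · exact pow_eq_zero_iff hk0 |>.mp h
    simp only [NN, eval_add, eval_mul, eval_C, e4, mul_zero, add_zero] at hi hj
    have e5 : (z i - z j) * (N1.map φ).eval s = 0 := by linear_combination hi - hj
    have e6 : (N1.map φ).eval s = 0 := by
      rcases mul_eq_zero.mp e5 with h | h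
      · exact absurd (hz (sub_eq_zero.mp h)) hij
      · exact h
    have e7 : (N0.map φ).eval s = 0 := by
      rw [e6] at hi; simpa using hi
    have e8 := congrArg (fun Q : ℚ[X] => (Q.map φ).eval s) hbez
    simp only [Polynomial.map_add, Polynomial.map_mul, Polynomial.map_one, eval_add, eval_mul,
      eval_one, e6, e7] at e8
    rw [← hRC, e4] at e8
    simp at e8
  obtain ⟨p, hp, q, hq, hpq⟩ : ∃ p ∈ S', ∃ q ∈ S', p ≠ q := by
    have : 1 < S'.card := by omega
    obtain ⟨p, q, hp, hq, hpq⟩ := Finset.one_lt_card_iff.mp this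
    exact ⟨p, hp, q, hq, hpq⟩
  have hRCx : ∀ p ∈ S', RC.eval (xC p) ≠ 0 := by
    intro p hp
    rw [hRC, evC]
    exact_mod_cast hRx p hp
  rcases Nat.eq_zero_or_pos D with hD0 | hD1
  · -- constants
    have cst : ∀ Q : ℚ[X], Q.natDegree ≤ D → ∀ p q : P, Q.eval (x p) = Q.eval (x q) := by
      intro Q hQ p q
      rw [Polynomial.eq_C_of_natDegree_le_zero (hQ.trans hD0.le)]
      simp
    have cR := cst R (le_max_right _ _) p q
    have c0 := cst N0 ((le_max_left _ _).trans (le_max_left _ _)) p q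
    have c1 := cst N1 ((le_max_right _ _).trans (le_max_left _ _)) p q
    apply hpq
    apply ht (hS'S hp) (hS'S hq)
    have a1 := h0' p hp
    have a2 := h0' q hq
    have a3 := h1' p hp
    have a4 := h1' q hq
    have hr := hRx q hq
    simp only [Prod.mk.injEq]
    rw [cR] at a1 a3
    constructor
    · apply mul_left_cancel₀ hr
      rw [a1, a2, c0]
    · apply mul_left_cancel₀ hr
      rw [a3, a4, c1]
  · have hdk' : k + 1 < Fintype.card (Fin d) * (k - 1) := by simpa using hdk
    have hW := wronskian_eq_zero k D NN BB RC Xh (fun i => M * z i) (fun i => hPX i) dBB dNN'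
      (by rw [hRC, Polynomial.natDegree_map]; exact le_max_right _ _) hNN0 hco hD1 hk hdk'
    have hX := eq_of_wronskian k hk Xh RC hW (xC p) (hRCx p hp)
    set cc := Xh.eval (xC p) / RC.eval (xC p) ^ k with hcc
    have hnc : M * (n p : ℂ) = cc := by
      have e1 := evP i0 p hp
      rw [← hXh, hX, eval_mul, eval_C, eval_pow] at e1
      have e2 := pow_ne_zero k (hRCx p hp)
      exact (mul_right_cancel₀ e2 e1).symm
    have hnz : ∀ i, (n p : ℂ) - z i ≠ 0 := by
      intro i h
      have e1 := split_sum hd (z i) (n p : ℂ) (-1) 0 (fun _ => 0)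
      have e2 := hlin i (fun j => if (j : ℕ) = 0 then n p else if (j : ℕ) = 1 then -1 else 0) (by
        have e3 : ∀ j : Fin d, (((if (j : ℕ) = 0 then n p else if (j : ℕ) = 1 then -1 else 0 : ℚ) :
            ℚ) : ℂ) * z i ^ (j : ℕ) = (if (j : ℕ) = 0 then (n p : ℂ) else if (j : ℕ) = 1 then -1
              else (fun _ => (0 : ℂ)) j * 0) * z i ^ (j : ℕ) := by
          intro j
          congr 1
          split_ifs <;> simp
        rw [Finset.sum_congr rfl fun j _ => e3 j, e1]
        simp only [mul_zero, add_zero]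
        linear_combination h)
      have e3 := congrFun e2 ⟨1, by omega⟩
      simp at e3
    have hdv : ∀ i, NN i ^ k ∣ RC ^ k := by
      intro i
      refine ⟨C ((M * ((n p : ℂ) - z i))⁻¹) * BB i, ?_⟩
      have e1 : NN i ^ k * BB i = C (M * ((n p : ℂ) - z i)) * RC ^ k := by
        have e2 : PP i = C cc * RC ^ k := by rw [← hPX i, hX]
        have e3 : NN i ^ k * BB i = PP i - C (M * z i) * RC ^ k := by simp only [PP]; ring
        rw [e3, e2, mul_sub, hnc, C_sub]
        ring
      calc RC ^ k = C ((M * ((n p : ℂ) - z i))⁻¹ * (M * ((n p : ℂ) - z i))) * RC ^ k := by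
            rw [inv_mul_cancel₀ (mul_ne_zero hM (hnz i)), C_1, one_mul]
        _ = C ((M * ((n p : ℂ) - z i))⁻¹) * (C (M * ((n p : ℂ) - z i)) * RC ^ k) := by
            rw [C_mul]; ring
        _ = NN i ^ k * (C ((M * ((n p : ℂ) - z i))⁻¹) * BB i) := by rw [← e1]; ring
    have hRC0 : RC ≠ 0 := by
      intro h
      apply hRCx p hp
      rw [h]; simp
    let i1 : Fin d := ⟨1, by omega⟩
    have hi01 : i0 ≠ i1 := by
      intro h
      have := congrArg Fin.val h
      simp [i0, i1] at this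
    have e4 : NN i0 ^ k * NN i1 ^ k ∣ RC ^ k := (hco hi01).pow.mul_dvd (hdv i0) (hdv i1)
    have e5 := natDegree_le_of_dvd e4 (pow_ne_zero _ hRC0)
    rw [natDegree_mul (pow_ne_zero _ (hNN0 _)) (pow_ne_zero _ (hNN0 _)), natDegree_pow,
      natDegree_pow, natDegree_pow, dNN', dNN'] at e5
    have e6 : RC.natDegree ≤ D := by
      rw [hRC, Polynomial.natDegree_map]; exact le_max_right _ _
    have e7 := Nat.mul_le_mul_left k e6
    have e8 : 0 < k * D := Nat.mul_pos (by omega) hD1
    omega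

end Crest.Agent.R022.Curve354
end

-- ▼ part R022/Curve354C
section

/-! Row 22, stage 4 (helper354): determinants on the curve stage. -/

set_option autoImplicit false

open Polynomial Finset

namespace Crest.Agent.R022.Curve354

open Crest.Agent.R022.Expand

universe u

/-- `φ` has, at every auxiliary modulus `l ∈ L`, expansions in the one local parameter `s l`. -/
def Good {P : Type u} (S : Set P) (s : ℕ → P → Fin 1 → ℤ) (nn : ℕ → P → ℤ) (L : Finset ℕ)
    (φ : P → ℤ) : Prop :=
  ∀ l ∈ L, ∀ m, HasExp S (s l) (nn l) l m 0 φ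

theorem Good.mono {P : Type u} {S T : Set P} {s : ℕ → P → Fin 1 → ℤ} {nn : ℕ → P → ℤ}
    {L : Finset ℕ} {φ : P → ℤ} (h : Good S s nn L φ) (hT : T ⊆ S) : Good T s nn L φ :=
  fun l hl m => (h l hl m).mono_set hT

/-- The auxiliary moduli: pairwise coprime, product at least `A ^ K`, the local parameters are
divisible by the modulus. -/
structure Aux {P : Type u} (A K : ℝ) (S : Set P) (s : ℕ → P → Fin 1 → ℤ) (L : Finset ℕ) :
    Prop where
  coprime : (L : Set ℕ).Pairwise Nat.Coprime
  le_prod : A ^ K ≤ ((∏ l ∈ L, l : ℕ) : ℝ)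
  dvd : ∀ l ∈ L, ∀ x ∈ S, ∀ i, (l : ℤ) ∣ s l x i

theorem Aux.mono {P : Type u} {A K : ℝ} {S T : Set P} {s : ℕ → P → Fin 1 → ℤ} {L : Finset ℕ}
    (h : Aux A K S s L) (hT : T ⊆ S) : Aux A K T s L :=
  ⟨h.coprime, h.le_prod, fun l hl x hx => h.dvd l hl x (hT hx)⟩

theorem exists_large (c u v : ℝ) (huv : u < v) :
    ∃ A0 : ℝ, 1 ≤ A0 ∧ ∀ A ≥ A0, c * A ^ u < A ^ v := by
  have h : Filter.Tendsto (fun A : ℝ => A ^ (v - u)) Filter.atTop Filter.atTop :=
    tendsto_rpow_atTop (by linarith)
  obtain ⟨A1, hA1⟩ := Filter.eventually_atTop.mp (h.eventually_gt_atTop c)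
  refine ⟨max A1 1, le_max_right _ _, fun A hA => ?_⟩
  have hA' : 1 ≤ A := (le_max_right _ _).trans hA
  have h1 := hA1 A ((le_max_left _ _).trans hA)
  have h2 : A ^ v = A ^ (v - u) * A ^ u := by
    rw [← Real.rpow_add (by linarith)]; congr 1; ring
  rw [h2]
  exact mul_lt_mul_of_pos_right h1 (Real.rpow_pos_of_pos (by linarith) _)

/-- The determinant step for monomials in two functions, one local parameter. -/
theorem det_monomials (ρ σ K c : ℝ) (hC : 1 ≤ c) {ι : Type} [Fintype ι] (p q : ι → ℕ)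
    (h : ρ * ∑ i, (p i : ℝ) + σ * ∑ i, (q i : ℝ) < K * ((Fintype.card ι).choose 2 : ℝ)) :
    ∃ A0 : ℝ, 1 ≤ A0 ∧ ∀ A ≥ A0, ∀ (P : Type u) (S : Set P) (s : ℕ → P → Fin 1 → ℤ)
      (nn : ℕ → P → ℤ) (L : Finset ℕ), Aux A K S s L → ∀ X Y : P → ℤ, Good S s nn L X →
      Good S s nn L Y → (∀ x ∈ S, |(X x : ℝ)| ≤ c * A ^ ρ) → (∀ x ∈ S, |(Y x : ℝ)| ≤ c * A ^ σ) →
      ∃ a : ι → ℤ, a ≠ 0 ∧ ∀ x ∈ S, ∑ i, a i * (X x ^ p i * Y x ^ q i) = 0 := by
  classical
  obtain ⟨A0, hA01, hA0⟩ := exists_large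
    (((Fintype.card ι).factorial : ℝ) * (c ^ (∑ i, p i) * c ^ (∑ i, q i))) _ _ h
  refine ⟨A0, hA01, fun A hA P S s nn L hL X Y hX hY bX bY => ?_⟩
  have hA1 : 1 ≤ A := hA01.trans hA
  have hApos : 0 < A := by linarith
  refine relation_hasExp (r := 1) (J := 0) (m := Fintype.card ι) (w := (Fintype.card ι).choose 2) S
    (fun i x => X x ^ p i * Y x ^ q i) L hL.coprime
    (fun l hl => ⟨s l, nn l, hL.dvd l hl, fun i => ?_⟩)
    (fun i => (c * A ^ ρ) ^ p i * (c * A ^ σ) ^ q i) ?_ ?_ ?_
  · exact HasExp.mul_zero_left ((hX l hl _).pow_zero _) ((hY l hl _).pow_zero _)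
  · intro x hx i
    push_cast
    rw [abs_mul, abs_pow, abs_pow]
    exact mul_le_mul (pow_le_pow_left₀ (abs_nonneg _) (bX x hx) _)
      (pow_le_pow_left₀ (abs_nonneg _) (bY x hx) _) (by positivity) (by positivity)
  · rw [Nat.choose_two_right, zero_add, one_mul, Nat.choose_two_right]
    set N := Fintype.card ι
    have h1 : N * (N - 1) / 2 * 2 = N * (N - 1) := Nat.div_mul_cancel (by
      rcases Nat.eq_zero_or_pos N with h | h
      · simp [h]
      · have := Nat.even_mul_succ_self (N - 1)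
        rw [Nat.sub_add_cancel h] at this
        rw [mul_comm]; exact this.two_dvd)
    have h2 : (N + 1) * (N + 1 - 1) / 2 * 2 = (N + 1) * (N + 1 - 1) := Nat.div_mul_cancel (by
      have := Nat.even_mul_succ_self N
      rw [mul_comm]; exact this.two_dvd)
    rcases Nat.eq_zero_or_pos N with h | h
    · simp [h]
    · obtain ⟨M, hM⟩ : ∃ M, N = M + 1 := ⟨N - 1, by omega⟩
      rw [hM] at h1 h2 ⊢
      simp only [Nat.add_sub_cancel] at h1 h2 ⊢
      nlinarith
  · have h1 : ∏ i, ((c * A ^ ρ) ^ p i * (c * A ^ σ) ^ q i) =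
        c ^ (∑ i, p i) * c ^ (∑ i, q i) * A ^ (ρ * ∑ i, (p i : ℝ) + σ * ∑ i, (q i : ℝ)) := by
      rw [Finset.prod_mul_distrib, Finset.prod_pow_eq_pow_sum, Finset.prod_pow_eq_pow_sum,
        mul_pow, mul_pow, Real.rpow_add hApos, ← Real.rpow_natCast (A ^ ρ),
        ← Real.rpow_natCast (A ^ σ), ← Real.rpow_mul hApos.le, ← Real.rpow_mul hApos.le]
      push_cast
      ring
    rw [h1, ← mul_assoc]
    refine (hA0 A hA).trans_le ?_
    rw [Real.rpow_mul hApos.le, Real.rpow_natCast]
    exact pow_le_pow_left₀ (by positivity) hL.le_prod _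

/-- The family `X ^ i`, `X ^ i * Y` (`i ≤ f`). -/
theorem rel_linear (ρ σ K c : ℝ) (hC : 1 ≤ c) (f : ℕ) (h : ρ * f + σ < K * (2 * f + 1)) :
    ∃ A0 : ℝ, 1 ≤ A0 ∧ ∀ A ≥ A0, ∀ (P : Type u) (S : Set P) (s : ℕ → P → Fin 1 → ℤ)
      (nn : ℕ → P → ℤ) (L : Finset ℕ), Aux A K S s L → ∀ X Y : P → ℤ, Good S s nn L X →
      Good S s nn L Y → (∀ x ∈ S, |(X x : ℝ)| ≤ c * A ^ ρ) → (∀ x ∈ S, |(Y x : ℝ)| ≤ c * A ^ σ) →
      ∃ x y : ℚ[X], ¬ (x = 0 ∧ y = 0) ∧ x.natDegree ≤ f ∧ y.natDegree ≤ f ∧
        ∀ p ∈ S, x.eval (X p : ℚ) + y.eval (X p : ℚ) * (Y p : ℚ) = 0 := by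
  have hsum : (∑ i : Fin (f + 1), ((i : ℕ) : ℝ)) = f * (f + 1) / 2 := by
    rw [Fin.sum_univ_eq_sum_range (fun i => (i : ℝ)) (f + 1), ← Nat.cast_sum,
      Finset.sum_range_id, Nat.add_sub_cancel, Nat.cast_div (by
        rw [mul_comm]; exact (Nat.even_mul_succ_self f).two_dvd) (by norm_num)]
    push_cast
    ring
  obtain ⟨A0, hA01, hA0⟩ := det_monomials.{u} ρ σ K c hC (ι := Fin (f + 1) ⊕ Fin (f + 1))
    (Sum.elim (fun i => (i : ℕ)) (fun i => (i : ℕ))) (Sum.elim (fun _ => 0) (fun _ => 1)) (by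
      simp only [Fintype.sum_sum_type, Sum.elim_inl, Sum.elim_inr, Fintype.card_sum,
        Fintype.card_fin]
      rw [hsum]
      simp only [Nat.cast_zero, Finset.sum_const_zero, Nat.cast_one, Finset.sum_const,
        Finset.card_univ, Fintype.card_fin, nsmul_eq_mul, mul_one, zero_add]
      rw [Nat.cast_choose_two]
      push_cast
      nlinarith)
  refine ⟨A0, hA01, fun A hA P S s nn L hL X Y hX hY bX bY => ?_⟩
  obtain ⟨a, ha, hrel⟩ := hA0 A hA P S s nn L hL X Y hX hY bX bY
  have hdeg : ∀ g : Fin (f + 1) → ℤ,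
      (∑ i : Fin (f + 1), C (g i : ℚ) * Polynomial.X ^ (i : ℕ) : ℚ[X]).natDegree ≤ f := by
    intro g
    refine natDegree_sum_le_of_forall_le _ _ fun i _ => ?_
    exact (natDegree_C_mul_X_pow_le _ _).trans (by omega)
  have hcoeff : ∀ g : Fin (f + 1) → ℤ, ∀ i : Fin (f + 1),
      (∑ i : Fin (f + 1), C (g i : ℚ) * Polynomial.X ^ (i : ℕ) : ℚ[X]).coeff (i : ℕ) = (g i : ℚ) := by
    intro g i
    rw [Polynomial.finsetSum_coeff, Finset.sum_eq_single i]
    · simp
    · intro j _ hj
      rw [coeff_C_mul, coeff_X_pow, if_neg, mul_zero]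
      intro h'
      exact hj (Fin.ext h'.symm)
    · intro h'; exact absurd (Finset.mem_univ _) h'
  refine ⟨∑ i : Fin (f + 1), C (a (Sum.inl i) : ℚ) * Polynomial.X ^ (i : ℕ),
    ∑ i : Fin (f + 1), C (a (Sum.inr i) : ℚ) * Polynomial.X ^ (i : ℕ), ?_, hdeg _, hdeg _, ?_⟩
  · rintro ⟨h1, h2⟩
    apply ha
    funext i
    rcases i with i | i
    · have := hcoeff (fun i => a (Sum.inl i)) i
      rw [h1] at this
      simpa using this.symm
    · have := hcoeff (fun i => a (Sum.inr i)) i
      rw [h2] at this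
      simpa using this.symm
  · intro p hp
    have := hrel p hp
    simp only [Fintype.sum_sum_type, Sum.elim_inl, Sum.elim_inr] at this
    rw [Polynomial.eval_finsetSum, Polynomial.eval_finsetSum, Finset.sum_mul]
    simp only [eval_mul, eval_C, eval_pow, eval_X]
    have h2 := congrArg (fun t : ℤ => (t : ℚ)) this
    push_cast at h2
    rw [← h2]
    congr 1
    · exact Finset.sum_congr rfl fun i _ => by ring
    · exact Finset.sum_congr rfl fun i _ => by ring

/-- The family `X ^ i` (`i ≤ f`), `Y ^ i` (`1 ≤ i ≤ f`). -/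
theorem rel_sep (ρ K c : ℝ) (hC : 1 ≤ c) (f : ℕ) (hf : 1 ≤ f) (h : ρ * (f + 1) < K * (2 * f + 1)) :
    ∃ A0 : ℝ, 1 ≤ A0 ∧ ∀ A ≥ A0, ∀ (P : Type u) (S : Set P) (s : ℕ → P → Fin 1 → ℤ)
      (nn : ℕ → P → ℤ) (L : Finset ℕ), Aux A K S s L → ∀ X Y : P → ℤ, Good S s nn L X →
      Good S s nn L Y → (∀ x ∈ S, |(X x : ℝ)| ≤ c * A ^ ρ) → (∀ x ∈ S, |(Y x : ℝ)| ≤ c * A ^ ρ) →
      ∃ x y : ℚ[X], ¬ (x = 0 ∧ y = 0) ∧ x.natDegree ≤ f ∧ y.natDegree ≤ f ∧ y.coeff 0 = 0 ∧
        ∀ p ∈ S, x.eval (X p : ℚ) + y.eval (Y p : ℚ) = 0 := by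
  have hsum : (∑ i : Fin (f + 1), ((i : ℕ) : ℝ)) = f * (f + 1) / 2 := by
    rw [Fin.sum_univ_eq_sum_range (fun i => (i : ℝ)) (f + 1), ← Nat.cast_sum,
      Finset.sum_range_id, Nat.add_sub_cancel, Nat.cast_div (by
        rw [mul_comm]; exact (Nat.even_mul_succ_self f).two_dvd) (by norm_num)]
    push_cast
    ring
  have hsum2 : (∑ i : Fin f, (((i : ℕ) + 1 : ℕ) : ℝ)) = f * (f + 1) / 2 := by
    rw [← hsum, Fin.sum_univ_succ (n := f)]
    simp
  obtain ⟨A0, hA01, hA0⟩ := det_monomials.{u} ρ ρ K c hC (ι := Fin (f + 1) ⊕ Fin f)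
    (Sum.elim (fun i => (i : ℕ)) (fun _ => 0)) (Sum.elim (fun _ => 0) (fun i => (i : ℕ) + 1)) (by
      simp only [Fintype.sum_sum_type, Sum.elim_inl, Sum.elim_inr, Fintype.card_sum,
        Fintype.card_fin]
      rw [hsum, hsum2]
      simp only [Nat.cast_zero, Finset.sum_const_zero, zero_add, add_zero]
      rw [Nat.cast_choose_two]
      push_cast
      have hf' : (1 : ℝ) ≤ f := by exact_mod_cast hf
      nlinarith)
  refine ⟨A0, hA01, fun A hA P S s nn L hL X Y hX hY bX bY => ?_⟩
  obtain ⟨a, ha, hrel⟩ := hA0 A hA P S s nn L hL X Y hX hY bX bY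
  refine ⟨∑ i : Fin (f + 1), C (a (Sum.inl i) : ℚ) * Polynomial.X ^ (i : ℕ),
    ∑ i : Fin f, C (a (Sum.inr i) : ℚ) * Polynomial.X ^ ((i : ℕ) + 1), ?_, ?_, ?_, ?_, ?_⟩
  · rintro ⟨h1, h2⟩
    apply ha
    funext i
    rcases i with i | i
    · have h3 := congrArg (fun Q : ℚ[X] => Q.coeff i) h1
      simp only [Polynomial.finsetSum_coeff] at h3
      rw [Finset.sum_eq_single i] at h3
      · simpa using h3
      · intro j _ hj
        rw [coeff_C_mul, coeff_X_pow, if_neg, mul_zero]
        intro h'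
        exact hj (Fin.ext h'.symm)
      · intro h'; exact absurd (Finset.mem_univ _) h'
    · have h3 := congrArg (fun Q : ℚ[X] => Q.coeff ((i : ℕ) + 1)) h2
      simp only [Polynomial.finsetSum_coeff] at h3
      rw [Finset.sum_eq_single i] at h3
      · simpa using h3
      · intro j _ hj
        rw [coeff_C_mul, coeff_X_pow, if_neg, mul_zero]
        intro h'
        exact hj (Fin.ext (by omega))
      · intro h'; exact absurd (Finset.mem_univ _) h'
  · refine natDegree_sum_le_of_forall_le _ _ fun i _ => ?_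
    exact (natDegree_C_mul_X_pow_le _ _).trans (by omega)
  · refine natDegree_sum_le_of_forall_le _ _ fun i _ => ?_
    exact (natDegree_C_mul_X_pow_le _ _).trans (by omega)
  · rw [Polynomial.finsetSum_coeff]
    refine Finset.sum_eq_zero fun i _ => ?_
    rw [coeff_C_mul, coeff_X_pow, if_neg (by omega), mul_zero]
  · intro p hp
    have := hrel p hp
    simp only [Fintype.sum_sum_type, Sum.elim_inl, Sum.elim_inr] at this
    rw [Polynomial.eval_finsetSum, Polynomial.eval_finsetSum]
    simp only [eval_mul, eval_C, eval_pow, eval_X]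
    have h2 := congrArg (fun t : ℤ => (t : ℚ)) this
    push_cast at h2
    rw [← h2]
    congr 1
    · exact Finset.sum_congr rfl fun i _ => by ring
    · exact Finset.sum_congr rfl fun i _ => by ring

end Crest.Agent.R022.Curve354
end

-- ▼ part R022/Curve354D
section

/-! Row 22, stage 4 (helper354): points of a slice with fixed `β` are bounded in number. -/

set_option autoImplicit false

open Polynomial Finset

namespace Crest.Agent.R022.Curve354

theorem natDegree_det_le' {K n : Type*} [CommRing K] [DecidableEq n] [Fintype n]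
    (M : Matrix n n K[X]) (D : ℕ) (h : ∀ i j, (M i j).natDegree ≤ D) :
    M.det.natDegree ≤ Fintype.card n * D := by
  rw [Matrix.det_apply]
  refine natDegree_sum_le_of_forall_le _ _ fun s _ => ?_
  have h1 : (∏ i, M (s i) i).natDegree ≤ Fintype.card n * D := by
    refine (natDegree_prod_le _ _).trans ?_
    refine (Finset.sum_le_sum fun i _ => h (s i) i).trans ?_
    simp
  rcases Int.units_eq_one_or (Equiv.Perm.sign s) with h2 | h2
  · rw [h2, one_smul]; exact h1
  · rw [h2, Units.neg_smul, one_smul, natDegree_neg]; exact h1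

/-- two curves `y ^ k = A x ^ k + B` and `β₀ x ^ k - β₂ (P x + Q y + r) ^ k = c'` have few common
points. -/
theorem card_fermat_le (k : ℕ) (hk : 2 ≤ k) (A B β0 β2 P Q r c' : ℂ) (hA : A ≠ 0) (hB : B ≠ 0)
    (hβ2 : β2 ≠ 0) (hP : P ≠ 0) (hQ : Q ≠ 0) (S : Finset (ℂ × ℂ))
    (h1 : ∀ t ∈ S, t.2 ^ k = A * t.1 ^ k + B)
    (h2 : ∀ t ∈ S, β0 * t.1 ^ k - β2 * (P * t.1 + Q * t.2 + r) ^ k = c') :
    S.card ≤ k * (2 * k * k) := by
  classical
  set w : ℂ[X] := C A * X ^ k + C B with hw
  set g : ℂ[X][X] := X ^ k - C w with hg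
  set G : ℂ[X][X] := C (C β0 * X ^ k - C c') -
    C (C β2) * (C (C P * X + C r) + C (C Q) * X) ^ k with hG
  have hk0 : k ≠ 0 := by omega
  -- irreducibility
  have hwd : w.degree = k := by
    have e1 : (C B : ℂ[X]).degree < (C A * X ^ k : ℂ[X]).degree := by
      rw [degree_C_mul_X_pow k hA]
      refine (degree_C_le).trans_lt ?_
      exact_mod_cast Nat.pos_of_ne_zero hk0
    rw [hw, degree_add_eq_left_of_degree_lt e1, degree_C_mul_X_pow k hA]
  obtain ⟨x0, hx0⟩ : ∃ x0, w.IsRoot x0 := IsAlgClosed.exists_root w (by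
    rw [hwd]; exact_mod_cast hk0)
  have hgm : g.Monic := monic_X_pow_sub_C w hk0
  have hgd : g.natDegree = k := natDegree_X_pow_sub_C
  have hirr : Irreducible g := by
    have hprime : (Ideal.span {X - C x0} : Ideal ℂ[X]).IsPrime := by
      rw [Ideal.span_singleton_prime (X_sub_C_ne_zero x0)]
      exact prime_X_sub_C x0
    refine irreducible_of_eisenstein_criterion hprime ?_ ?_ ?_ ?_ hgm.isPrimitive
    · rw [hgm.leadingCoeff]
      exact fun h => hprime.ne_top ((Ideal.eq_top_iff_one _).mpr h)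
    · intro n hn
      rw [degree_eq_natDegree hgm.ne_zero, hgd] at hn
      have hn' : n < k := by exact_mod_cast hn
      rw [hg, coeff_sub, coeff_X_pow, if_neg (by omega), zero_sub, coeff_C]
      split_ifs with h0
      · rw [Ideal.neg_mem_iff, Ideal.mem_span_singleton]
        exact dvd_iff_isRoot.mpr hx0
      · simp
    · rw [degree_eq_natDegree hgm.ne_zero, hgd]
      exact_mod_cast Nat.pos_of_ne_zero hk0
    · rw [hg, coeff_sub, coeff_X_pow, if_neg (by omega), zero_sub, coeff_C_zero,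
        Ideal.span_singleton_pow, Ideal.neg_mem_iff, Ideal.mem_span_singleton]
      rintro ⟨q, hq⟩
      have hd := congrArg (fun Q : ℂ[X] => (derivative Q).eval x0) hq
      simp only [hw, derivative_add, derivative_C, derivative_mul,
        derivative_pow, derivative_sub, derivative_X] at hd
      simp at hd
      have hx00 : x0 ≠ 0 := by
        rintro rfl
        rw [IsRoot, hw] at hx0
        simp [hk0] at hx0
        exact hB hx0
      rcases hd with h | h | h
      · exact hA h
      · exact hk0 h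
      · exact hx00 h.1
  have hGc : (derivative G).eval 0 = -(C β2 * ((k : ℂ[X]) * (C P * X + C r) ^ (k - 1) * C Q)) := by
    rw [hG]
    simp only [derivative_sub, derivative_C, derivative_mul, derivative_pow, derivative_add,
      derivative_X]
    simp
  have hGne : (derivative G).eval 0 ≠ 0 := by
    rw [hGc]
    refine neg_ne_zero.mpr (mul_ne_zero (C_ne_zero.mpr hβ2) (mul_ne_zero (mul_ne_zero ?_ ?_)
      (C_ne_zero.mpr hQ)))
    · exact_mod_cast hk0
    · refine pow_ne_zero _ fun h => ?_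
      have := congrArg (fun q : ℂ[X] => q.coeff 1) h
      simp at this
      exact hP this
  have hGdeg : G.natDegree ≤ k := by
    rw [hG]
    refine (natDegree_sub_le _ _).trans (max_le ?_ ?_)
    · rw [natDegree_C]; exact Nat.zero_le _
    · refine (natDegree_C_mul_le _ _).trans ?_
      rw [natDegree_pow]
      have : (C (C P * X + C r) + C (C Q) * X : ℂ[X][X]).natDegree ≤ 1 := by
        rw [add_comm]; exact natDegree_linear_le
      nlinarith
  have hndvd : ¬ g ∣ G := by
    rintro ⟨h, hh⟩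
    have hh0 : h ≠ 0 := by
      rintro rfl
      rw [hh] at hGne
      simp at hGne
    have hhd : h.natDegree = 0 := by
      have := natDegree_mul hgm.ne_zero hh0
      rw [← hh, hgd] at this
      omega
    rw [eq_C_of_natDegree_eq_zero hhd] at hh
    rw [hh, hg] at hGne
    simp only [derivative_sub, derivative_C, derivative_mul, derivative_X_pow, sub_zero, mul_zero,
      add_zero] at hGne
    simp at hGne
    omega
  have hres := Crest.Agent.R22.PolyKit.resultant_ne_zero_of_irreducible hirr (by omega) hndvd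
  have hev : ∀ t ∈ S, (resultant g G).eval t.1 = 0 := by
    intro t ht
    have := Crest.Agent.R22.PolyKit.map_resultant_eq_zero (evalRingHom t.1) g G (by omega) t.2 ?_ ?_
    · simpa using this
    · rw [hg]
      simp only [eval₂_sub, eval₂_pow, eval₂_X, eval₂_C, coe_evalRingHom, hw, eval_add, eval_mul,
        eval_pow, eval_X, eval_C]
      rw [h1 t ht]; ring
    · rw [hG]
      simp only [eval₂_sub, eval₂_pow, eval₂_X, eval₂_C, eval₂_mul, eval₂_add, coe_evalRingHom,
        eval_add, eval_mul, eval_pow, eval_X, eval_C, eval_sub]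
      rw [← h2 t ht]; ring
  have hdegR : (resultant g G).natDegree ≤ 2 * k * k := by
    have hgc : ∀ n, (g.coeff n).natDegree ≤ k := by
      intro n
      rw [hg, coeff_sub, coeff_X_pow, coeff_C]
      refine (natDegree_sub_le _ _).trans (max_le ?_ ?_)
      · split_ifs <;> simp
      · split_ifs
        · exact natDegree_le_of_degree_le hwd.le
        · simp
    have hGc : ∀ n, (G.coeff n).natDegree ≤ k := by
      intro n
      rw [hG, coeff_sub, coeff_C, coeff_C_mul]
      refine (natDegree_sub_le _ _).trans (max_le ?_ ?_)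
      · split_ifs
        · refine (natDegree_sub_le _ _).trans (max_le (natDegree_C_mul_X_pow_le _ _) ?_)
          simp
        · simp
      · refine (natDegree_C_mul_le _ _).trans ?_
        rw [add_pow, finsetSum_coeff]
        refine natDegree_sum_le_of_forall_le _ _ fun m hm => ?_
        have hm' := mem_range.mp hm
        rw [mul_pow, ← C_pow, ← C_pow]
        have e1 : (C ((C P * X + C r) ^ m) * (C (C Q ^ (k - m)) * X ^ (k - m)) *
            ((k.choose m : ℕ) : ℂ[X][X])) =
            C ((C P * X + C r) ^ m * C Q ^ (k - m) * ((k.choose m : ℕ) : ℂ[X])) *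
              X ^ (k - m) := by
          simp only [C_mul, C_pow, map_natCast]
          ring
        rw [e1, coeff_C_mul_X_pow]
        split_ifs
        · refine (natDegree_mul_le).trans ?_
          rw [natDegree_natCast, add_zero]
          refine natDegree_mul_le.trans ?_
          rw [← C_pow, natDegree_C, add_zero, natDegree_pow]
          have : (C P * X + C r : ℂ[X]).natDegree ≤ 1 := natDegree_linear_le
          nlinarith
        · simp
    have h3 := natDegree_det_le' (sylvester g G g.natDegree G.natDegree) k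
      (fun i j => Crest.Agent.R22.PolyKit.sylvester_entry (fun F : ℂ[X] => F.natDegree ≤ k)
        (by simp) g G _ _ hgc hGc i j)
    rw [Fintype.card_fin] at h3
    refine h3.trans ?_
    rw [hgd]
    exact Nat.mul_le_mul_right _ (by omega)
  -- counting
  have hx : (S.image fun t => t.1).card ≤ 2 * k * k := by
    have hsub : S.image (fun t => t.1) ⊆ (resultant g G).roots.toFinset := by
      intro c hc
      obtain ⟨t, ht, rfl⟩ := Finset.mem_image.mp hc
      rw [Multiset.mem_toFinset, mem_roots hres]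
      exact hev t ht
    calc (S.image fun t => t.1).card ≤ (resultant g G).roots.toFinset.card := card_le_card hsub
      _ ≤ Multiset.card (resultant g G).roots := Multiset.toFinset_card_le _
      _ ≤ (resultant g G).natDegree := card_roots' _
      _ ≤ 2 * k * k := hdegR
  refine (Finset.card_le_mul_card_image (f := fun t : ℂ × ℂ => t.1) S k ?_).trans
    (Nat.mul_le_mul_left _ hx)
  intro x _
  set S1 := S.filter fun t => t.1 = x with hS1
  have hinj : Set.InjOn (fun t : ℂ × ℂ => t.2) S1 := by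
    intro t ht t' ht' h
    have e1 := (Finset.mem_filter.mp (Finset.mem_coe.mp ht)).2
    have e2 := (Finset.mem_filter.mp (Finset.mem_coe.mp ht')).2
    exact Prod.ext (e1.trans e2.symm) h
  rw [← Finset.card_image_of_injOn hinj]
  have hq0 : (X ^ k - C (A * x ^ k + B) : ℂ[X]) ≠ 0 := X_pow_sub_C_ne_zero (by omega) _
  have hsub : S1.image (fun t => t.2) ⊆ (X ^ k - C (A * x ^ k + B) : ℂ[X]).roots.toFinset := by
    intro c hc
    obtain ⟨t, ht, rfl⟩ := Finset.mem_image.mp hc
    have e1 := (Finset.mem_filter.mp ht)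
    rw [Multiset.mem_toFinset, mem_roots hq0, IsRoot]
    simp only [eval_sub, eval_pow, eval_X, eval_C]
    rw [h1 t e1.1, e1.2, sub_self]
  calc (S1.image fun t => t.2).card ≤ (X ^ k - C (A * x ^ k + B) : ℂ[X]).roots.toFinset.card :=
        card_le_card hsub
    _ ≤ Multiset.card (X ^ k - C (A * x ^ k + B) : ℂ[X]).roots := Multiset.toFinset_card_le _
    _ ≤ (X ^ k - C (A * x ^ k + B) : ℂ[X]).natDegree := card_roots' _
    _ = k := natDegree_X_pow_sub_C

end Crest.Agent.R022.Curve354
end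

-- ▼ part R022/Curve354E
section

/-! Row 22, stage 4 (helper354): the curve stage. A set of `S`-points of one slice, all of whose
functions have expansions in ONE local parameter modulo moduli of total size `A ^ K`, `K > ρ / 2`,
has a bounded number of elements. -/

set_option autoImplicit false

open Polynomial Finset

namespace Crest.Agent.R022.Curve354

open Crest.Agent.R022.Expand

universe u

/-- points of a slice with a fixed `β`. -/
theorem card_const_beta {P : Type*} {d : ℕ} (hd : 3 ≤ d) (k : ℕ) (hk : 2 ≤ k) (z : Fin d → ℂ)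
    (hz : Function.Injective z) (aa : Fin d → ℂ) (M : ℂ) (hM : M ≠ 0) (S : Finset P)
    (t0 t1 n : P → ℤ) (β : Fin d → ℂ) (hβ : ∀ i, β i ≠ 0)
    (ht : Set.InjOn (fun p => (t0 p, t1 p)) S)
    (htor : ∀ p ∈ S, ∀ i, ((t0 p : ℂ) + z i * t1 p + aa i) ^ k * β i = M * ((n p : ℂ) - z i)) :
    S.card ≤ k * (2 * k * k) := by
  classical
  let i0 : Fin d := ⟨0, by omega⟩
  let i1 : Fin d := ⟨1, by omega⟩
  let i2 : Fin d := ⟨2, by omega⟩
  have h01 : z i1 - z i0 ≠ 0 := by
    intro h
    have := congrArg Fin.val (hz (sub_eq_zero.mp h))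
    simp [i0, i1] at this
  have h02 : z i2 - z i0 ≠ 0 := by
    intro h
    have := congrArg Fin.val (hz (sub_eq_zero.mp h))
    simp [i0, i2] at this
  have h12 : z i1 - z i2 ≠ 0 := by
    intro h
    have := congrArg Fin.val (hz (sub_eq_zero.mp h))
    simp [i1, i2] at this
  set al : Fin d → P → ℂ := fun i p => (t0 p : ℂ) + z i * t1 p + aa i with hal
  set Φ : P → ℂ × ℂ := fun p => (al i0 p, al i1 p) with hΦ
  have hinj : Set.InjOn Φ S := by
    intro p hp q hq h
    apply ht hp hq
    have e1 : al i0 p = al i0 q := congrArg Prod.fst h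
    have e2 : al i1 p = al i1 q := congrArg Prod.snd h
    simp only [hal] at e1 e2
    have e3 : (z i1 - z i0) * ((t1 p : ℂ) - t1 q) = 0 := by linear_combination e2 - e1
    have e4 : (t1 p : ℂ) = t1 q := by
      rcases mul_eq_zero.mp e3 with h' | h'
      · exact absurd h' h01
      · exact sub_eq_zero.mp h'
    have e5 : (t0 p : ℂ) = t0 q := by
      rw [e4] at e1
      linear_combination e1
    simp only [Prod.mk.injEq]
    exact ⟨by exact_mod_cast e5, by exact_mod_cast e4⟩
  rw [← Finset.card_image_of_injOn hinj]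
  set PP := (z i1 - z i2) / (z i1 - z i0) with hPP
  set QQ := (z i2 - z i0) / (z i1 - z i0) with hQQ
  have hal2 : ∀ p, al i2 p = PP * al i0 p + QQ * al i1 p + (aa i2 - PP * aa i0 - QQ * aa i1) := by
    intro p
    simp only [hal, hPP, hQQ]
    field_simp
    ring
  refine card_fermat_le k hk (β i0 / β i1) (-(M * (z i1 - z i0)) / β i1) (β i0) (β i2) PP QQ
    (aa i2 - PP * aa i0 - QQ * aa i1) (M * (z i2 - z i0)) (div_ne_zero (hβ _) (hβ _))
    (div_ne_zero (neg_ne_zero.mpr (mul_ne_zero hM h01)) (hβ _)) (hβ _) (div_ne_zero h12 h01)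
    (div_ne_zero h02 h01) _ ?_ ?_
  · intro t ht'
    obtain ⟨p, hp, rfl⟩ := Finset.mem_image.mp ht'
    have e0 := htor p hp i0
    have e1 := htor p hp i1
    have hb1 := hβ i1
    simp only [hΦ]
    simp only [hal]
    field_simp
    linear_combination e1 - e0
  · intro t ht'
    obtain ⟨p, hp, rfl⟩ := Finset.mem_image.mp ht'
    have e0 := htor p hp i0
    have e2 := htor p hp i2
    simp only [hΦ]
    rw [← hal2 p]
    simp only [hal]
    linear_combination e0 - e2

theorem exists_f (ρ K : ℝ) (hK : ρ / 2 < K) : ∃ f : ℕ, 1 ≤ f ∧ ρ * f + ρ < K * (2 * f + 1) ∧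
    ρ * f + 1 < K * (2 * f + 1) := by
  have h : 0 < 2 * K - ρ := by linarith
  obtain ⟨f, hf⟩ := exists_nat_gt ((|ρ| + |K| + 1) / (2 * K - ρ))
  rw [div_lt_iff₀ h] at hf
  refine ⟨f + 1, by omega, ?_, ?_⟩
  · push_cast
    have := le_abs_self ρ
    have := neg_abs_le K
    have := abs_nonneg ρ
    nlinarith
  · push_cast
    have := le_abs_self ρ
    have := neg_abs_le K
    have := abs_nonneg ρ
    nlinarith

/-- **The curve stage.** -/
theorem curve_finish (d k : ℕ) (hd : 3 ≤ d) (hk : 2 ≤ k) (hdk : k + 1 < d * (k - 1))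
    (ρ K c : ℝ) (hK : ρ / 2 < K) (hc : 1 ≤ c) :
    ∃ (A0 : ℝ) (B : ℕ), 1 ≤ A0 ∧ ∀ A ≥ A0, ∀ (P : Type u) (z : Fin d → ℂ),
      Function.Injective z →
      (∀ i, ∀ c : Fin d → ℚ, ∑ j, (c j : ℂ) * z i ^ (j : ℕ) = 0 → c = 0) →
      ∀ (a0 : Fin d → ℤ), (∃ j : Fin d, 2 ≤ (j : ℕ) ∧ a0 j ≠ 0) →
      ∀ aa : Fin d → ℂ,
      (∀ i, aa i = ∑ j : Fin d, if 2 ≤ (j : ℕ) then (a0 j : ℂ) * z i ^ (j : ℕ) else 0) →
      ∀ (M : ℂ), M ≠ 0 → ∀ (S : Finset P) (t0 t1 n : P → ℤ) (b : P → Fin d → ℤ),
      Set.InjOn (fun p => (t0 p, t1 p)) S →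
      (∀ p ∈ S, ∀ i, ((t0 p : ℂ) + z i * t1 p + aa i) ^ k *
        (∑ j, (b p j : ℂ) * z i ^ (j : ℕ)) = M * ((n p : ℂ) - z i)) →
      (∀ p ∈ S, |(t0 p : ℝ)| ≤ c * A) → (∀ p ∈ S, |(t1 p : ℝ)| ≤ c * A) →
      (∀ p ∈ S, ∀ j, |(b p j : ℝ)| ≤ c * A ^ ρ) →
      ∀ (s : ℕ → P → Fin 1 → ℤ) (nn : ℕ → P → ℤ) (L : Finset ℕ), Aux A K (S : Set P) s L →
      Good (S : Set P) s nn L t0 → Good (S : Set P) s nn L t1 →
      (∀ j, Good (S : Set P) s nn L fun p => b p j) → S.card ≤ B := by
  classical
  obtain ⟨f, hf1, hf2, hf3⟩ := exists_f ρ K hK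
  obtain ⟨A1, hA11, hA1⟩ := rel_linear.{u} ρ ρ K c hc f hf2
  obtain ⟨A2, hA21, hA2⟩ := rel_sep.{u} ρ K c hc f hf1 (by linarith)
  obtain ⟨A3, hA31, hA3⟩ := rel_linear.{u} ρ 1 K c hc f hf3
  set B1 : ℕ := f * f + 2 * f + 1 + d * f + (k * (2 * f) + 2 * f + 1) with hB1
  refine ⟨max A1 (max A2 A3), k * (2 * k * k) * B1 ^ d, hA11.trans (le_max_left _ _), ?_⟩
  intro A hA P z hz hlin a0 ha0 aa haa M hM S t0 t1 n b ht htor bt0 bt1 bb s nn L hL gt0 gt1 gb
  have hAA1 : A1 ≤ A := (le_max_left _ _).trans hA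
  have hAA2 : A2 ≤ A := ((le_max_left _ _).trans (le_max_right _ _)).trans hA
  have hAA3 : A3 ≤ A := ((le_max_right _ _).trans (le_max_right _ _)).trans hA
  -- `n ≠ z i`
  have hnz : ∀ p, ∀ i, (n p : ℂ) - z i ≠ 0 := by
    intro p i h
    have e1 := split_sum (by omega : 2 ≤ d) (z i) (n p : ℂ) (-1) 0 (fun _ => 0)
    have e2 := hlin i (fun j => if (j : ℕ) = 0 then n p else if (j : ℕ) = 1 then -1 else 0) (by
      have e3 : ∀ j : Fin d, (((if (j : ℕ) = 0 then (n p : ℚ) else if (j : ℕ) = 1 then -1 else 0 :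
          ℚ) : ℚ) : ℂ) * z i ^ (j : ℕ) = (if (j : ℕ) = 0 then (n p : ℂ) else if (j : ℕ) = 1 then -1
            else (fun _ => (0 : ℂ)) j * 0) * z i ^ (j : ℕ) := by
        intro j
        congr 1
        split_ifs <;> simp
      rw [Finset.sum_congr rfl fun j _ => e3 j, e1]
      simp only [mul_zero, add_zero]
      linear_combination h)
    have e3 := congrFun e2 ⟨1, by omega⟩
    simp at e3
  by_contra hcon
  push Not at hcon
  -- many values of `b`
  have hfib : S.card ≤ k * (2 * k * k) * (S.image b).card := by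
    refine Finset.card_le_mul_card_image (f := b) S _ fun b0 _ => ?_
    rcases (S.filter fun p => b p = b0).eq_empty_or_nonempty with h | ⟨p0, hp0⟩
    · rw [h]; simp
    have hp0' := Finset.mem_filter.mp hp0
    refine card_const_beta hd k hk z hz aa M hM _ t0 t1 n
      (fun i => ∑ j, (b0 j : ℂ) * z i ^ (j : ℕ)) ?_ ?_ ?_
    · intro i h
      have e1 := htor p0 hp0'.1 i
      rw [hp0'.2] at e1
      rw [h, mul_zero] at e1
      exact mul_ne_zero hM (hnz p0 i) e1.symm
    · exact ht.mono (by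
        intro p hp
        exact (Finset.mem_filter.mp (Finset.mem_coe.mp hp)).1)
    · intro p hp i
      have hp' := Finset.mem_filter.mp hp
      have e1 := htor p hp'.1 i
      rw [hp'.2] at e1
      exact e1
  obtain ⟨j0, hj0⟩ : ∃ j0, B1 < (S.image fun p => b p j0).card := by
    by_contra hno
    push Not at hno
    have h1 : (S.image b).card ≤ B1 ^ d := by
      have h2 : S.image b ⊆ Fintype.piFinset fun j => S.image fun p => b p j := by
        intro x hx
        obtain ⟨p, hp, rfl⟩ := Finset.mem_image.mp hx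
        rw [Fintype.mem_piFinset]
        exact fun j => Finset.mem_image_of_mem _ hp
      refine (Finset.card_le_card h2).trans ?_
      rw [Fintype.card_piFinset]
      refine (Finset.prod_le_prod (fun _ _ => Nat.zero_le _) fun j _ => hno j).trans ?_
      simp
    have := Nat.mul_le_mul_left (k * (2 * k * k)) h1
    omega
  -- a subset on which the coordinate is injective
  obtain ⟨S2, hS2S, hS2inj, hS2im⟩ := Finset.exists_subset_injOn_image_eq_of_surjOn
    (f := fun p => b p j0) (S : Set P) (S.image fun p => b p j0) (by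
      rw [Finset.coe_image]; exact Set.surjOn_image _ _)
  have hS2card : B1 < S2.card := by
    rw [← Finset.card_image_of_injOn hS2inj, hS2im]; exact hj0
  have hS2S' : ∀ p ∈ S2, p ∈ S := fun p hp => Finset.mem_coe.mp (hS2S (Finset.mem_coe.mpr hp))
  set X : P → ℤ := fun p => b p j0 with hX
  have hXinj : Set.InjOn (fun p => (X p : ℚ)) S2 := by
    intro p hp q hq h
    have h' : (X p : ℚ) = (X q : ℚ) := h
    exact hS2inj hp hq (by exact_mod_cast h')
  have hL2 : Aux A K (S2 : Set P) s L := hL.mono hS2S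
  -- affine relations
  have haff : ∀ j, ∃ S' ⊆ S2, S2.card ≤ S'.card + f ∧
      ∃ a c : ℚ, ∀ p ∈ S', (b p j : ℚ) = a * X p + c := by
    intro j
    have gX : Good (S2 : Set P) s nn L X := (gb j0).mono hS2S
    have gY : Good (S2 : Set P) s nn L fun p => b p j := (gb j).mono hS2S
    have bX : ∀ x ∈ (S2 : Set P), |(X x : ℝ)| ≤ c * A ^ ρ := fun x hx => bb x (hS2S hx) j0
    have bY : ∀ x ∈ (S2 : Set P), |(b x j : ℝ)| ≤ c * A ^ ρ := fun x hx => bb x (hS2S hx) j
    obtain ⟨x1, y1, h1, dx1, dy1, r1⟩ := hA1 A hAA1 P S2 s nn L hL2 X (fun p => b p j) gX gY bX bY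
    obtain ⟨x2, y2, h2, dx2, dy2, r2⟩ := hA1 A hAA1 P S2 s nn L hL2 (fun p => b p j) X gY gX bY bX
    obtain ⟨x3, y3, h3, dx3, dy3, h30, r3⟩ :=
      hA2 A hAA2 P S2 s nn L hL2 X (fun p => b p j) gX gY bX bY
    exact affine_of_relations S2 (fun p => (X p : ℚ)) (fun p => (b p j : ℚ)) f hXinj
      x1 y1 x2 y2 x3 y3 h1 h2 h3 h30 dx1 dy1 dx2 dy2 dx3 dy3 (fun p hp => r1 p hp)
      (fun p hp => r2 p hp) (fun p hp => r3 p hp) (by omega)
  choose S' hS'sub hS'card aff cff haffr using haff
  set S3 := S2.filter fun p => ∀ j, p ∈ S' j with hS3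
  have hS3S2 : S3 ⊆ S2 := Finset.filter_subset _ _
  have hS3card : S2.card ≤ S3.card + d * f := by
    have h1 : S2 \ S3 ⊆ Finset.univ.biUnion fun j => S2 \ S' j := by
      intro p hp
      rw [Finset.mem_sdiff] at hp
      rw [Finset.mem_biUnion]
      by_contra hno
      push Not at hno
      apply hp.2
      rw [hS3, Finset.mem_filter]
      refine ⟨hp.1, fun j => ?_⟩
      by_contra hj
      exact hno j (Finset.mem_univ _) (Finset.mem_sdiff.mpr ⟨hp.1, hj⟩)
    have h2 : (S2 \ S3).card ≤ d * f := by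
      refine (Finset.card_le_card h1).trans (Finset.card_biUnion_le.trans ?_)
      refine (Finset.sum_le_sum (g := fun _ => f) fun j _ => ?_).trans ?_
      · rw [Finset.card_sdiff_of_subset (hS'sub j)]
        have := hS'card j
        omega
      · simp
    have h3 := Finset.card_sdiff_add_card_eq_card hS3S2
    omega
  have hS3S : (S3 : Set P) ⊆ (S : Set P) := fun p hp =>
    hS2S (Finset.mem_coe.mpr (hS3S2 (Finset.mem_coe.mp hp)))
  have hS3S' : ∀ p ∈ S3, p ∈ S := fun p hp => hS2S' p (hS3S2 hp)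
  have hL3 : Aux A K (S3 : Set P) s L := hL.mono hS3S
  have gX : Good (S3 : Set P) s nn L X := (gb j0).mono hS3S
  have bX : ∀ x ∈ (S3 : Set P), |(X x : ℝ)| ≤ c * A ^ ρ := fun x hx => bb x (hS3S hx) j0
  have hXinj3 : Set.InjOn (fun p => (X p : ℚ)) S3 := hXinj.mono (by exact_mod_cast hS3S2)
  obtain ⟨x0, y0, h0, dx0, dy0, r0⟩ := hA3 A hAA3 P S3 s nn L hL3 X t0 gX (gt0.mono hS3S) bX
    (fun x hx => by rw [Real.rpow_one]; exact bt0 x (hS3S hx))
  obtain ⟨x1, y1, h1, dx1, dy1, r1⟩ := hA3 A hAA3 P S3 s nn L hL3 X t1 gX (gt1.mono hS3S) bX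
    (fun x hx => by rw [Real.rpow_one]; exact bt1 x (hS3S hx))
  have hcard3 : k * (2 * f) + 2 * f + 1 < S3.card := by omega
  have hfcard : f < S3.card := by omega
  have key : ∀ (x y : ℚ[X]) (t : P → ℤ), ¬ (x = 0 ∧ y = 0) → x.natDegree ≤ f →
      (∀ p ∈ (S3 : Set P), x.eval (X p : ℚ) + y.eval (X p : ℚ) * (t p : ℚ) = 0) → y ≠ 0 := by
    intro x y t hxy dx hr hy
    refine hxy ⟨eq_zero_of_many x S3 (fun p => (X p : ℚ)) hXinj3 (by omega) fun p hp => ?_, hy⟩
    have := hr p (Finset.mem_coe.mpr hp)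
    rw [hy] at this
    simpa using this
  have hy0 := key x0 y0 t0 h0 dx0 r0
  have hy1 := key x1 y1 t1 h1 dx1 r1
  refine final_contra (by omega : 2 ≤ d) k (2 * f) (by omega) hdk z hz hlin (fun j => (a0 j : ℚ))
    ?_ aa ?_ M hM S3 (fun p => (X p : ℚ)) (fun p => (t0 p : ℚ)) (fun p => (t1 p : ℚ))
    (fun p => (n p : ℚ)) (fun p j => (b p j : ℚ)) hXinj3 ?_ (y0 * y1) (-(x0 * y1)) (-(x1 * y0))
    (mul_ne_zero hy0 hy1) ?_ ?_ ?_ ?_ ?_ aff cff ?_ ?_ hcard3
  · obtain ⟨j, hj, hj'⟩ := ha0
    exact ⟨j, hj, by exact_mod_cast hj'⟩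
  · intro i
    rw [haa i]
    refine Finset.sum_congr rfl fun j _ => ?_
    push_cast
    rfl
  · intro p hp q hq h
    apply ht (hS3S hp) (hS3S hq)
    simp only [Prod.mk.injEq] at h ⊢
    exact ⟨by exact_mod_cast h.1, by exact_mod_cast h.2⟩
  · exact natDegree_mul_le.trans (by omega)
  · rw [natDegree_neg]; exact natDegree_mul_le.trans (by omega)
  · rw [natDegree_neg]; exact natDegree_mul_le.trans (by omega)
  · intro p hp
    have := r0 p (Finset.mem_coe.mpr hp)
    simp only [eval_mul, eval_neg]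
    linear_combination (y1.eval (X p : ℚ)) * this
  · intro p hp
    have := r1 p (Finset.mem_coe.mpr hp)
    simp only [eval_mul, eval_neg]
    linear_combination (y0.eval (X p : ℚ)) * this
  · intro p hp j
    have hpj : p ∈ S' j := (Finset.mem_filter.mp hp).2 j
    exact haffr j p hpj
  · intro p hp i
    have := htor p (hS3S' p hp) i
    push_cast
    exact this

end Crest.Agent.R022.Curve354
end

-- ▼ part R022/Curve354F

/-! Row 22, stage 4 (helper354): the curve stage in the slice interface. -/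

set_option autoImplicit false

open Polynomial Finset

namespace Crest.Agent.R022.Curve354

open Crest.Agent.R022.Expand Crest.Agent.R022.Torsor

/-- `1, z, …, z ^ (d-1)` are linearly independent over `ℚ` for a root `z` of `F`. -/
theorem lin_of_root {F : ℤ[X]} (hF : F.Monic) (hirr : Irreducible F) (w : ℂ)
    (hw : F.eval₂ (Int.castRingHom ℂ) w = 0) (c : Fin F.natDegree → ℚ)
    (hc : ∑ j, (c j : ℂ) * w ^ (j : ℕ) = 0) : c = 0 := by
  have hQ : Irreducible (F.map (Int.castRingHom ℚ)) :=
    (Polynomial.IsPrimitive.Int.irreducible_iff_irreducible_map_cast hF.isPrimitive).mp hirr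
  have hmon : (F.map (Int.castRingHom ℚ)).Monic := hF.map _
  have hroot : aeval w (F.map (Int.castRingHom ℚ)) = 0 := by
    rw [aeval_def, eval₂_map]
    have : (algebraMap ℚ ℂ).comp (Int.castRingHom ℚ) = Int.castRingHom ℂ := RingHom.ext_int _ _
    rw [this, hw]
  have hmin : F.map (Int.castRingHom ℚ) = minpoly ℚ w :=
    minpoly.eq_of_irreducible_of_monic hQ hroot hmon
  set Q : ℚ[X] := ∑ j : Fin F.natDegree, C (c j) * X ^ (j : ℕ) with hQdef
  have hQ0 : aeval w Q = 0 := by
    rw [hQdef, map_sum]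
    simp only [map_mul, aeval_C, map_pow, aeval_X]
    simpa using hc
  have hdvd := minpoly.dvd ℚ w hQ0
  rw [← hmin] at hdvd
  have hQz : Q = 0 := by
    by_contra hne
    have h1 := degree_le_of_dvd hdvd hne
    have h2 : Q.degree < F.natDegree := by
      rw [hQdef]
      refine (degree_sum_le _ _).trans_lt ?_
      rw [Finset.sup_lt_iff (by exact WithBot.bot_lt_coe _)]
      intro j _
      refine (degree_C_mul_X_pow_le _ _).trans_lt ?_
      exact_mod_cast j.2
    rw [degree_eq_natDegree hmon.ne_zero, hF.natDegree_map] at h1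
    exact absurd (h1.trans_lt h2) (lt_irrefl _)
  funext i
  have h3 := congrArg (fun R : ℚ[X] => R.coeff i) hQz
  simp only [hQdef, finsetSum_coeff] at h3
  rw [Finset.sum_eq_single i] at h3
  · simpa using h3
  · intro j _ hj
    rw [coeff_C_mul, coeff_X_pow, if_neg, mul_zero]
    intro h'
    exact hj (Fin.ext h'.symm)
  · intro h'; exact absurd (Finset.mem_univ _) h'

/-- functions with an expansion in one local parameter are constant modulo `l`. -/
theorem Good.dvd_sub {P : Type*} {A K : ℝ} {S : Set P} {s : ℕ → P → Fin 1 → ℤ} {nn : ℕ → P → ℤ}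
    {L : Finset ℕ} {φ : P → ℤ} (h : Good S s nn L φ) (hL : Aux A K S s L) (l : ℕ) (hl : l ∈ L)
    (p q : P) (hp : p ∈ S) (hq : q ∈ S) : (l : ℤ) ∣ φ p - φ q := by
  obtain ⟨G, hG, hφ⟩ := h l hl 1
  have h1 := hφ p hp
  have h2 := hφ q hq
  rw [Polynomial.eq_C_of_natDegree_le_zero hG, eval₂_C, pow_one] at h1 h2
  have h3 : (l : ℤ) ∣ MvPolynomial.eval (s l p) (G.coeff 0) -
      MvPolynomial.eval (s l q) (G.coeff 0) := by
    refine HasExp.dvd_eval_sub (G.coeff 0) fun i => ?_
    exact _root_.dvd_sub (hL.dvd l hl p hp i) (hL.dvd l hl q hq i)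
  have h4 := _root_.dvd_add (_root_.dvd_sub h1 h2) h3
  refine dvd_congr_right h4 ?_
  ring

theorem exists_ne_of_genPos {d : ℕ} (hd : 3 ≤ d) (z : Fin d → ℂ) (a0 : Fin d → ℤ)
    (h : GenPos z a0) : ∃ j : Fin d, 2 ≤ (j : ℕ) ∧ a0 j ≠ 0 := by
  by_contra hno
  push Not at hno
  have h0 : ∀ i, cst z a0 i = 0 := by
    intro i
    unfold cst
    refine Finset.sum_eq_zero fun j _ => ?_
    split_ifs with hj
    · rfl
    · rw [hno j (by omega)]; simp
  refine h ⟨0, by omega⟩ ⟨1, by omega⟩ ⟨2, by omega⟩ ?_ ?_ ?_ ?_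
  · intro h'; have := congrArg Fin.val h'; simp at this
  · intro h'; have := congrArg Fin.val h'; simp at this
  · intro h'; have := congrArg Fin.val h'; simp at this
  · rw [h0, h0, h0]; ring

/-- **The curve stage, slice interface.** -/
theorem curve_finish_slice {F : ℤ[X]} (hF : F.Monic) (hirr : Irreducible F)
    (z : Fin F.natDegree → ℂ) (hinj : Function.Injective z)
    (hz : ∀ i, F.eval₂ (Int.castRingHom ℂ) (z i) = 0) (hd : 3 ≤ F.natDegree) (k : ℕ) (hk : 2 ≤ k)
    (hdk : k + 1 < F.natDegree * (k - 1)) (ρ K : ℝ) (hK : ρ / 2 < K) (C M : ℕ) (hM : 0 < M) :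
    ∃ (A0 : ℝ) (B : ℕ), 1 ≤ A0 ∧ ∀ A ≥ A0, ∀ a0 : Fin F.natDegree → ℤ, GenPos z a0 →
      ∀ (T : Finset (Fin 2 → ℤ)) (m : (Fin 2 → ℤ) → ℤ) (b : (Fin 2 → ℤ) → Fin F.natDegree → ℤ),
      (∀ t ∈ T, IsSPt hF k C M A ρ a0 t (m t) (b t)) →
      ∀ (s : ℕ → (Fin 2 → ℤ) → Fin 1 → ℤ) (nn : ℕ → (Fin 2 → ℤ) → ℤ) (L : Finset ℕ),
      Aux A K (T : Set (Fin 2 → ℤ)) s L →
      (∀ i, Good (T : Set (Fin 2 → ℤ)) s nn L fun t => t i) → Good (T : Set (Fin 2 → ℤ)) s nn L m →
      (∀ l ∈ L, ∀ t ∈ T, IsCoprime (nm hF (el F (emb 2 a0 t))) (l : ℤ)) →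
      T.card ≤ B := by
  obtain ⟨A0, B, hA01, hA0⟩ := curve_finish F.natDegree k hd hk hdk ρ K (C + 2 : ℝ) hK (by
    have : (0 : ℝ) ≤ C := Nat.cast_nonneg _
    linarith)
  refine ⟨A0, B, hA01, fun A hA a0 hgp T m b hS s nn L hL gt gm hco => ?_⟩
  have hA1 : (1 : ℝ) ≤ A := hA01.trans hA
  have hAC : (2 : ℝ) * A ≤ (C + 2 : ℝ) * A := by
    have : (0 : ℝ) ≤ C := Nat.cast_nonneg _
    nlinarith
  refine hA0 A hA (Fin 2 → ℤ) z hinj (fun i c hc => lin_of_root hF hirr (z i) (hz i) c hc) a0
    (exists_ne_of_genPos hd z a0 hgp) (cst z a0) ?_ (M : ℂ) (by exact_mod_cast hM.ne') T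
    (fun t => t 0) (fun t => t 1) m b ?_ ?_ ?_ ?_ ?_ s nn L hL (gt 0) (gt 1) ?_
  · intro i
    unfold cst
    refine Finset.sum_congr rfl fun j _ => ?_
    by_cases h : (j : ℕ) < 2
    · rw [if_pos h, if_neg (by omega)]
    · rw [if_neg h, if_pos (by omega)]
  · intro t _ t' _ h
    simp only [Prod.mk.injEq] at h
    funext i
    fin_cases i
    · exact h.1
    · exact h.2
  · intro t ht i
    have h1 := cj_mul_of_eq (F := F) z hz M (m t) k (emb 2 a0 t) (b t) (by
      have := (hS t ht).eqn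
      simpa using this) i
    have h2 : cj z (emb 2 a0 t) i = (t 0 : ℂ) + z i * t 1 + cst z a0 i := by
      rw [← eval_aP, aP_two z (by omega)]
      simp
    have h3 : cj z (b t) i = ∑ j, (b t j : ℂ) * z i ^ (j : ℕ) := rfl
    rw [← h2, ← h3, ← h1]
    simp
  · intro t ht
    exact ((hS t ht).t_le 0).trans hAC
  · intro t ht
    exact ((hS t ht).t_le 1).trans hAC
  · intro t ht j
    refine ((hS t ht).b_le j).trans ?_
    have : (0 : ℝ) ≤ A ^ ρ := Real.rpow_nonneg (by linarith) _
    nlinarith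
  · intro j
    rcases T.eq_empty_or_nonempty with hT | ⟨t', ht'⟩
    · intro l _ m'
      rw [hT]
      exact ⟨0, by simp, by simp⟩
    intro l hl m'
    have hlz : IsCoprime ((MvPolynomial.eval t' (Nf hF 2 a0)) ^ k) (l : ℤ) := by
      rw [Nf_eval]
      exact (hco l hl t' ht').pow_left
    obtain ⟨u, v, huv⟩ := hlz
    have hpoly : ∀ Q : MvPolynomial (Fin 2) ℤ, HasExp (T : Set (Fin 2 → ℤ)) (s l) (nn l) l m' 0
        (fun t => MvPolynomial.eval t Q) := fun Q =>
      HasExp.mvPolynomial (fun t => t) (fun i => gt i l hl m') Q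
    refine HasExp.div (ψ := fun t => (M : ℤ) * (m t * MvPolynomial.eval t (Sf hF 2 a0 k 1 j) -
      MvPolynomial.eval t (Sf hF 2 a0 k (AdjoinRoot.root F) j))) ((hpoly (Nf hF 2 a0)).pow_zero k)
      u ?_ ?_ ?_
    · intro t ht
      have h1 : (l : ℤ) ∣ MvPolynomial.eval t (Nf hF 2 a0) - MvPolynomial.eval t' (Nf hF 2 a0) :=
        HasExp.dvd_eval_sub _ fun i =>
          (gt i).dvd_sub hL l hl t t' ht (Finset.mem_coe.mpr ht')
      have h2 := h1.trans (sub_dvd_pow_sub_pow _ _ k)
      exact dvd_congr_right (_root_.dvd_sub (dvd_mul_left (l : ℤ) v) (h2.mul_left u))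
        (by linear_combination -huv)
    · exact HasExp.const_mul _ ((HasExp.mul_zero_left (gm l hl m') (hpoly _)).sub (hpoly _))
    · intro t ht
      have h1 := coord_eq_slice hF 2 a0 t k M (m t) (b t) (by
        have := (hS t (Finset.mem_coe.mp ht)).eqn
        simpa using this) j
      rw [← h1, mul_comm, sub_self]
      exact dvd_zero _

end Crest.Agent.R022.Curve354
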