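import Crest.Agent.R022.TorsorForm
import Crest.Agent.R22.PolyKit859
import Mathlib
import Crest.Agent.R022.SliceDefs
import Crest.Agent.R22.TypeCount107
import Crest.Agent.R022.CntMain
import Crest.Agent.R022.CntLink
import Crest.Agent.R022.Expand

-- ▼ part R022/TorsorHeight
section

/-! Row 22, block T1 (helper250): heights (`len`) and degrees of the slice polynomials. -/

set_option autoImplicit false

open Matrix

namespace Crest.Agent.R022.Torsor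

open Polynomial (Monic)
open R22.PolyKit

variable {F : Polynomial ℤ} (hF : F.Monic)


theorem totalDegree_embP {d : ℕ} (r : ℕ) (a0 : Fin d → ℤ) (i) : (embP r a0 i).totalDegree ≤ 1 := by
  unfold embP
  split_ifs
  · rw [MvPolynomial.totalDegree_X]
  · rw [MvPolynomial.totalDegree_C]; omega



theorem totalDegree_Lgen (r : ℕ) (a0 : Fin F.natDegree → ℤ) (i j) :
    (Lgen hF r a0 i j).totalDegree ≤ 1 := by
  unfold Lgen
  rw [Matrix.sum_apply]
  refine MvPolynomial.totalDegree_finsetSum_le fun l _ => ?_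
  rw [Matrix.smul_apply, smul_eq_mul, Matrix.map_apply]
  refine (MvPolynomial.totalDegree_mul _ _).trans ?_
  rw [MvPolynomial.totalDegree_C, add_zero]
  exact totalDegree_embP r a0 l



theorem totalDegree_adj (r : ℕ) (a0 : Fin F.natDegree → ℤ) (i j) :
    ((Lgen hF r a0).adjugate i j).totalDegree ≤ F.natDegree := by
  rw [Matrix.adjugate_apply]
  have := totalDegree_det ((Lgen hF r a0).updateRow j (Pi.single i 1)) 1 ?_
  · simpa using this
  · intro a b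
    by_cases h : a = j
    · subst h
      rw [Matrix.updateRow_self]
      by_cases h' : b = i
      · subst h'
        rw [Pi.single_eq_same, MvPolynomial.totalDegree_one]; omega
      · rw [Pi.single_eq_of_ne h', MvPolynomial.totalDegree_zero]; omega
    · rw [Matrix.updateRow_ne h]
      exact totalDegree_Lgen hF r a0 a b


theorem totalDegree_adj_pow (r : ℕ) (a0 : Fin F.natDegree → ℤ) (k : ℕ) (i j) :
    (((Lgen hF r a0).adjugate ^ k) i j).totalDegree ≤ k * F.natDegree := by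
  induction k generalizing i j with
  | zero =>
    rw [pow_zero, Matrix.one_apply]
    split_ifs <;> simp
  | succ k ih =>
    rw [pow_succ, Matrix.mul_apply]
    refine MvPolynomial.totalDegree_finsetSum_le fun x _ => ?_
    refine (MvPolynomial.totalDegree_mul _ _).trans ?_
    have h1 := ih i x
    have h2 := totalDegree_adj hF r a0 x j
    calc _ ≤ k * F.natDegree + F.natDegree := Nat.add_le_add h1 h2
      _ = (k + 1) * F.natDegree := by ring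


end Crest.Agent.R022.Torsor
end

-- ▼ part R022/Defs
section

/-!
# R022 (statement S0029): common definitions

See `Crest/Agent/R022/Blueprint.lean` (comment only) for the mathematical blueprint.
-/

set_option autoImplicit false

namespace Crest.Agent.R022

open Polynomial

/-- algebraic closure of `ℚ` -/
abbrev Qb : Type := AlgebraicClosure ℚ
/-- integer polynomials in `t = (t₀, t₁)` -/
abbrev R2 : Type := MvPolynomial (Fin 2) ℤ
/-- polynomials in `t` over `Qb` -/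
abbrev P2 : Type := MvPolynomial (Fin 2) Qb

/-- the base change `R2 → P2` -/
noncomputable abbrev toP2 : R2 →+* P2 := MvPolynomial.map (algebraMap ℤ Qb)

/-- value of `G(t,n)` -/
noncomputable def ev3 (G : R2[X]) (t : Fin 2 → ℤ) (n : ℤ) : ℤ :=
  (G.map (MvPolynomial.eval t)).eval n


/-- `ℓ¹` norms (sum of absolute values of the coefficients) -/
noncomputable def l1 (H : R2) : ℕ := ∑ m ∈ H.support, (H.coeff m).natAbs
noncomputable def l1n (G : R2[X]) : ℕ := ∑ i ∈ G.support, l1 (G.coeff i)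
noncomputable def l1p (G : ℤ[X]) : ℕ := ∑ i ∈ G.support, (G.coeff i).natAbs
noncomputable def l1pp (G : ℤ[X][X]) : ℕ := ∑ i ∈ G.support, l1p (G.coeff i)

/-- complexity `≤ (c, A)`: degree `≤ c`, `ℓ¹`-height `≤ c * A ^ c` -/
structure Cx2 (c A : ℕ) (H : R2) : Prop where
  deg : H.totalDegree ≤ c
  ht : l1 H ≤ c * A ^ c
structure Cx3 (c A : ℕ) (G : R2[X]) : Prop where
  degn : G.natDegree ≤ c
  degt : ∀ i, (G.coeff i).totalDegree ≤ c
  ht : l1n G ≤ c * A ^ c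
structure Cx1 (c A : ℕ) (G : ℤ[X]) : Prop where
  deg : G.natDegree ≤ c
  ht : l1p G ≤ c * A ^ c
structure Cx11 (c A : ℕ) (G : ℤ[X][X]) : Prop where
  degn : G.natDegree ≤ c
  degs : ∀ i, (G.coeff i).natDegree ≤ c
  ht : l1pp G ≤ c * A ^ c

/-- Data of a slice: `α_i(t) = θ_i t₀ + t₁ + a_i`, `N(t) = ∏ α_i(t)`,
`∑_j u_j θ_i^j = (N/α_i)^k`, `∑_j w_j θ_i^j = - θ_i (N/α_i)^k`. -/
structure SliceData (d k : ℕ) where
  θ : Fin d → Qb
  a : Fin d → Qb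
  N : R2
  u : Fin d → R2
  w : Fin d → R2

namespace SliceData

variable {d k : ℕ} (S : SliceData d k)

/-- the linear form `α_i = θ_i t₀ + t₁ + a_i` -/
noncomputable def al (i : Fin d) : P2 :=
  MvPolynomial.C (S.θ i) * MvPolynomial.X 0 + MvPolynomial.X 1 + MvPolynomial.C (S.a i)

/-- all the algebraic hypotheses on a slice -/
structure Good : Prop where
  inj : Function.Injective S.θ
  gal : ∀ σ : Qb ≃ₐ[ℚ] Qb, ∃ π : Equiv.Perm (Fin d), ∀ i,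
    σ (S.θ i) = S.θ (π i) ∧ σ (S.a i) = S.a (π i)
  trans : ∀ i j, ∃ σ : Qb ≃ₐ[ℚ] Qb, σ (S.θ i) = S.θ j ∧ σ (S.a i) = S.a j
  /-- general position: no three of the lines `α_i = 0` are concurrent -/
  gp : ∀ i l m, i ≠ l → i ≠ m → l ≠ m →
    (S.a l - S.a i) * (S.θ m - S.θ i) ≠ (S.a m - S.a i) * (S.θ l - S.θ i)
  /-- no rational point on a line `α_i = 0` -/
  nz : ∀ (x y : ℚ) i, (algebraMap ℚ Qb x) * S.θ i + algebraMap ℚ Qb y + S.a i ≠ 0
  hN : toP2 S.N = ∏ i, S.al i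
  hu : ∀ i, S.al i ^ k * ∑ j : Fin d, MvPolynomial.C (S.θ i ^ (j : ℕ)) * toP2 (S.u j) = toP2 S.N ^ k
  hw : ∀ i, S.al i ^ k * ∑ j : Fin d, MvPolynomial.C (S.θ i ^ (j : ℕ)) * toP2 (S.w j)
    = - MvPolynomial.C (S.θ i) * toP2 S.N ^ k

/-- height/degree bounds of a slice -/
structure Bd (C A : ℕ) : Prop where
  N : Cx2 C A S.N
  u : ∀ j, Cx2 C A (S.u j)
  w : ∀ j, Cx2 C A (S.w j)

end SliceData

/-- a point `(t, n, b)`; `b` = coordinates of `β = M^k (n - θ) / α(t)^k` in `ℤ[θ]` -/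
@[ext] structure Pt (d : ℕ) where
  t : Fin 2 → ℤ
  n : ℤ
  b : Fin d → ℤ

noncomputable instance {d : ℕ} : DecidableEq (Pt d) := Classical.decEq _

/-- the algebraic relation between `t, n, b` -/
def Rel {d k : ℕ} (S : SliceData d k) (M : ℕ) (P : Pt d) : Prop :=
  ∀ j, (MvPolynomial.eval P.t S.N) ^ k * P.b j
    = (M : ℤ) ^ k * (P.n * MvPolynomial.eval P.t (S.u j) + MvPolynomial.eval P.t (S.w j))

/-- the points we count in a slice -/
structure IsPt {d k : ℕ} (S : SliceData d k) (M C A : ℕ) (ρ : ℝ) (P : Pt d) : Prop where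
  ht : ∀ i, |P.t i| ≤ (A : ℤ)
  hn : |P.n| ≤ (A : ℤ) ^ 9
  hb : ∀ j, |(P.b j : ℝ)| ≤ (C : ℝ) * (A : ℝ) ^ ρ
  rel : Rel S M P
  hp : ∃ p : ℕ, p.Prime ∧ A < p ∧ ∃ m : ℤ, m ≠ 0 ∧ |m| ≤ (C : ℤ) ∧
    MvPolynomial.eval P.t S.N = (p : ℤ) * m


/-- linear form in the `b`-coordinates -/
def lb {d : ℕ} (v : Fin d → ℤ) (P : Pt d) : ℤ := ∑ j, v j * P.b j


/-- `s(t) = λ₀ t₀ + λ₁ t₁` -/
def sOf (lam : Fin 2 → ℤ) (t : Fin 2 → ℤ) : ℤ := ∑ i, lam i * t i

/-- A polynomially parametrised plane curve `H = 0` (line or parabola):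
`h t_i = τ_i(s)` with `s = λ₀ t₀ + λ₁ t₁` on integer points of `H = 0`, and the image of the
parametrisation lies on `H = 0`. -/
structure RatCurve (H : R2) where
  lam : Fin 2 → ℤ
  τ : Fin 2 → ℤ[X]
  h : ℤ
  hh : h ≠ 0
  deg : ∀ i, (τ i).natDegree ≤ 2
  param : ∑ i, Polynomial.C (lam i) * τ i = Polynomial.C h * Polynomial.X
  sol : ∀ t : Fin 2 → ℤ, MvPolynomial.eval t H = 0 → ∀ i, h * t i = (τ i).eval (sOf lam t)
  on : MvPolynomial.aeval (fun i => (Polynomial.C ((h : ℚ)⁻¹) * (τ i).map (Int.castRingHom ℚ) : ℚ[X])) H = 0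

namespace RatCurve

variable {H : R2} (Z : RatCurve H)

/-- `Q_i(s) = h α_i(τ(s)/h) = θ_i τ₀(s) + τ₁(s) + h a_i` -/
noncomputable def q {d k : ℕ} (S : SliceData d k) (i : Fin d) : Qb[X] :=
  Polynomial.C (S.θ i) * (Z.τ 0).map (algebraMap ℤ Qb) + (Z.τ 1).map (algebraMap ℤ Qb)
    + Polynomial.C ((Z.h : Qb) * S.a i)


structure Bd (c A : ℕ) : Prop where
  h : Z.h.natAbs ≤ c * A ^ c
  lam : ∀ i, (Z.lam i).natAbs ≤ c * A ^ c
  τ : ∀ i, Cx1 c A (Z.τ i)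


end RatCurve



/-- monomials `t^e u^f` -/
noncomputable def mono {d k : ℕ} (S : SliceData d k) (e : Fin 2 → ℕ) (f : Fin d → ℕ) : R2 :=
  MvPolynomial.X 0 ^ e 0 * MvPolynomial.X 1 ^ e 1 * ∏ l, S.u l ^ f l



/-- chart of an irreducible surface `G(t,n) = 0`: the `b`-polynomial `Gh(t,b) = 0` of
`b = ∑ v_j b_j` -/
structure SurfChart {d k : ℕ} (S : SliceData d k) (M c A : ℕ) (G : R2[X]) (v : Fin d → ℤ)
    (Gh : R2[X]) : Prop where
  hv : ∀ j, |v j| ≤ (c : ℤ)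
  irr : Irreducible Gh
  pos : 1 ≤ Gh.natDegree
  cx : Cx3 c A Gh
  lc : 6 ≤ Gh.leadingCoeff.totalDegree
  van : ∀ P : Pt d, Rel S M P → MvPolynomial.eval P.t S.N ≠ 0 → ev3 G P.t P.n = 0 →
    ev3 Gh P.t (lb v P) = 0



end Crest.Agent.R022
end

-- ▼ part R022/Stage107A
section

/-! Row 22, level L0 (helper107): the cleared integer monomials `t^e b^f N^(k (J - |f|))` as
polynomials in `n` over `ℤ[t]`, their values and degrees. -/

set_option autoImplicit false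

namespace Crest.Agent.R022.Stage107

open Torsor
open Polynomial (C X)

/-- degree bound in the coefficients -/
def CD {σ : Type*} (p : Polynomial (MvPolynomial σ ℤ)) (c : ℕ) : Prop :=
  ∀ i, (p.coeff i).totalDegree ≤ c

theorem CD.mono {σ : Type*} {p : Polynomial (MvPolynomial σ ℤ)} {c c' : ℕ} (h : CD p c)
    (hc : c ≤ c') : CD p c' := fun i => (h i).trans hc

theorem CD_C {σ : Type*} {x : MvPolynomial σ ℤ} {c : ℕ} (h : x.totalDegree ≤ c) : CD (C x) c := by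
  intro i
  rw [Polynomial.coeff_C]
  split_ifs
  · exact h
  · simp

theorem CD_mul {σ : Type*} {p q : Polynomial (MvPolynomial σ ℤ)} {c c' : ℕ} (hp : CD p c)
    (hq : CD q c') : CD (p * q) (c + c') := by
  intro i
  rw [Polynomial.coeff_mul]
  refine MvPolynomial.totalDegree_finsetSum_le fun x _ => ?_
  exact (MvPolynomial.totalDegree_mul _ _).trans (Nat.add_le_add (hp _) (hq _))


theorem CD_sub {σ : Type*} {p q : Polynomial (MvPolynomial σ ℤ)} {c : ℕ} (hp : CD p c)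
    (hq : CD q c) : CD (p - q) c := by
  intro i
  rw [Polynomial.coeff_sub]
  exact (MvPolynomial.totalDegree_sub _ _).trans (max_le (hp i) (hq i))

theorem CD_pow {σ : Type*} {p : Polynomial (MvPolynomial σ ℤ)} {c : ℕ} (hp : CD p c) (n : ℕ) :
    CD (p ^ n) (n * c) := by
  induction n with
  | zero =>
    rw [pow_zero]
    intro i
    rw [Polynomial.coeff_one]
    split_ifs <;> simp
  | succ n ih =>
    rw [pow_succ]
    exact (CD_mul ih hp).mono (by ring_nf; omega)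

theorem CD_prod {σ ι : Type*} (s : Finset ι) (p : ι → Polynomial (MvPolynomial σ ℤ)) (c : ι → ℕ)
    (hp : ∀ i ∈ s, CD (p i) (c i)) : CD (∏ i ∈ s, p i) (∑ i ∈ s, c i) := by
  classical
  induction s using Finset.induction_on with
  | empty =>
    intro i
    rw [Finset.prod_empty, Polynomial.coeff_one]
    split_ifs <;> simp
  | insert a s ha ih =>
    rw [Finset.prod_insert ha, Finset.sum_insert ha]
    exact CD_mul (hp a (Finset.mem_insert_self _ _))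
      (ih fun i hi => hp i (Finset.mem_insert_of_mem hi))

theorem CD_sum {σ ι : Type*} (s : Finset ι) (p : ι → Polynomial (MvPolynomial σ ℤ)) (c : ℕ)
    (hp : ∀ i ∈ s, CD (p i) c) : CD (∑ i ∈ s, p i) c := by
  intro i
  rw [Polynomial.finsetSum_coeff]
  exact MvPolynomial.totalDegree_finsetSum_le fun x hx => hp x hx i

theorem CD_X {σ : Type*} : CD (X : Polynomial (MvPolynomial σ ℤ)) 0 := by
  intro i
  rw [Polynomial.coeff_X]
  split_ifs <;> simp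

variable {F : Polynomial ℤ} (hF : F.Monic)

/-- `N^k b_l = M (n A_l - B_l)` as a polynomial in `n` -/
noncomputable def Bi (k : ℕ) (M : ℤ) (a0 : Fin F.natDegree → ℤ) (l : Fin F.natDegree) :
    Polynomial (MvPolynomial (Fin 2) ℤ) :=
  C (MvPolynomial.C M * Sf hF 2 a0 k 1 l) * X -
    C (MvPolynomial.C M * Sf hF 2 a0 k (AdjoinRoot.root F) l)

/-- the uncleared monomial `t^e ∏ (N^k b_l)^{f_l}` -/
noncomputable def Pmon (k : ℕ) (M : ℤ) (a0 : Fin F.natDegree → ℤ)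
    (ω : (ℕ × ℕ) × (Fin F.natDegree → ℕ)) : Polynomial (MvPolynomial (Fin 2) ℤ) :=
  C (MvPolynomial.X 0 ^ ω.1.1 * MvPolynomial.X 1 ^ ω.1.2) * (∏ l, Bi hF k M a0 l ^ ω.2 l)

/-- the cleared monomial -/
noncomputable def Imon (k J : ℕ) (M : ℤ) (a0 : Fin F.natDegree → ℤ)
    (ω : (ℕ × ℕ) × (Fin F.natDegree → ℕ)) : Polynomial (MvPolynomial (Fin 2) ℤ) :=
  C (MvPolynomial.X 0 ^ ω.1.1 * MvPolynomial.X 1 ^ ω.1.2) * (∏ l, Bi hF k M a0 l ^ ω.2 l) *
    C (Nf hF 2 a0 ^ (k * (J - ∑ l, ω.2 l)))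

theorem natDegree_Bi (k : ℕ) (M : ℤ) (a0 : Fin F.natDegree → ℤ) (l : Fin F.natDegree) :
    (Bi hF k M a0 l).natDegree ≤ 1 := by
  unfold Bi
  refine (Polynomial.natDegree_sub_le _ _).trans (max_le ?_ ?_)
  · refine (Polynomial.natDegree_C_mul_le _ _).trans ?_
    exact Polynomial.natDegree_X_le
  · rw [Polynomial.natDegree_C]; omega

theorem natDegree_Pmon (k : ℕ) (M : ℤ) (a0 : Fin F.natDegree → ℤ)
    (ω : (ℕ × ℕ) × (Fin F.natDegree → ℕ)) : (Pmon hF k M a0 ω).natDegree ≤ ∑ l, ω.2 l := by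
  unfold Pmon
  refine (Polynomial.natDegree_C_mul_le _ _).trans ?_
  refine (Polynomial.natDegree_prod_le _ _).trans ?_
  refine Finset.sum_le_sum fun l _ => ?_
  refine Polynomial.natDegree_pow_le.trans ?_
  calc ω.2 l * (Bi hF k M a0 l).natDegree ≤ ω.2 l * 1 :=
        Nat.mul_le_mul_left _ (natDegree_Bi hF k M a0 l)
    _ = ω.2 l := mul_one _

theorem Imon_eq (k J : ℕ) (M : ℤ) (a0 : Fin F.natDegree → ℤ)
    (ω : (ℕ × ℕ) × (Fin F.natDegree → ℕ)) :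
    Imon hF k J M a0 ω = Pmon hF k M a0 ω * C (Nf hF 2 a0 ^ (k * (J - ∑ l, ω.2 l))) := rfl

theorem natDegree_Imon (k J : ℕ) (M : ℤ) (a0 : Fin F.natDegree → ℤ)
    (ω : (ℕ × ℕ) × (Fin F.natDegree → ℕ)) : (Imon hF k J M a0 ω).natDegree ≤ ∑ l, ω.2 l := by
  rw [Imon_eq]
  exact (Polynomial.natDegree_mul_C_le _ _).trans (natDegree_Pmon hF k M a0 ω)

theorem totalDegree_Sf_le (k : ℕ) (y : AdjoinRoot F) (a0 : Fin F.natDegree → ℤ) (l) :
    (Sf hF 2 a0 k y l).totalDegree ≤ k * F.natDegree := by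
  unfold Sf
  simp only [Matrix.mulVec, dotProduct]
  refine MvPolynomial.totalDegree_finsetSum_le fun i _ => ?_
  refine (MvPolynomial.totalDegree_mul _ _).trans ?_
  rw [MvPolynomial.totalDegree_C, add_zero]
  exact totalDegree_adj_pow hF 2 a0 k l i

theorem totalDegree_Nf_le (a0 : Fin F.natDegree → ℤ) :
    (Nf hF 2 a0).totalDegree ≤ F.natDegree := by
  have := R22.PolyKit.totalDegree_det (Lgen hF 2 a0) 1 (fun i j => totalDegree_Lgen hF 2 a0 i j)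
  rw [Fintype.card_fin, mul_one] at this
  exact this

theorem CD_Bi (k : ℕ) (M : ℤ) (a0 : Fin F.natDegree → ℤ) (l : Fin F.natDegree) :
    CD (Bi hF k M a0 l) (k * F.natDegree) := by
  have h : ∀ y, (MvPolynomial.C M * Sf hF 2 a0 k y l).totalDegree ≤ k * F.natDegree := by
    intro y
    refine (MvPolynomial.totalDegree_mul _ _).trans ?_
    rw [MvPolynomial.totalDegree_C, zero_add]
    exact totalDegree_Sf_le hF k y a0 l
  unfold Bi
  refine CD_sub ?_ (CD_C (h _))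
  have := CD_mul (CD_C (h 1)) (CD_X (σ := Fin 2))
  simpa using this

theorem CD_Imon (k J : ℕ) (M : ℤ) (a0 : Fin F.natDegree → ℤ)
    (ω : (ℕ × ℕ) × (Fin F.natDegree → ℕ)) (hJ : ∑ l, ω.2 l ≤ J) :
    CD (Imon hF k J M a0 ω) (ω.1.1 + ω.1.2 + J * (k * F.natDegree)) := by
  unfold Imon
  have h1 : (MvPolynomial.X 0 ^ ω.1.1 * MvPolynomial.X 1 ^ ω.1.2 :
      MvPolynomial (Fin 2) ℤ).totalDegree ≤ ω.1.1 + ω.1.2 := by
    refine (MvPolynomial.totalDegree_mul _ _).trans ?_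
    rw [MvPolynomial.totalDegree_X_pow, MvPolynomial.totalDegree_X_pow]
  have h2 : CD (∏ l, Bi hF k M a0 l ^ ω.2 l) (∑ l, ω.2 l * (k * F.natDegree)) :=
    CD_prod _ _ _ fun l _ => CD_pow (CD_Bi hF k M a0 l) _
  have h3 : (Nf hF 2 a0 ^ (k * (J - ∑ l, ω.2 l))).totalDegree ≤
      (k * (J - ∑ l, ω.2 l)) * F.natDegree :=
    (MvPolynomial.totalDegree_pow _ _).trans (Nat.mul_le_mul_left _ (totalDegree_Nf_le hF a0))
  have h4 := CD_mul (CD_mul (CD_C h1) h2) (CD_C h3)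
  refine h4.mono ?_
  rw [← Finset.sum_mul, add_assoc]
  refine Nat.add_le_add_left ?_ _
  rw [show k * (J - ∑ l, ω.2 l) * F.natDegree = (J - ∑ l, ω.2 l) * (k * F.natDegree) by ring,
    ← Nat.add_mul]
  refine Nat.mul_le_mul_right _ ?_
  omega

/-- value of the polynomials at a point -/
theorem eval_Bi (k : ℕ) (M : ℤ) (a0 : Fin F.natDegree → ℤ) (l : Fin F.natDegree)
    (t : Fin 2 → ℤ) (n : ℤ) (b : Fin F.natDegree → ℤ)
    (h : (M : AdjoinRoot F) * ((n : AdjoinRoot F) - AdjoinRoot.root F) =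
      el F (emb 2 a0 t) ^ k * el F b) :
    ev3 (Bi hF k M a0 l) t n = b l * (MvPolynomial.eval t (Nf hF 2 a0)) ^ k := by
  rw [coord_eq_slice hF 2 a0 t k M n b h l]
  unfold ev3 Bi
  simp only [Polynomial.map_sub, Polynomial.map_mul, Polynomial.map_C, Polynomial.map_X,
    Polynomial.eval_sub, Polynomial.eval_mul, Polynomial.eval_C, Polynomial.eval_X, map_mul,
    MvPolynomial.eval_C]
  ring

theorem eval_Pmon (k : ℕ) (M : ℤ) (a0 : Fin F.natDegree → ℤ)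
    (ω : (ℕ × ℕ) × (Fin F.natDegree → ℕ)) (t : Fin 2 → ℤ) (n : ℤ) (b : Fin F.natDegree → ℤ)
    (h : (M : AdjoinRoot F) * ((n : AdjoinRoot F) - AdjoinRoot.root F) =
      el F (emb 2 a0 t) ^ k * el F b) :
    ev3 (Pmon hF k M a0 ω) t n = (t 0 ^ ω.1.1 * t 1 ^ ω.1.2 * ∏ l, b l ^ ω.2 l) *
      (MvPolynomial.eval t (Nf hF 2 a0)) ^ (k * ∑ l, ω.2 l) := by
  have h1 : ∀ l, ev3 (Bi hF k M a0 l) t n = b l * (MvPolynomial.eval t (Nf hF 2 a0)) ^ k :=
    fun l => eval_Bi hF k M a0 l t n b h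
  unfold ev3 at h1
  unfold ev3 Pmon
  rw [Polynomial.map_mul, Polynomial.eval_mul, Polynomial.map_C, Polynomial.eval_C,
    Polynomial.map_prod, Polynomial.eval_prod]
  simp only [Polynomial.map_pow, Polynomial.eval_pow, h1, map_mul, map_pow, MvPolynomial.eval_X,
    mul_pow, Finset.prod_mul_distrib]
  rw [pow_mul, ← Finset.prod_pow_eq_pow_sum]
  ring

theorem eval_Imon (k J : ℕ) (M : ℤ) (a0 : Fin F.natDegree → ℤ)
    (ω : (ℕ × ℕ) × (Fin F.natDegree → ℕ)) (hJ : ∑ l, ω.2 l ≤ J) (t : Fin 2 → ℤ) (n : ℤ)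
    (b : Fin F.natDegree → ℤ)
    (h : (M : AdjoinRoot F) * ((n : AdjoinRoot F) - AdjoinRoot.root F) =
      el F (emb 2 a0 t) ^ k * el F b) :
    ev3 (Imon hF k J M a0 ω) t n = (t 0 ^ ω.1.1 * t 1 ^ ω.1.2 * ∏ l, b l ^ ω.2 l) *
      (MvPolynomial.eval t (Nf hF 2 a0)) ^ (k * J) := by
  have h1 := eval_Pmon hF k M a0 ω t n b h
  unfold ev3 at h1
  unfold ev3
  rw [Imon_eq, Polynomial.map_mul, Polynomial.eval_mul, h1, Polynomial.map_C, Polynomial.eval_C,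
    map_pow, mul_assoc, ← pow_add, ← Nat.mul_add, Nat.add_sub_cancel' hJ]

/-- the form needed by `relation_slice` -/
theorem eval_Pmon_sum (k J : ℕ) (M : ℤ) (a0 : Fin F.natDegree → ℤ)
    (ω : (ℕ × ℕ) × (Fin F.natDegree → ℕ)) (hJ : ∑ l, ω.2 l ≤ J) (t : Fin 2 → ℤ) (n : ℤ)
    (b : Fin F.natDegree → ℤ)
    (h : (M : AdjoinRoot F) * ((n : AdjoinRoot F) - AdjoinRoot.root F) =
      el F (emb 2 a0 t) ^ k * el F b) :
    (t 0 ^ ω.1.1 * t 1 ^ ω.1.2 * ∏ l, b l ^ ω.2 l) *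
      (MvPolynomial.eval t (Nf hF 2 a0)) ^ (k * ∑ l, ω.2 l) =
    ∑ j : Fin (J + 1), MvPolynomial.eval t ((Pmon hF k M a0 ω).coeff j) * n ^ (j : ℕ) := by
  rw [← eval_Pmon hF k M a0 ω t n b h]
  unfold ev3
  have h1 : ((Pmon hF k M a0 ω).map (MvPolynomial.eval t)).natDegree < J + 1 := by
    have := (Polynomial.natDegree_map_le (f := MvPolynomial.eval t) (p := Pmon hF k M a0 ω)).trans
      ((natDegree_Pmon hF k M a0 ω).trans hJ)
    omega
  rw [Polynomial.eval_eq_sum_range' h1, ← Fin.sum_univ_eq_sum_range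
    (fun j => ((Pmon hF k M a0 ω).map (MvPolynomial.eval t)).coeff j * n ^ j) (J + 1)]
  refine Finset.sum_congr rfl fun j _ => ?_
  rw [Polynomial.coeff_map]

end Crest.Agent.R022.Stage107
end

-- ▼ part R022/Stage107B
section

/-! Row 22, level L0 (helper107): the determinant step with the free variable `n`. -/

set_option autoImplicit false

namespace Crest.Agent.R022.Stage107

open Crest.Agent.R022.Torsor Cnt
open Polynomial (C X)

variable {F : Polynomial ℤ} (hF : F.Monic)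

/-- the output of the count: a good family of monomials on every slice in general position -/
def HasFamily (z : Fin F.natDegree → ℂ) (k : ℕ) (ρ κ : ℝ) : Prop :=
  ∃ Y m J w s : ℕ, (Y : ℝ) < ρ * (J + 1) ∧ w + (J + 1) * (m + 2).choose 3 ≤ m * s ∧
    ∃ W : ℝ, W < κ * w ∧ ∀ (a0 : Fin F.natDegree → ℤ), GenPos z a0 → ∀ M : ℤ, M ≠ 0 →
      ∃ T : Finset ((ℕ × ℕ) × (Fin F.natDegree → ℕ)), T.card = s ∧
        (∀ ω ∈ T, wt ρ ω ≤ Y ∧ ∑ l, ω.2 l ≤ J) ∧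
        (∀ a : (ℕ × ℕ) × (Fin F.natDegree → ℕ) → ℤ,
          ∑ ω ∈ T, C (MvPolynomial.C (a ω)) * Imon hF k J M a0 ω = 0 → ∀ ω ∈ T, a ω = 0) ∧
        ∑ ω ∈ T, wt ρ ω ≤ W

/-- value of an integer monomial -/
def mval {d : ℕ} (ω : (ℕ × ℕ) × (Fin d → ℕ)) (t : Fin 2 → ℤ) (b : Fin d → ℤ) : ℤ :=
  t 0 ^ ω.1.1 * t 1 ^ ω.1.2 * ∏ l, b l ^ ω.2 l

theorem abs_mval_le {d : ℕ} {ρ A : ℝ} (hρ : 0 < ρ) (hA : 1 ≤ A) (Cc : ℕ) (hC : 0 < Cc)
    (ω : (ℕ × ℕ) × (Fin d → ℕ)) (Y J : ℕ) (h1 : wt ρ ω ≤ Y) (h2 : ∑ l, ω.2 l ≤ J)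
    (t : Fin 2 → ℤ) (b : Fin d → ℤ) (ht : ∀ i, |(t i : ℝ)| ≤ 2 * A)
    (hb : ∀ l, |(b l : ℝ)| ≤ Cc * A ^ ρ) :
    |(mval ω t b : ℝ)| ≤ 2 ^ Y * (Cc : ℝ) ^ J * A ^ wt ρ ω := by
  have hA0 : 0 < A := by linarith
  have hC1 : (1 : ℝ) ≤ Cc := by exact_mod_cast hC
  have hAρ : 0 < A ^ ρ := Real.rpow_pos_of_pos hA0 ρ
  have he : ω.1.1 + ω.1.2 ≤ Y := by
    have h3 : ((ω.1.1 + ω.1.2 : ℕ) : ℝ) ≤ Y := by
      refine le_trans ?_ h1
      unfold wt
      have : (0 : ℝ) ≤ ρ * ((∑ l, ω.2 l : ℕ) : ℝ) := by positivity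
      linarith
    exact_mod_cast h3
  unfold mval
  push_cast
  rw [abs_mul, abs_mul, abs_pow, abs_pow, Finset.abs_prod]
  have e1 : |(t 0 : ℝ)| ^ ω.1.1 * |(t 1 : ℝ)| ^ ω.1.2 ≤ (2 * A) ^ (ω.1.1 + ω.1.2) := by
    rw [pow_add]
    exact mul_le_mul (pow_le_pow_left₀ (abs_nonneg _) (ht 0) _)
      (pow_le_pow_left₀ (abs_nonneg _) (ht 1) _) (by positivity) (by positivity)
  have e2 : ∏ l, |((b l : ℝ)) ^ ω.2 l| ≤ ((Cc : ℝ) * A ^ ρ) ^ (∑ l, ω.2 l) := by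
    rw [← Finset.prod_pow_eq_pow_sum]
    refine Finset.prod_le_prod (fun _ _ => abs_nonneg _) fun l _ => ?_
    rw [abs_pow]
    exact pow_le_pow_left₀ (abs_nonneg _) (hb l) _
  have e3 : A ^ wt ρ ω = A ^ (ω.1.1 + ω.1.2) * (A ^ ρ) ^ (∑ l, ω.2 l) := by
    unfold wt
    rw [Real.rpow_add hA0, Real.rpow_natCast, Real.rpow_mul hA0.le, Real.rpow_natCast]
  calc |(t 0 : ℝ)| ^ ω.1.1 * |(t 1 : ℝ)| ^ ω.1.2 * ∏ l, |((b l : ℝ)) ^ ω.2 l|
      ≤ (2 * A) ^ (ω.1.1 + ω.1.2) * ((Cc : ℝ) * A ^ ρ) ^ (∑ l, ω.2 l) :=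
        mul_le_mul e1 e2 (Finset.prod_nonneg fun _ _ => abs_nonneg _) (by positivity)
    _ = 2 ^ (ω.1.1 + ω.1.2) * (Cc : ℝ) ^ (∑ l, ω.2 l) * A ^ wt ρ ω := by
        rw [e3, mul_pow, mul_pow]; ring
    _ ≤ 2 ^ Y * (Cc : ℝ) ^ J * A ^ wt ρ ω := by
        have g1 : (2 : ℝ) ^ (ω.1.1 + ω.1.2) ≤ 2 ^ Y := pow_le_pow_right₀ (by norm_num) he
        have g2 : (Cc : ℝ) ^ (∑ l, ω.2 l) ≤ (Cc : ℝ) ^ J := pow_le_pow_right₀ hC1 h2
        have g3 : 0 < A ^ wt ρ ω := Real.rpow_pos_of_pos hA0 _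
        exact mul_le_mul_of_nonneg_right
          (mul_le_mul g1 g2 (by positivity) (by positivity)) g3.le

/-- a trivial relation for small `A` -/
theorem trivial_relation (B : ℕ) : ∃ G : Polynomial (MvPolynomial (Fin 2) ℤ), G ≠ 0 ∧
    G.natDegree ≤ 2 * B + 1 ∧ CD G (2 * B + 1) ∧
    ∀ (t : Fin 2 → ℤ) (n : ℤ), |t 0| ≤ B → ev3 G t n = 0 := by
  classical
  set H : MvPolynomial (Fin 2) ℤ := ∏ u ∈ Finset.Icc (-(B : ℤ)) B,
    (MvPolynomial.X 0 - MvPolynomial.C u) with hH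
  have hcard : (Finset.Icc (-(B : ℤ)) B).card = 2 * B + 1 := by
    rw [Int.card_Icc]; omega
  refine ⟨C H, ?_, ?_, ?_, ?_⟩
  · rw [Ne, Polynomial.C_eq_zero, hH, Finset.prod_eq_zero_iff]
    rintro ⟨u, -, hu⟩
    have := congrArg (MvPolynomial.eval (fun _ => u + 1)) hu
    simp at this
  · rw [Polynomial.natDegree_C]; omega
  · refine CD_C ?_
    rw [hH]
    refine (MvPolynomial.totalDegree_finset_prod _ _).trans ?_
    calc _ ≤ ∑ _u ∈ Finset.Icc (-(B : ℤ)) B, 1 := by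
          refine Finset.sum_le_sum fun u _ => ?_
          refine (MvPolynomial.totalDegree_sub_C_le _ _).trans ?_
          rw [MvPolynomial.totalDegree_X]
      _ = 2 * B + 1 := by rw [Finset.sum_const, hcard, smul_eq_mul, mul_one]
  · intro t n ht
    unfold ev3
    rw [Polynomial.map_C, Polynomial.eval_C, hH, map_prod]
    refine Finset.prod_eq_zero (i := t 0) ?_ ?_
    · rw [Finset.mem_Icc]
      exact abs_le.mp ht
    · simp

/-- **Level L0.** All points of a class modulo a modulus `∏ l ≥ A ^ κ` satisfy a nonzero integer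
relation `G(t, n) = 0` of bounded degree. -/
theorem level0_of_family (z : Fin F.natDegree → ℂ) (k : ℕ) (ρ κ : ℝ) (hρ : 0 < ρ) (hκ : 0 < κ)
    (hfam : HasFamily hF z k ρ κ) (Cc M : ℕ) (hC : 0 < Cc) (hM : 0 < M) :
    ∃ D0 : ℕ, ∀ A : ℝ, 1 ≤ A → ∀ a0 : Fin F.natDegree → ℤ, GenPos z a0 →
      ∀ (P : Type) (S : Set P) (t : P → Fin 2 → ℤ) (n : P → ℤ) (b : P → Fin F.natDegree → ℤ),
      (∀ p ∈ S, (∀ i, |(t p i : ℝ)| ≤ 2 * A) ∧ (∀ l, |(b p l : ℝ)| ≤ Cc * A ^ ρ) ∧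
        (M : AdjoinRoot F) * ((n p : AdjoinRoot F) - AdjoinRoot.root F) =
          el F (emb 2 a0 (t p)) ^ k * el F (b p)) →
      ∀ L : Finset ℕ, (L : Set ℕ).Pairwise Nat.Coprime → A ^ κ ≤ ((∏ l ∈ L, l : ℕ) : ℝ) →
      (∀ l ∈ L, ∀ p ∈ S, IsCoprime (nm hF (el F (emb 2 a0 (t p)))) (l : ℤ)) →
      (∀ l ∈ L, ∀ p ∈ S, ∀ p' ∈ S, ∀ i, (l : ℤ) ∣ t p i - t p' i) →
      ∃ G : Polynomial (MvPolynomial (Fin 2) ℤ), G ≠ 0 ∧ G.natDegree ≤ D0 ∧ CD G D0 ∧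
        ∀ p ∈ S, ev3 G (t p) (n p) = 0 := by
  classical
  obtain ⟨Y, m, J, w, s, hYJ, hw, W, hW, hfam⟩ := hfam
  set δ : ℝ := κ * w - W with hδ
  have hδ0 : 0 < δ := by rw [hδ]; linarith
  set Q : ℝ := (s.factorial : ℝ) * (2 ^ Y * (Cc : ℝ) ^ J) ^ s with hQ
  have hC1 : (1 : ℝ) ≤ Cc := by exact_mod_cast hC
  have hQ1 : 1 ≤ Q := by
    rw [hQ]
    have h1 : (1 : ℝ) ≤ (s.factorial : ℝ) := by exact_mod_cast Nat.succ_le_of_lt s.factorial_pos
    have h2 : (1 : ℝ) ≤ (2 ^ Y * (Cc : ℝ) ^ J) ^ s :=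
      one_le_pow₀ (one_le_mul_of_one_le_of_one_le (one_le_pow₀ (by norm_num)) (one_le_pow₀ hC1))
    exact one_le_mul_of_one_le_of_one_le h1 h2
  set A0 : ℝ := Q ^ (1 / δ) with hA0
  set B0 : ℕ := ⌈2 * A0⌉₊ with hB0
  refine ⟨2 * B0 + 1 + (J + Y + J * (k * F.natDegree)), ?_⟩
  intro A hA a0 hgp P S t n b hS L hL hLA hcop hcong
  have hApos : 0 < A := by linarith
  rcases le_or_gt A A0 with hAs | hAl
  · -- small `A`
    obtain ⟨G, hG0, hG1, hG2, hG3⟩ := trivial_relation B0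
    refine ⟨G, hG0, by omega, hG2.mono (by omega), fun p hp => hG3 _ _ ?_⟩
    have h1 := (hS p hp).1 0
    have h2 : (2 * A0 : ℝ) ≤ B0 := Nat.le_ceil _
    have h3 : |(t p 0 : ℝ)| ≤ (B0 : ℝ) := by linarith
    exact_mod_cast h3
  rcases S.eq_empty_or_nonempty with hemp | ⟨p0, hp0⟩
  · refine ⟨1, one_ne_zero, by simp, ?_, ?_⟩
    · intro i
      rw [Polynomial.coeff_one]
      split_ifs <;> simp
    · intro p hp
      rw [hemp] at hp
      exact absurd hp (Set.notMem_empty _)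
  obtain ⟨T, hTc, hTw, hTi, hTW⟩ := hfam a0 hgp (M : ℤ) (by exact_mod_cast hM.ne')
  -- the determinant step
  obtain ⟨a, ha0, ha⟩ := R22.TypeCount.relation_slice (ι := {ω // ω ∈ T}) (r := 2) (J := J) (m := m)
    (w := w) S t n (fun ω p => mval ω.1 (t p) (b p)) (Nf hF 2 a0)
    (fun ω => k * ∑ l, ω.1.2 l)
    (fun ω j => (Pmon hF k M a0 ω.1).coeff j)
    (by
      intro ω p hp
      exact eval_Pmon_sum hF k J M a0 ω.1 (hTw _ ω.2).2 (t p) (n p) (b p) (hS p hp).2.2)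
    L hL (fun _ => t p0) (fun l hl p hp i => hcong l hl p hp p0 hp0 i)
    (by
      intro l hl
      rw [Nf_eval]
      exact hcop l hl p0 hp0)
    (fun ω => 2 ^ Y * (Cc : ℝ) ^ J * A ^ wt ρ ω.1)
    (by
      intro p hp ω
      exact abs_mval_le hρ hA Cc hC ω.1 Y J (hTw _ ω.2).1 (hTw _ ω.2).2 (t p) (b p)
        (hS p hp).1 (hS p hp).2.1)
    (by rw [Fintype.card_coe, hTc]; exact hw)
    (by
      rw [Fintype.card_coe, hTc, Finset.prod_mul_distrib, Finset.prod_const, Finset.card_univ,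
        Fintype.card_coe, hTc]
      have e1 : ∏ x : {ω // ω ∈ T}, A ^ wt ρ x.1 = A ^ (∑ ω ∈ T, wt ρ ω) := by
        rw [Finset.prod_coe_sort T (fun ω => A ^ wt ρ ω)]
        rw [← Real.rpow_sum_of_pos hApos]
      rw [e1, ← mul_assoc, ← hQ]
      have e2 : A ^ (∑ ω ∈ T, wt ρ ω) ≤ A ^ W := Real.rpow_le_rpow_of_exponent_le hA hTW
      have e3 : (A ^ κ) ^ w ≤ ((∏ l ∈ L, l : ℕ) : ℝ) ^ w :=
        pow_le_pow_left₀ (Real.rpow_pos_of_pos hApos _).le hLA w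
      refine lt_of_lt_of_le ?_ e3
      rw [← Real.rpow_natCast, ← Real.rpow_mul hApos.le]
      have e4 : κ * (w : ℝ) = δ + W := by rw [hδ]; ring
      rw [e4, Real.rpow_add hApos]
      have e5 : Q < A ^ δ := by
        have h1 : A0 ^ δ = Q := by
          rw [hA0, ← Real.rpow_mul (by linarith), one_div, inv_mul_cancel₀ hδ0.ne', Real.rpow_one]
        rw [← h1]
        exact Real.rpow_lt_rpow (Real.rpow_nonneg (by linarith) _) hAl hδ0
      calc Q * A ^ (∑ ω ∈ T, wt ρ ω) ≤ Q * A ^ W :=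
            mul_le_mul_of_nonneg_left e2 (by linarith)
        _ < A ^ δ * A ^ W := mul_lt_mul_of_pos_right e5 (Real.rpow_pos_of_pos hApos _))
  -- the polynomial
  set a' : (ℕ × ℕ) × (Fin F.natDegree → ℕ) → ℤ := fun ω => if h : ω ∈ T then a ⟨ω, h⟩ else 0
    with ha'
  set G : Polynomial (MvPolynomial (Fin 2) ℤ) :=
    ∑ ω ∈ T, C (MvPolynomial.C (a' ω)) * Imon hF k J M a0 ω with hG
  refine ⟨G, ?_, ?_, ?_, ?_⟩
  · intro hG0
    apply ha0
    funext ω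
    have := hTi a' hG0 ω.1 ω.2
    simp only [ha', dif_pos ω.2] at this
    exact this
  · rw [hG]
    refine (Polynomial.natDegree_sum_le_of_forall_le _ _ (n := J) fun ω hω => ?_).trans (by omega)
    exact (Polynomial.natDegree_C_mul_le _ _).trans
      ((natDegree_Imon hF k J M a0 ω).trans (hTw ω hω).2)
  · rw [hG]
    refine CD_sum _ _ _ fun ω hω => ?_
    have h1 := CD_mul (CD_C (x := MvPolynomial.C (a' ω)) (c := 0)
      (by rw [MvPolynomial.totalDegree_C])) (CD_Imon hF k J M a0 ω (hTw ω hω).2)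
    refine h1.mono ?_
    have he : ω.1.1 + ω.1.2 ≤ Y := by
      have h3 : ((ω.1.1 + ω.1.2 : ℕ) : ℝ) ≤ Y := by
        refine le_trans ?_ (hTw ω hω).1
        unfold wt
        have : (0 : ℝ) ≤ ρ * ((∑ l, ω.2 l : ℕ) : ℝ) := by positivity
        linarith
      exact_mod_cast h3
    omega
  · intro p hp
    have h1 := ha p hp
    unfold ev3
    rw [hG, Polynomial.map_sum, Polynomial.eval_finset_sum]
    have h2 : ∀ ω ∈ T, ((C (MvPolynomial.C (a' ω)) * Imon hF k J M a0 ω).map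
        (MvPolynomial.eval (t p))).eval (n p) =
        (a' ω * mval ω (t p) (b p)) * (MvPolynomial.eval (t p) (Nf hF 2 a0)) ^ (k * J) := by
      intro ω hω
      have h3 := eval_Imon hF k J M a0 ω (hTw ω hω).2 (t p) (n p) (b p) (hS p hp).2.2
      unfold ev3 at h3
      rw [Polynomial.map_mul, Polynomial.eval_mul, h3, Polynomial.map_C, Polynomial.eval_C,
        MvPolynomial.eval_C, mval]
      ring
    rw [Finset.sum_congr rfl h2, ← Finset.sum_mul]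
    have h4 : ∑ ω ∈ T, a' ω * mval ω (t p) (b p) = 0 := by
      rw [← Finset.sum_coe_sort T (fun ω => a' ω * mval ω (t p) (b p)), ← h1]
      refine Finset.sum_congr rfl fun ω _ => ?_
      simp only [ha', dif_pos ω.2]
    rw [h4, zero_mul]

end Crest.Agent.R022.Stage107
end

-- ▼ part R022/Stage107
section

/-! Row 22, level L0 (helper107): final form of the determinant step with the free variable `n`. -/

set_option autoImplicit false

namespace Crest.Agent.R022.Stage107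

open Crest.Agent.R022.Torsor Cnt
open Polynomial (C X)

variable {F : Polynomial ℤ} (hF : F.Monic)

theorem Bi_eq (k : ℕ) (M : ℤ) (a0 : Fin F.natDegree → ℤ) (l : Fin F.natDegree) :
    Bi hF k M a0 l = Bt hF k M a0 l := by
  unfold Bi Bt
  rw [Polynomial.C_mul, Polynomial.C_mul]
  ring

theorem Imon_eq_monZ (k J : ℕ) (M : ℤ) (a0 : Fin F.natDegree → ℤ)
    (ω : (ℕ × ℕ) × (Fin F.natDegree → ℕ)) : Imon hF k J M a0 ω = monZ hF k M J a0 ω := by
  unfold Imon monZ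
  simp only [Bi_eq]

theorem hasFamily (z : Fin F.natDegree → ℂ) (hinj : Function.Injective z)
    (hz : ∀ i, F.eval₂ (Int.castRingHom ℂ) (z i) = 0) {d k : ℕ} (hd : 1 ≤ d)
    (hdF : F.natDegree = d + 1) {ρ κ : ℝ} (hρ : 0 < ρ) (hκ : 0 < κ)
    (hthr : (9 / 8 : ℝ) ^ 2 < κ ^ 2 * (2 * C3 ρ k d * ρ)) : HasFamily hF z k ρ κ := by
  obtain ⟨Y, m, J, w, s, h1, h2, W, h3, h4⟩ := slice_family hd hρ hκ hthr
  refine ⟨Y, m, J, w, s, h1, h2, W, h3, fun a0 hgp M hM => ?_⟩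
  obtain ⟨T, g1, g2, g3, g4⟩ := h4 hF hdF z hinj hz M hM a0 hgp
  refine ⟨T, g1, g2, fun a ha ω hω => ?_, g3⟩
  by_contra hne
  apply g4 a ⟨ω, hω, hne⟩
  rw [← ha]
  exact Finset.sum_congr rfl fun ω _ => by rw [Imon_eq_monZ]

/-- the threshold is satisfied for `κ = 0.49 ρ`, `ρ ≥ 0.6` -/
theorem thr {k : ℕ} (hk : 2 ≤ k) {ρ : ℝ} (hρ : 3 / 5 ≤ ρ) :
    (9 / 8 : ℝ) ^ 2 < (49 / 100 * ρ) ^ 2 * (2 * C3 ρ k (k + 1) * ρ) := by
  have hρ0 : 0 < ρ := by linarith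
  have hk' : (2 : ℝ) ≤ k := by exact_mod_cast hk
  have h1 : (49 / 100 * ρ) ^ 2 * (2 * C3 ρ k (k + 1) * ρ) =
      (49 / 100) ^ 2 * (ρ ^ 2 / 3 + (k + 1) * k * ρ / 3 + (k : ℝ) ^ 3 * (k + 1) / 6) := by
    unfold C3
    push_cast
    field_simp
    ring
  rw [h1]
  have h2 : (6 : ℝ) ≤ (k + 1) * k := by nlinarith
  have h3 : (8 : ℝ) ≤ (k : ℝ) ^ 3 := by
    calc (8 : ℝ) = 2 ^ 3 := by norm_num
      _ ≤ (k : ℝ) ^ 3 := pow_le_pow_left₀ (by norm_num) hk' 3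
  have h4 : (24 : ℝ) ≤ (k : ℝ) ^ 3 * (k + 1) := by nlinarith
  have h5 : (6 : ℝ) * (3 / 5) ≤ (k + 1) * k * ρ :=
    mul_le_mul h2 hρ (by norm_num) (by positivity)
  nlinarith

/-- **Level L0**, general threshold. -/
theorem level0_gen (z : Fin F.natDegree → ℂ) (hinj : Function.Injective z)
    (hz : ∀ i, F.eval₂ (Int.castRingHom ℂ) (z i) = 0) {d k : ℕ} (hd : 1 ≤ d)
    (hdF : F.natDegree = d + 1) {ρ κ : ℝ} (hρ : 0 < ρ) (hκ : 0 < κ)
    (hthr : (9 / 8 : ℝ) ^ 2 < κ ^ 2 * (2 * C3 ρ k d * ρ)) (Cc M : ℕ) (hC : 0 < Cc) (hM : 0 < M) :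
    ∃ D0 : ℕ, ∀ A : ℝ, 1 ≤ A → ∀ a0 : Fin F.natDegree → ℤ, GenPos z a0 →
      ∀ (P : Type) (S : Set P) (t : P → Fin 2 → ℤ) (n : P → ℤ) (b : P → Fin F.natDegree → ℤ),
      (∀ p ∈ S, (∀ i, |(t p i : ℝ)| ≤ 2 * A) ∧ (∀ l, |(b p l : ℝ)| ≤ Cc * A ^ ρ) ∧
        (M : AdjoinRoot F) * ((n p : AdjoinRoot F) - AdjoinRoot.root F) =
          el F (emb 2 a0 (t p)) ^ k * el F (b p)) →
      ∀ L : Finset ℕ, (L : Set ℕ).Pairwise Nat.Coprime → A ^ κ ≤ ((∏ l ∈ L, l : ℕ) : ℝ) →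
      (∀ l ∈ L, ∀ p ∈ S, IsCoprime (nm hF (el F (emb 2 a0 (t p)))) (l : ℤ)) →
      (∀ l ∈ L, ∀ p ∈ S, ∀ p' ∈ S, ∀ i, (l : ℤ) ∣ t p i - t p' i) →
      ∃ G : Polynomial (MvPolynomial (Fin 2) ℤ), G ≠ 0 ∧ G.natDegree ≤ D0 ∧ CD G D0 ∧
        ∀ p ∈ S, ev3 G (t p) (n p) = 0 :=
  level0_of_family hF z k ρ κ hρ hκ (hasFamily hF z hinj hz hd hdF hρ hκ hthr) Cc M hC hM

/-- a prime `l` with `C < l < A ^ d` is prime to the norm of an `S`-point. -/
theorem coprime_of_prime {k Cc M : ℕ} {A ρ : ℝ} {a0 : Fin F.natDegree → ℤ} {t : Fin 2 → ℤ} {n : ℤ}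
    {b : Fin F.natDegree → ℤ} (h : IsSPt hF k Cc M A ρ a0 t n b) {l : ℕ} (hl : l.Prime)
    (hCl : Cc < l) (hlA : (l : ℝ) < A ^ F.natDegree) :
    IsCoprime (nm hF (el F (emb 2 a0 t))) (l : ℤ) := by
  obtain ⟨p, c, hp, hCp, hpA, -, hnm, hc0, hcC, -⟩ := h.norm
  have hlp : l ≠ p := by
    rintro rfl
    linarith
  rw [hnm]
  refine IsCoprime.mul_left ?_ ?_
  · rw [Nat.isCoprime_iff_coprime]
    exact (Nat.coprime_primes hp hl).2 (Ne.symm hlp)
  · rw [isCoprime_comm, Int.isCoprime_iff_gcd_eq_one]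
    have h1 : ¬ (l : ℤ) ∣ c := by
      intro hdvd
      have := Int.le_of_dvd (abs_pos.2 hc0) ((dvd_abs _ _).2 hdvd)
      omega
    exact (Int.isCoprime_iff_gcd_eq_one.mp
      ((Prime.coprime_iff_not_dvd (Nat.prime_iff_prime_int.mp hl)).2 h1))

/-- **Level L0** for `S`-points, `κ = 0.49 ρ`. -/
theorem level0 (z : Fin F.natDegree → ℂ) (hinj : Function.Injective z)
    (hz : ∀ i, F.eval₂ (Int.castRingHom ℂ) (z i) = 0) {k : ℕ} (hk : k + 2 = F.natDegree)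
    (hk2 : 2 ≤ k) {ρ : ℝ} (hρ : 3 / 5 ≤ ρ) (Cc M : ℕ) (hC : 0 < Cc) (hM : 0 < M) :
    ∃ D0 : ℕ, ∀ A : ℝ, 1 ≤ A → ∀ a0 : Fin F.natDegree → ℤ, GenPos z a0 →
      ∀ (P : Type) (S : Set P) (t : P → Fin 2 → ℤ) (n : P → ℤ) (b : P → Fin F.natDegree → ℤ),
      (∀ p ∈ S, IsSPt hF k Cc M A ρ a0 (t p) (n p) (b p)) →
      ∀ L : Finset ℕ, (L : Set ℕ).Pairwise Nat.Coprime →
      A ^ (49 / 100 * ρ) ≤ ((∏ l ∈ L, l : ℕ) : ℝ) →
      (∀ l ∈ L, ∀ p ∈ S, IsCoprime (nm hF (el F (emb 2 a0 (t p)))) (l : ℤ)) →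
      (∀ l ∈ L, ∀ p ∈ S, ∀ p' ∈ S, ∀ i, (l : ℤ) ∣ t p i - t p' i) →
      ∃ G : Polynomial (MvPolynomial (Fin 2) ℤ), G ≠ 0 ∧ G.natDegree ≤ D0 ∧ CD G D0 ∧
        ∀ p ∈ S, ev3 G (t p) (n p) = 0 := by
  obtain ⟨D0, h⟩ := level0_gen hF z hinj hz (d := k + 1) (k := k) (by omega) (by omega)
    (show (0 : ℝ) < ρ by linarith) (show (0 : ℝ) < 49 / 100 * ρ by linarith) (thr hk2 hρ)
    Cc M hC hM
  refine ⟨D0, fun A hA a0 hgp P S t n b hS L hL hLA hcop hcong => ?_⟩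
  exact h A hA a0 hgp P S t n b (fun p hp => ⟨(hS p hp).t_le, (hS p hp).b_le, (hS p hp).eqn⟩)
    L hL hLA hcop hcong

/-- conversion to `MvPolynomial (Fin 3) ℤ`, variable `0` is `n`, variables `1, 2` are `t` -/
theorem exists_mv {D0 : ℕ} (G : Polynomial (MvPolynomial (Fin 2) ℤ)) (hG : G ≠ 0)
    (h1 : G.natDegree ≤ D0) (h2 : CD G D0) : ∃ H : MvPolynomial (Fin 3) ℤ, H ≠ 0 ∧
      H.totalDegree ≤ 2 * D0 ∧ ∀ (t : Fin 2 → ℤ) (n : ℤ),
        MvPolynomial.eval (Fin.cons n t : Fin 3 → ℤ) H = ev3 G t n := by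
  refine ⟨(MvPolynomial.finSuccEquiv ℤ 2).symm G, ?_, ?_, ?_⟩
  · intro h
    apply hG
    have := congrArg (MvPolynomial.finSuccEquiv ℤ 2) h
    simpa using this
  · rw [MvPolynomial.totalDegree, Finset.sup_le_iff]
    intro e he
    rw [MvPolynomial.mem_support_iff] at he
    have h3 := MvPolynomial.finSuccEquiv_coeff_coeff (R := ℤ) (n := 2) e.tail
      ((MvPolynomial.finSuccEquiv ℤ 2).symm G) (e 0)
    rw [Finsupp.cons_tail, AlgEquiv.apply_symm_apply] at h3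
    rw [← h3] at he
    have h4 : e 0 ≤ G.natDegree := by
      refine Polynomial.le_natDegree_of_ne_zero ?_
      intro h0
      rw [h0] at he
      exact he (MvPolynomial.coeff_zero _)
    have h5 : (e.tail.sum fun _ n => n) ≤ (G.coeff (e 0)).totalDegree :=
      MvPolynomial.le_totalDegree (MvPolynomial.mem_support_iff.2 he)
    have h6 := h2 (e 0)
    have h7 : (e.sum fun _ n => n) = e 0 + (e.tail.sum fun _ n => n) := by
      rw [Finsupp.sum_fintype _ _ (fun _ => rfl), Finsupp.sum_fintype _ _ (fun _ => rfl),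
        Fin.sum_univ_succ]
      rfl
    omega
  · intro t n
    rw [MvPolynomial.eval_eq_eval_mv_eval']
    unfold ev3
    simp

end Crest.Agent.R022.Stage107
end

-- ▼ part R022/Ifaces250

/-! Row 22 (helper250): Prop-valued interfaces of the four level theorems inside one slice.
`L0` is proved (`Stage107.level0`). `L1` = surface step (586 + 206), `L2` = free `n` over a plane
curve (712 + 776), `L3` = everything in one parameter (354). -/

set_option autoImplicit false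

namespace Crest.Agent.R022

open Crest.Agent.R022.Torsor Crest.Agent.R022.Expand

/-- All the functions in `φs` are, modulo every power of `l`, polynomials in `r` local parameters which
are divisible by `l` on `S`. -/
def Par {P : Type*} (r : ℕ) (S : Set P) (l : ℤ) (φs : Set (P → ℤ)) : Prop :=
  ∃ s : P → Fin r → ℤ, (∀ p ∈ S, ∀ i, l ∣ s p i) ∧
    ∀ φ ∈ φs, ∀ (n' : P → ℤ) (m : ℕ), HasExp S s n' l m 0 φ

/-- Common data of a level step: `S`-points of one slice in general position, pairwise coprime moduli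
`L`, coprime to the norms. -/
structure LevelData {F : Polynomial ℤ} (hF : F.Monic) (z : Fin F.natDegree → ℂ) (k Cc M : ℕ)
    (A ρ : ℝ) (a0 : Fin F.natDegree → ℤ) (S : Set (Fin 2 → ℤ)) (n : (Fin 2 → ℤ) → ℤ)
    (b : (Fin 2 → ℤ) → Fin F.natDegree → ℤ) (L : Finset ℕ) (κ : ℝ) : Prop where
  a0_le : ∀ i, |(a0 i : ℝ)| ≤ 2 * A
  gp : GenPos z a0
  fin : S.Finite
  pt : ∀ t ∈ S, IsSPt hF k Cc M A ρ a0 t (n t) (b t)
  cop : (L : Set ℕ).Pairwise Nat.Coprime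
  big : A ^ κ ≤ ((∏ l ∈ L, l : ℕ) : ℝ)
  nm : ∀ l ∈ L, ∀ t ∈ S, IsCoprime (nm hF (el F (emb 2 a0 t))) (l : ℤ)

/-- **L1, surface step.** A relation `G(t,n) = 0` holds on `S` and `n` (hence every `b_l`) is a
power series in `t - t_0` at all `l ∈ L` (2 parameters): then `t(S)` lies on a plane curve. -/
def L1At {F : Polynomial ℤ} (hF : F.Monic) (z : Fin F.natDegree → ℂ) (k : ℕ) (ρ κ : ℝ) : Prop :=
  ∀ Cc M : ℕ, 0 < Cc → 0 < M → ∀ D0 : ℕ, ∃ (D1 : ℕ) (A0 : ℝ), ∀ A : ℝ, A0 ≤ A → 1 ≤ A →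
    ∀ a0 S n b L, LevelData hF z k Cc M A ρ a0 S n b L κ →
    (∃ G : MvPolynomial (Fin 3) ℤ, G ≠ 0 ∧ G.totalDegree ≤ D0 ∧
      ∀ t ∈ S, MvPolynomial.eval ![n t, t 0, t 1] G = 0) →
    (∀ l ∈ L, Par 2 S (l : ℤ) {(fun t => t 0), (fun t => t 1), n}) →
    ∃ R : MvPolynomial (Fin 2) ℤ, R ≠ 0 ∧ R.totalDegree ≤ D1 ∧
      ∀ t ∈ S, MvPolynomial.eval t R = 0

/-- **L2, free `n` over a plane curve.** A relation `R(t) = 0` holds on `S` and `t` is given by one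
parameter at all `l ∈ L`: then `n` is algebraic over each `t_j` on `S`. -/
def L2At {F : Polynomial ℤ} (hF : F.Monic) (z : Fin F.natDegree → ℂ) (k : ℕ) (ρ κ : ℝ) : Prop :=
  ∀ Cc M : ℕ, 0 < Cc → 0 < M → ∀ D1 : ℕ, ∃ (D2 : ℕ) (A0 : ℝ), ∀ A : ℝ, A0 ≤ A → 1 ≤ A →
    ∀ a0 S n b L, LevelData hF z k Cc M A ρ a0 S n b L κ →
    (∃ R : MvPolynomial (Fin 2) ℤ, R ≠ 0 ∧ R.totalDegree ≤ D1 ∧
      ∀ t ∈ S, MvPolynomial.eval t R = 0) →
    (∀ l ∈ L, Par 1 S (l : ℤ) {(fun t => t 0), (fun t => t 1)}) →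
    ∀ j : Fin 2, ∃ E : MvPolynomial (Fin 2) ℤ, E ≠ 0 ∧ E.totalDegree ≤ D2 ∧
      ∀ t ∈ S, MvPolynomial.eval ![n t, t j] E = 0

/-- **L3, curve step.** `t` and `n` are given by one parameter at all `l ∈ L`: then `S` has bounded
cardinality. -/
def L3At {F : Polynomial ℤ} (hF : F.Monic) (z : Fin F.natDegree → ℂ) (k : ℕ) (ρ κ : ℝ) : Prop :=
  ∀ Cc M : ℕ, 0 < Cc → 0 < M → ∃ (C3 : ℕ) (A0 : ℝ), ∀ A : ℝ, A0 ≤ A → 1 ≤ A →
    ∀ a0 S n b L, LevelData hF z k Cc M A ρ a0 S n b L κ →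
    (∀ l ∈ L, Par 1 S (l : ℤ) {(fun t => t 0), (fun t => t 1), n}) →
    S.ncard ≤ C3

end Crest.Agent.R022
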