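import Mathlib
import Crest.Agent.R022.CntLink

-- ▼ part R022/Surf206a
section

/-! Row 22 (S0029), helper206.  Level-2 geometry, part (a): algebra of the substitution
`n = θ + α ^ k y` for a prime element `α` of a domain. -/

set_option autoImplicit false

namespace Crest.Agent.R022.Surf206

open Polynomial

variable {R : Type*} [CommRing R] [IsDomain R]

/-- the substitution `n ↦ θ + α ^ k y` -/
noncomputable def sb (θ α : R) (k : ℕ) : R[X] := C θ + C (α ^ k) * X

omit [IsDomain R] in
theorem comp_sb (g : R[X]) (θ α : R) (k : ℕ) :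
    g.comp (sb θ α k) = (taylor θ g).comp (C (α ^ k) * X) := by
  rw [sb, taylor_apply, comp_assoc]
  congr 1
  simp [add_comm]

omit [IsDomain R] in
theorem coeff_comp_sb (g : R[X]) (θ α : R) (k i : ℕ) :
    (g.comp (sb θ α k)).coeff i = (taylor θ g).coeff i * α ^ (k * i) := by
  rw [comp_sb, comp_C_mul_X_coeff, pow_mul]

omit [IsDomain R] in
theorem C_dvd_of_taylor {c θ : R} {g : R[X]} (h : C c ∣ taylor θ g) : C c ∣ g := by
  obtain ⟨q, hq⟩ := h
  refine ⟨taylor (-θ) q, ?_⟩
  have h1 := congrArg (taylor (-θ)) hq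
  rw [taylor_taylor, neg_add_cancel, taylor_zero, taylor_mul, taylor_C] at h1
  exact h1

/-- If the order of `g(θ + α ^ k y)` is larger than `k * natDegree g` then `α` divides `g`. -/
theorem C_dvd_of_large {θ α : R} (hα : Prime α) {k : ℕ} {g : R[X]}
    (h : C (α ^ (k * g.natDegree + 1)) ∣ g.comp (sb θ α k)) : C α ∣ g := by
  apply C_dvd_of_taylor (θ := θ)
  rw [C_dvd_iff_dvd_coeff] at h ⊢
  intro i
  by_cases hi : g.natDegree < i
  · rw [coeff_eq_zero_of_natDegree_lt (by rwa [natDegree_taylor])]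
    exact dvd_zero _
  · push Not at hi
    have h1 := h i
    rw [coeff_comp_sb] at h1
    have h2 : α ^ (k * g.natDegree + 1) = α ^ (k * g.natDegree - k * i + 1) * α ^ (k * i) := by
      rw [← pow_add]
      congr 1
      have : k * i ≤ k * g.natDegree := Nat.mul_le_mul_left _ hi
      omega
    rw [h2, mul_dvd_mul_iff_right (pow_ne_zero _ hα.ne_zero)] at h1
    exact (dvd_pow_self α (by omega)).trans h1

/-- If the order of `g(θ + α ^ k y)` is larger than `k * (m - 1)`, `m = natDegree g`, then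
`g ≡ G_m (X - θ) ^ m` modulo `α`. -/
theorem C_dvd_sub_of_large {θ α : R} (hα : Prime α) {k : ℕ} {g : R[X]} (hm : 1 ≤ g.natDegree)
    (h : C (α ^ (k * (g.natDegree - 1) + 1)) ∣ g.comp (sb θ α k)) :
    C α ∣ g - C g.leadingCoeff * (X - C θ) ^ g.natDegree := by
  apply C_dvd_of_taylor (θ := θ)
  have h0 : taylor θ (g - C g.leadingCoeff * (X - C θ) ^ g.natDegree) =
      taylor θ g - C g.leadingCoeff * X ^ g.natDegree := by
    rw [map_sub, taylor_mul, taylor_C, taylor_pow]
    congr 3
    rw [map_sub, taylor_X, taylor_C]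
    ring
  rw [h0]
  rw [C_dvd_iff_dvd_coeff] at h ⊢
  intro i
  rw [coeff_sub, coeff_C_mul, coeff_X_pow]
  rcases lt_trichotomy g.natDegree i with hi | hi | hi
  · rw [coeff_eq_zero_of_natDegree_lt (by rwa [natDegree_taylor]), if_neg (by omega)]
    simp
  · have h5 : (taylor θ g).coeff g.natDegree = g.leadingCoeff := by
      have h6 := leadingCoeff_taylor θ g
      rw [leadingCoeff, natDegree_taylor] at h6
      exact h6
    rw [if_pos hi.symm, mul_one, ← hi, h5, sub_self]
    exact dvd_zero _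
  · rw [if_neg (by omega), mul_zero, sub_zero]
    have h1 := h i
    rw [coeff_comp_sb] at h1
    have h2 : α ^ (k * (g.natDegree - 1) + 1) =
        α ^ (k * (g.natDegree - 1) - k * i + 1) * α ^ (k * i) := by
      rw [← pow_add]
      congr 1
      have : k * i ≤ k * (g.natDegree - 1) := Nat.mul_le_mul_left _ (by omega)
      omega
    rw [h2, mul_dvd_mul_iff_right (pow_ne_zero _ hα.ne_zero)] at h1
    exact (dvd_pow_self α (by omega)).trans h1

/-- The exact power of `α` in `g(θ + α ^ k y)`. -/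
theorem exists_order [WfDvdMonoid R] {θ α : R} (hα : Prime α) {k : ℕ} {g : R[X]} (hg : g ≠ 0) :
    ∃ (V : ℕ) (q : R[X]), g.comp (sb θ α k) = C (α ^ V) * q ∧ ¬ C α ∣ q := by
  have hne : g.comp (sb θ α k) ≠ 0 := by
    intro h
    apply hg
    rw [comp_sb] at h
    have h1 : taylor θ g = 0 := by
      ext i
      have h2 : ((taylor θ g).comp (C (α ^ k) * X)).coeff i = 0 := by rw [h]; simp
      rw [comp_C_mul_X_coeff] at h2
      rcases mul_eq_zero.mp h2 with h3 | h3
      · simpa using h3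
      · exact absurd h3 (pow_ne_zero _ (pow_ne_zero _ hα.ne_zero))
    exact (taylor_eq_zero θ g).mp h1
  have hp : Prime (C α : R[X]) := prime_C_iff.mpr hα
  obtain ⟨q, h1, h2⟩ := (FiniteMultiplicity.of_prime_left hp hne).exists_eq_pow_mul_and_not_dvd
  exact ⟨multiplicity (C α) (g.comp (sb θ α k)), q, by rw [C_pow]; exact h1, h2⟩

/-- The local divisibility statement. -/
theorem dvd_top_coeff {θ α : R} (hα : Prime α) {k V r e : ℕ} {g Q q : R[X]}
    (hV : g.comp (sb θ α k) = C (α ^ V) * q) (hq : ¬ C α ∣ q)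
    (hQ : Q.natDegree ≤ r) (h : C (α ^ (e + k * r)) ∣ (g * Q).comp (sb θ α k)) :
    α ^ e ∣ α ^ V * Q.coeff r := by
  have hp : Prime (C α : R[X]) := prime_C_iff.mpr hα
  rw [mul_comp, hV] at h
  have h1 : C α ^ (e + k * r) ∣ q * (C (α ^ V) * Q.comp (sb θ α k)) := by
    rw [← C_pow]
    refine dvd_trans h (dvd_of_eq ?_)
    ring
  have h2 := hp.pow_dvd_of_dvd_mul_left _ hq h1
  rw [← C_pow, C_dvd_iff_dvd_coeff] at h2
  have h3 := h2 r
  rw [coeff_C_mul, coeff_comp_sb] at h3
  have h4 : (taylor θ Q).coeff r = Q.coeff r := by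
    rcases Nat.lt_or_ge Q.natDegree r with hlt | hge
    · rw [coeff_eq_zero_of_natDegree_lt (by rwa [natDegree_taylor]),
        coeff_eq_zero_of_natDegree_lt hlt]
    · have heq : Q.natDegree = r := le_antisymm hQ hge
      have h6 := leadingCoeff_taylor θ Q
      rw [leadingCoeff, natDegree_taylor] at h6
      rw [← heq, h6]
      rfl
  rw [h4, ← mul_assoc, pow_add, mul_dvd_mul_iff_right (pow_ne_zero _ hα.ne_zero)] at h3
  exact h3

/-- a prime polynomial of positive degree is not divisible by a nonzero nonunit constant -/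
theorem not_C_dvd_of_prime {g : R[X]} (hg : Prime g) (hm : 1 ≤ g.natDegree) {c : R}
    (hc : ¬ IsUnit c) : ¬ C c ∣ g := by
  rintro ⟨q, hq⟩
  rcases hg.dvd_or_dvd (dvd_of_eq hq) with h | h
  · have hc0 : (C c : R[X]) ≠ 0 := by
      intro h0
      rw [h0, zero_mul] at hq
      exact hg.ne_zero hq
    have := natDegree_le_of_dvd h hc0
    rw [natDegree_C] at this
    omega
  · obtain ⟨w, hw⟩ := h
    rw [hw] at hq
    have h1 : g * (C c * w) = g * 1 := by
      rw [mul_one]
      conv_rhs => rw [hq]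
      ring
    have h2 := mul_left_cancel₀ hg.ne_zero h1
    apply hc
    rw [← isUnit_C]
    exact IsUnit.of_mul_eq_one _ h2

end Crest.Agent.R022.Surf206
end

-- ▼ part R022/Surf206b
section

/-! Row 22 (S0029), helper206.  Level-2 geometry, part (b): the linear forms
`α_i = t₀ + z_i t₁ + a_i` and the restriction to the line `α_i = 0`. -/

set_option autoImplicit false

namespace Crest.Agent.R022.Surf206

open MvPolynomial

variable {F : Type*} [Field F]

/-- ring of functions of `t` -/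
abbrev Rt (F : Type*) [Field F] := MvPolynomial (Fin 2) F

/-- a linear form `t₀ + z t₁ + a` -/
noncomputable def lf (z a : F) : Rt F := X 0 + C z * X 1 + C a

/-- restriction to the line `t₀ + z t₁ + a = 0` -/
noncomputable def rs (z a : F) : Rt F →ₐ[F] Polynomial F :=
  aeval ![-(Polynomial.C z * Polynomial.X) - Polynomial.C a, Polynomial.X]

theorem rs_X0 (z a : F) : rs z a (X 0) = -(Polynomial.C z * Polynomial.X) - Polynomial.C a := by
  simp [rs]

theorem rs_X1 (z a : F) : rs z a (X 1) = Polynomial.X := by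
  simp [rs]

theorem rs_C (z a c : F) : rs z a (C c) = Polynomial.C c := by
  simp [rs, Polynomial.algebraMap_eq]

theorem rs_lf (z a z' a' : F) : rs z a (lf z' a') =
    Polynomial.C (z' - z) * Polynomial.X + Polynomial.C (a' - a) := by
  rw [lf, map_add, map_add, map_mul, rs_X0, rs_X1, rs_C, rs_C, Polynomial.C_sub, Polynomial.C_sub]
  ring

theorem rs_lf_self (z a : F) : rs z a (lf z a) = 0 := by
  rw [rs_lf]; simp

/-- the section `F[X] → F[t₀, t₁]` -/
noncomputable def sec (F : Type*) [Field F] : Polynomial F →ₐ[F] Rt F := Polynomial.aeval (X 1)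

theorem lf_dvd_sub (z a : F) (P : Rt F) : lf z a ∣ P - sec F (rs z a P) := by
  induction P using MvPolynomial.induction_on with
  | C c =>
    rw [rs_C]
    simp [sec, MvPolynomial.algebraMap_eq]
  | add P Q hP hQ =>
    rw [map_add, map_add, add_sub_add_comm]
    exact dvd_add hP hQ
  | mul_X P i hP =>
    have hi : lf z a ∣ X i - sec F (rs z a (X i)) := by
      fin_cases i
      · simp only [Fin.zero_eta, rs_X0]
        refine ⟨1, ?_⟩
        simp [sec, lf, MvPolynomial.algebraMap_eq]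
        ring
      · simp only [Fin.mk_one, rs_X1]
        simp [sec]
    have : P * X i - sec F (rs z a (P * X i)) =
        (P - sec F (rs z a P)) * X i + sec F (rs z a P) * (X i - sec F (rs z a (X i))) := by
      rw [map_mul, map_mul]; ring
    rw [this]
    exact dvd_add (hP.mul_right _) (hi.mul_left _)

theorem lf_dvd_iff (z a : F) (P : Rt F) : lf z a ∣ P ↔ rs z a P = 0 := by
  constructor
  · rintro ⟨Q, rfl⟩
    rw [map_mul, rs_lf_self, zero_mul]
  · intro h
    have := lf_dvd_sub z a P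
    rwa [h, map_zero, sub_zero] at this

theorem totalDegree_lf (z a : F) : (lf z a).totalDegree = 1 := by
  apply le_antisymm
  · rw [lf]
    refine le_trans (totalDegree_add _ _) (max_le (le_trans (totalDegree_add _ _) (max_le ?_ ?_)) ?_)
    · rw [totalDegree_X]
    · refine le_trans (totalDegree_mul _ _) ?_
      rw [totalDegree_C, totalDegree_X]
    · rw [totalDegree_C]; omega
  · have h : coeff (Finsupp.single 0 1) (lf z a) = 1 := by
      rw [lf, coeff_add, coeff_add, coeff_X, coeff_C_mul]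
      have h1 : coeff (Finsupp.single 0 1) (X 1 : Rt F) = 0 := by
        rw [coeff_X]
        rw [if_neg]
        intro h
        have := DFunLike.congr_fun h 0
        simp at this
      have h2 : coeff (Finsupp.single 0 1) (C a : Rt F) = 0 := by
        rw [coeff_C, if_neg]
        intro h
        have := DFunLike.congr_fun h 0
        simp at this
      rw [h1, h2]
      simp
    have h3 : (Finsupp.single 0 1 : Fin 2 →₀ ℕ) ∈ (lf z a).support := by
      rw [mem_support_iff, h]
      exact one_ne_zero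
    have := le_totalDegree h3
    simpa using this

theorem lf_ne_zero (z a : F) : lf z a ≠ 0 := by
  intro h
  have := totalDegree_lf z a
  rw [h, totalDegree_zero] at this
  omega

theorem lf_prime (z a : F) : Prime (lf z a) := by
  refine ⟨lf_ne_zero z a, ?_, ?_⟩
  · intro h
    have h1 := h.map (rs z a)
    rw [rs_lf_self] at h1
    exact not_isUnit_zero h1
  · intro P Q h
    rw [lf_dvd_iff, map_mul] at h
    rw [lf_dvd_iff, lf_dvd_iff]
    exact mul_eq_zero.mp h

theorem rs_natDegree_le (z a : F) (P : Rt F) : (rs z a P).natDegree ≤ P.totalDegree := by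
  have h := MvPolynomial.aeval_natDegree_le (m := P.totalDegree) (n := 1) P le_rfl
    ![-(Polynomial.C z * Polynomial.X) - Polynomial.C a, Polynomial.X] ?_
  · rw [mul_one] at h
    exact h
  · intro i
    fin_cases i
    · simp only [Fin.zero_eta, Matrix.cons_val_zero]
      refine le_trans (Polynomial.natDegree_sub_le _ _) (max_le ?_ ?_)
      · rw [Polynomial.natDegree_neg]
        refine le_trans Polynomial.natDegree_mul_le ?_
        rw [Polynomial.natDegree_C, Polynomial.natDegree_X]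
      · rw [Polynomial.natDegree_C]; omega
    · simp

theorem rs_lf_natDegree {z a z' a' : F} (h : z' ≠ z) : (rs z a (lf z' a')).natDegree = 1 := by
  rw [rs_lf]
  exact Polynomial.natDegree_linear (sub_ne_zero.mpr h)

theorem rs_lf_ne_zero {z a z' a' : F} (h : z' ≠ z) : rs z a (lf z' a') ≠ 0 := by
  intro h0
  have := rs_lf_natDegree (a := a) (a' := a') h
  rw [h0, Polynomial.natDegree_zero] at this
  omega

theorem not_lf_dvd_lf {z a z' a' : F} (h : z' ≠ z) : ¬ lf z a ∣ lf z' a' := by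
  rw [lf_dvd_iff]
  exact rs_lf_ne_zero h

/-- two different lines meet the line `α_i = 0` in different points -/
theorem rs_isCoprime {z a z₁ a₁ z₂ a₂ : F}
    (hgp : (a₁ - a) * (z₂ - z) ≠ (a₂ - a) * (z₁ - z)) :
    IsCoprime (rs z a (lf z₁ a₁)) (rs z a (lf z₂ a₂)) := by
  rw [rs_lf, rs_lf]
  set e := (a₁ - a) * (z₂ - z) - (a₂ - a) * (z₁ - z) with he
  have he0 : e ≠ 0 := sub_ne_zero.mpr hgp
  refine ⟨Polynomial.C ((z₂ - z) / e), Polynomial.C (-(z₁ - z) / e), ?_⟩
  have h1 : Polynomial.C ((z₂ - z) / e) *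
        (Polynomial.C (z₁ - z) * Polynomial.X + Polynomial.C (a₁ - a)) +
      Polynomial.C (-(z₁ - z) / e) *
        (Polynomial.C (z₂ - z) * Polynomial.X + Polynomial.C (a₂ - a)) =
      Polynomial.C ((z₂ - z) / e * (z₁ - z) + (-(z₁ - z) / e) * (z₂ - z)) * Polynomial.X +
      Polynomial.C ((z₂ - z) / e * (a₁ - a) + (-(z₁ - z) / e) * (a₂ - a)) := by
    simp only [map_add, map_mul]
    ring
  rw [h1]
  have h2 : (z₂ - z) / e * (z₁ - z) + (-(z₁ - z) / e) * (z₂ - z) = 0 := by
    field_simp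
    ring
  have h3 : (z₂ - z) / e * (a₁ - a) + (-(z₁ - z) / e) * (a₂ - a) = 1 := by
    field_simp
    rw [he]
    ring
  rw [h2, h3]
  simp

end Crest.Agent.R022.Surf206
end

-- ▼ part R022/Surf206c
section

/-! Row 22 (S0029), helper206.  Level-2 geometry, part (c): the polynomial
`W = G_m ∏ α_i ^ (k m - V_i)` and its degree. -/

set_option autoImplicit false

namespace Crest.Agent.R022.Surf206

open MvPolynomial

variable {F : Type*} [Field F] {d : ℕ}

/-- general position (helper294) -/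
def GenPos (z a : Fin d → F) : Prop :=
  ∀ i₀ i i', i ≠ i₀ → i' ≠ i₀ → i ≠ i' →
      (a i - a i₀) * (z i' - z i₀) ≠ (a i' - a i₀) * (z i - z i₀)

/-- the order `V` of `g (z + α ^ k y)` along `α`, together with the cofactor -/
def IsOrd (k : ℕ) (z a : F) (g : Polynomial (Rt F)) (V : ℕ) : Prop :=
  ∃ q : Polynomial (Rt F), g.comp (sb (C z) (lf z a) k) = Polynomial.C (lf z a ^ V) * q ∧
    ¬ Polynomial.C (lf z a) ∣ q

theorem exists_isOrd (k : ℕ) (z a : F) {g : Polynomial (Rt F)} (hg : g ≠ 0) :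
    ∃ V, IsOrd k z a g V := by
  obtain ⟨V, q, h1, h2⟩ := exists_order (θ := C z) (lf_prime z a) (k := k) hg
  exact ⟨V, q, h1, h2⟩

theorem isOrd_le {k : ℕ} {z a : F} {g : Polynomial (Rt F)} (hg : Prime g)
    (hm : 1 ≤ g.natDegree) {V : ℕ} (hV : IsOrd k z a g V) : V ≤ k * g.natDegree := by
  by_contra h
  push Not at h
  obtain ⟨q, h1, _⟩ := hV
  refine not_C_dvd_of_prime hg hm (lf_prime z a).not_isUnit
    (C_dvd_of_large (θ := C z) (lf_prime z a) (k := k) ?_)
  rw [h1]
  refine Dvd.dvd.mul_right (map_dvd Polynomial.C (pow_dvd_pow _ h)) _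

theorem pow_dvd_eval {k : ℕ} {z a : F} {g : Polynomial (Rt F)} {V : ℕ}
    (hV : IsOrd k z a g V) : lf z a ^ V ∣ g.eval (C z) := by
  obtain ⟨q, h1, _⟩ := hV
  have h2 := congrArg (Polynomial.eval 0) h1
  rw [Polynomial.eval_comp, sb] at h2
  simp only [Polynomial.eval_add, Polynomial.eval_C, Polynomial.eval_mul, Polynomial.eval_X,
    mul_zero, add_zero] at h2
  exact ⟨_, h2⟩

/-- the case of a large order: the leading coefficient is divisible, on the line `i₀`, by the
powers of all other forms -/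
theorem sum_le_of_large {k : ℕ} {z a : Fin d → F} (hz : Function.Injective z)
    (hgp : GenPos z a) {g : Polynomial (Rt F)} (hg : Prime g) (hm : 1 ≤ g.natDegree)
    {V : Fin d → ℕ} (hV : ∀ i, IsOrd k (z i) (a i) g (V i)) {i₀ : Fin d}
    (hi₀ : k * (g.natDegree - 1) < V i₀) :
    ∑ j ∈ Finset.univ.erase i₀, V j ≤ g.leadingCoeff.totalDegree := by
  classical
  have hα := lf_prime (z i₀) (a i₀)
  obtain ⟨q, h1, _⟩ := hV i₀
  have h2 := C_dvd_sub_of_large (θ := C (z i₀)) hα (k := k) hm
    (by rw [h1]; exact Dvd.dvd.mul_right (map_dvd Polynomial.C (pow_dvd_pow _ hi₀)) _)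
  have hndvd : ¬ Polynomial.C (lf (z i₀) (a i₀)) ∣ g := not_C_dvd_of_prime hg hm hα.not_isUnit
  have hlc : ¬ lf (z i₀) (a i₀) ∣ g.leadingCoeff := by
    intro h
    apply hndvd
    have h3 : Polynomial.C (lf (z i₀) (a i₀)) ∣
        Polynomial.C g.leadingCoeff * (Polynomial.X - Polynomial.C (C (z i₀))) ^ g.natDegree :=
      (map_dvd Polynomial.C h).mul_right _
    have := dvd_add h2 h3
    rwa [sub_add_cancel] at this
  rw [lf_dvd_iff] at hlc
  -- evaluation at n = z j
  have heval : ∀ j, j ≠ i₀ → rs (z i₀) (a i₀) (lf (z j) (a j)) ^ V j ∣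
      rs (z i₀) (a i₀) g.leadingCoeff := by
    intro j hj
    have h3 : lf (z i₀) (a i₀) ∣ g.eval (C (z j)) -
        g.leadingCoeff * (C (z j) - C (z i₀)) ^ g.natDegree := by
      have := map_dvd (Polynomial.evalRingHom (C (z j) : Rt F)) h2
      simpa using this
    rw [lf_dvd_iff, map_sub, sub_eq_zero, map_mul, map_pow, map_sub, rs_C, rs_C,
      ← Polynomial.C_sub, ← Polynomial.C_pow] at h3
    have h4 := map_dvd (rs (z i₀) (a i₀)) (pow_dvd_eval (hV j))
    rw [h3, map_pow] at h4
    have hu : IsUnit (Polynomial.C ((z j - z i₀) ^ g.natDegree)) := by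
      rw [Polynomial.isUnit_C]
      exact (pow_ne_zero _ (sub_ne_zero.mpr (fun h => hj (hz h)))).isUnit
    exact (hu.dvd_mul_right).mp h4
  have hprod : ∏ j ∈ Finset.univ.erase i₀, rs (z i₀) (a i₀) (lf (z j) (a j)) ^ V j ∣
      rs (z i₀) (a i₀) g.leadingCoeff := by
    apply Finset.prod_dvd_of_coprime
    · intro j hj j' hj' hjj'
      apply IsCoprime.pow
      have h1 : j ≠ i₀ := by simpa using hj
      have h2 : j' ≠ i₀ := by simpa using hj'
      exact rs_isCoprime (hgp i₀ j j' h1 h2 hjj')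
    · intro j hj
      exact heval j (Finset.ne_of_mem_erase hj)
  have hdeg := Polynomial.natDegree_le_of_dvd hprod hlc
  rw [Polynomial.natDegree_prod _ _ (fun j hj =>
    pow_ne_zero _ (rs_lf_ne_zero (fun h => Finset.ne_of_mem_erase hj (hz h))))] at hdeg
  refine le_trans (le_of_eq ?_) (le_trans hdeg (rs_natDegree_le _ _ _))
  refine Finset.sum_congr rfl fun j hj => ?_
  rw [Polynomial.natDegree_pow, rs_lf_natDegree (fun h => Finset.ne_of_mem_erase hj (hz h)),
    mul_one]

/-- the polynomial `W = G_m ∏ α_i ^ (k m - V_i)` -/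
noncomputable def Wp (k : ℕ) (z a : Fin d → F) (g : Polynomial (Rt F)) (V : Fin d → ℕ) : Rt F :=
  g.leadingCoeff * ∏ i, lf (z i) (a i) ^ (k * g.natDegree - V i)

theorem Wp_ne_zero {k : ℕ} {z a : Fin d → F} {g : Polynomial (Rt F)} {V : Fin d → ℕ}
    (hg : g ≠ 0) : Wp k z a g V ≠ 0 := by
  rw [Wp]
  refine mul_ne_zero (Polynomial.leadingCoeff_ne_zero.mpr hg) ?_
  exact Finset.prod_ne_zero_iff.mpr fun i _ => pow_ne_zero _ (lf_ne_zero _ _)

theorem totalDegree_prod_lf (z a : Fin d → F) (s : Finset (Fin d)) (e : Fin d → ℕ) :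
    (∏ i ∈ s, lf (z i) (a i) ^ e i).totalDegree = ∑ i ∈ s, e i := by
  classical
  induction s using Finset.induction_on with
  | empty => simp
  | insert i s hi ih =>
    rw [Finset.prod_insert hi, Finset.sum_insert hi, totalDegree_mul_of_isDomain, ih]
    · congr 1
      have : ∀ n : ℕ, (lf (z i) (a i) ^ n).totalDegree = n := by
        intro n
        induction n with
        | zero => simp
        | succ n ihn =>
          rw [pow_succ, totalDegree_mul_of_isDomain (pow_ne_zero _ (lf_ne_zero _ _))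
            (lf_ne_zero _ _), ihn, totalDegree_lf]
      exact this _
    · exact pow_ne_zero _ (lf_ne_zero _ _)
    · exact Finset.prod_ne_zero_iff.mpr fun i _ => pow_ne_zero _ (lf_ne_zero _ _)

theorem totalDegree_Wp {k : ℕ} {z a : Fin d → F} {g : Polynomial (Rt F)} {V : Fin d → ℕ}
    (hg : g ≠ 0) : (Wp k z a g V).totalDegree =
      g.leadingCoeff.totalDegree + ∑ i, (k * g.natDegree - V i) := by
  rw [Wp, totalDegree_mul_of_isDomain (Polynomial.leadingCoeff_ne_zero.mpr hg)
    (Finset.prod_ne_zero_iff.mpr fun i _ => pow_ne_zero _ (lf_ne_zero _ _)), totalDegree_prod_lf]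

/-- **the degree bound** (helper147's argument, without Galois) -/
theorem le_totalDegree_Wp {k : ℕ} {z a : Fin d → F} (hz : Function.Injective z)
    (hgp : GenPos z a) {g : Polynomial (Rt F)} (hg : Prime g) (hm : 1 ≤ g.natDegree)
    {V : Fin d → ℕ} (hV : ∀ i, IsOrd k (z i) (a i) g (V i)) :
    (d - 1) * k ≤ (Wp k z a g V).totalDegree := by
  classical
  rw [totalDegree_Wp hg.ne_zero]
  have hVle : ∀ i, V i ≤ k * g.natDegree := fun i => isOrd_le hg hm (hV i)
  by_cases h : ∃ i₀, k * (g.natDegree - 1) < V i₀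
  · obtain ⟨i₀, hi₀⟩ := h
    have h1 := sum_le_of_large hz hgp hg hm hV hi₀
    have h2 : ∑ i, (k * g.natDegree - V i) = (k * g.natDegree - V i₀) +
        ∑ i ∈ Finset.univ.erase i₀, (k * g.natDegree - V i) :=
      (Finset.add_sum_erase _ _ (Finset.mem_univ i₀)).symm
    have h3 : ∑ i ∈ Finset.univ.erase i₀, V i +
        ∑ i ∈ Finset.univ.erase i₀, (k * g.natDegree - V i) = (d - 1) * (k * g.natDegree) := by
      rw [← Finset.sum_add_distrib]
      rw [Finset.sum_congr rfl (fun i _ => Nat.add_sub_cancel' (hVle i))]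
      rw [Finset.sum_const, Finset.card_erase_of_mem (Finset.mem_univ _), Finset.card_univ,
        Fintype.card_fin, smul_eq_mul]
    have h4 : (d - 1) * k ≤ (d - 1) * (k * g.natDegree) :=
      Nat.mul_le_mul_left _ (Nat.le_mul_of_pos_right _ (by omega))
    omega
  · push Not at h
    have h1 : ∀ i : Fin d, k ≤ k * g.natDegree - V i := by
      intro i
      have h2 := h i
      have h3 : k * g.natDegree = k * (g.natDegree - 1) + k := by
        obtain ⟨m, hm'⟩ : ∃ m, g.natDegree = m + 1 := ⟨g.natDegree - 1, by omega⟩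
        rw [hm']
        simp [Nat.mul_add]
      omega
    have h2 : ∑ _i : Fin d, k ≤ ∑ i : Fin d, (k * g.natDegree - V i) :=
      Finset.sum_le_sum fun i _ => h1 i
    rw [Finset.sum_const, Finset.card_univ, Fintype.card_fin, smul_eq_mul] at h2
    have h3 : (d - 1) * k ≤ d * k := Nat.mul_le_mul_right _ (by omega)
    omega

end Crest.Agent.R022.Surf206
end

-- ▼ part R022/Surf206d
section

/-! Row 22 (S0029), helper206.  Level-2 geometry, part (d): choice of a generic combination
`b = ∑ x ^ l b_l` and the divisibility `W ∣ P`. -/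

set_option autoImplicit false

namespace Crest.Agent.R022.Surf206

open MvPolynomial

variable {F : Type*} [Field F] {d : ℕ}

/-- Vandermonde: a common divisor of all `∑ v_i ^ l c_l` divides every `c_l`. -/
theorem dvd_of_vandermonde {v : Fin d → F} (hv : Function.Injective v) (c : Fin d → Rt F)
    (δ : Rt F) (h : ∀ i, δ ∣ ∑ l : Fin d, C (v i ^ (l : ℕ)) * c l) (l : Fin d) : δ ∣ c l := by
  classical
  have hdet : (Matrix.vandermonde v).det ≠ 0 := Matrix.det_vandermonde_ne_zero_iff.mpr hv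
  have hunit : IsUnit (Matrix.vandermonde v).det := isUnit_iff_ne_zero.mpr hdet
  have h1 : (Matrix.vandermonde v)⁻¹ * Matrix.vandermonde v = 1 := Matrix.nonsing_inv_mul _ hunit
  have h2 : c l = ∑ i, C ((Matrix.vandermonde v)⁻¹ l i) *
      (∑ l' : Fin d, C (v i ^ (l' : ℕ)) * c l') := by
    simp_rw [Finset.mul_sum]
    rw [Finset.sum_comm]
    have h3 : ∀ l' : Fin d, ∑ i, C ((Matrix.vandermonde v)⁻¹ l i) * (C (v i ^ (l' : ℕ)) * c l') =
        C (((Matrix.vandermonde v)⁻¹ * Matrix.vandermonde v) l l') * c l' := by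
      intro l'
      rw [Matrix.mul_apply, map_sum, Finset.sum_mul]
      refine Finset.sum_congr rfl fun i _ => ?_
      rw [Matrix.vandermonde_apply, map_mul, mul_assoc]
    simp_rw [h3, h1, Matrix.one_apply]
    simp
  rw [h2]
  exact Finset.dvd_sum fun i _ => (h i).mul_left _

/-- the product of the other forms -/
noncomputable def co (z a : Fin d → F) (i : Fin d) : Rt F :=
  ∏ j ∈ Finset.univ.erase i, lf (z j) (a j)

/-- the hypothesis on the coordinates of `β` -/
structure CoordData (k : ℕ) (z a : Fin d → F) (A B : Fin d → Rt F) (μ : F) : Prop where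
  hμ : μ ≠ 0
  hA : ∀ i, ∑ l : Fin d, C (z i ^ (l : ℕ)) * A l = C μ * co z a i ^ k
  hB : ∀ i, ∑ l : Fin d, C (z i ^ (l : ℕ)) * B l = C (μ * z i) * co z a i ^ k

theorem lf_dvd_co {z a : Fin d → F} {i j : Fin d} (h : i ≠ j) : lf (z i) (a i) ∣ co z a j :=
  Finset.dvd_prod_of_mem _ (Finset.mem_erase.mpr ⟨h, Finset.mem_univ _⟩)

/-- `α_i ^ k` divides `A_l z_i - B_l`. -/
theorem lf_pow_dvd {k : ℕ} {z a : Fin d → F} (hz : Function.Injective z) {A B : Fin d → Rt F}
    {μ : F} (h : CoordData k z a A B μ) (i l : Fin d) :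
    lf (z i) (a i) ^ k ∣ A l * C (z i) - B l := by
  refine dvd_of_vandermonde hz (fun l => A l * C (z i) - B l) _ (fun i' => ?_) l
  have h1 : ∑ l : Fin d, C (z i' ^ (l : ℕ)) * (A l * C (z i) - B l) =
      C (μ * (z i - z i')) * co z a i' ^ k := by
    have h2 : ∀ l : Fin d, C (z i' ^ (l : ℕ)) * (A l * C (z i) - B l) =
        (C (z i' ^ (l : ℕ)) * A l) * C (z i) - C (z i' ^ (l : ℕ)) * B l := fun l => by ring
    simp_rw [h2]
    rw [Finset.sum_sub_distrib, ← Finset.sum_mul, h.hA, h.hB]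
    simp only [map_mul, map_sub]
    ring
  rw [h1]
  by_cases hi : i = i'
  · subst hi
    simp
  · exact (pow_dvd_pow_of_dvd (lf_dvd_co hi) k).mul_left _

/-- a prime does not divide all `A_l` -/
theorem exists_not_dvd (hd : 2 ≤ d) {k : ℕ} {z a : Fin d → F}
    (hz : Function.Injective z) {A B : Fin d → Rt F}
    {μ : F} (h : CoordData k z a A B μ) {π : Rt F} (hπ : Prime π) : ∃ l, ¬ π ∣ A l := by
  by_contra hall
  push Not at hall
  have h1 : ∀ i, ∃ j, j ≠ i ∧ π ∣ lf (z j) (a j) := by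
    intro i
    have h2 : π ∣ C μ * co z a i ^ k := by
      rw [← h.hA]
      exact Finset.dvd_sum fun l _ => (hall l).mul_left _
    rcases hπ.dvd_or_dvd h2 with h3 | h3
    · exfalso
      have hu : IsUnit (C μ : Rt F) := (isUnit_iff_ne_zero.mpr h.hμ).map C
      exact hπ.not_isUnit (isUnit_of_dvd_unit h3 hu)
    · have h4 := hπ.dvd_of_dvd_pow h3
      rw [co, hπ.dvd_finsetProd_iff] at h4
      obtain ⟨j, hj, hjd⟩ := h4
      exact ⟨j, Finset.ne_of_mem_erase hj, hjd⟩
  obtain ⟨j₁, _, hj₁⟩ := h1 ⟨0, by omega⟩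
  obtain ⟨j₂, hne, hj₂⟩ := h1 j₁
  have hass : Associated π (lf (z j₁) (a j₁)) :=
    hπ.associated_of_dvd (lf_prime _ _) hj₁
  have := hass.symm.dvd.trans hj₂
  exact not_lf_dvd_lf (fun h => hne (hz h)) this

/-- the generic combination -/
noncomputable def gen (x : ℕ) (A : Fin d → Rt F) : Rt F := ∑ l : Fin d, C ((x : F) ^ (l : ℕ)) * A l

/-- number of irreducible factors of a polynomial -/
theorem card_factors_le [DecidableEq (Rt F)] {P : Rt F}
    (hP : P ≠ 0) : (UniqueFactorizationMonoid.factors P).toFinset.card ≤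
      P.totalDegree := by
  classical
  refine le_trans (Multiset.toFinset_card_le _) ?_
  have hgen : ∀ s : Multiset (Rt F), (∀ q ∈ s, Irreducible q) → s.card ≤ s.prod.totalDegree := by
    intro s
    induction s using Multiset.induction_on with
    | empty => intro _; simp
    | cons q s ih =>
      intro hs
      have hq := hs q (Multiset.mem_cons_self _ _)
      have hs' : ∀ q ∈ s, Irreducible q := fun q hq => hs q (Multiset.mem_cons_of_mem hq)
      rw [Multiset.card_cons, Multiset.prod_cons, totalDegree_mul_of_isDomain hq.ne_zero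
        (Multiset.prod_ne_zero (fun h0 => (hs' 0 h0).ne_zero rfl))]
      have h1 : 1 ≤ q.totalDegree := by
        by_contra hlt
        have h0 : q.totalDegree = 0 := by omega
        rw [totalDegree_eq_zero_iff_eq_C] at h0
        apply hq.not_isUnit
        rw [h0]
        apply IsUnit.map
        rw [isUnit_iff_ne_zero]
        intro h2
        rw [h2, map_zero] at h0
        exact hq.ne_zero h0
      have := ih hs'
      omega
  refine le_trans (hgen _ fun q hq =>
    UniqueFactorizationMonoid.irreducible_of_factor q hq) ?_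
  have hass := UniqueFactorizationMonoid.factors_prod hP
  obtain ⟨u, hu⟩ := hass
  have h1 : (UniqueFactorizationMonoid.factors P).prod ≠ 0 := by
    intro h0
    rw [h0, zero_mul] at hu
    exact hP hu.symm
  have h2 := congrArg totalDegree hu
  rw [totalDegree_mul_of_isDomain h1 (Units.ne_zero u)] at h2
  omega

/-- choice of the generic combination -/
theorem exists_gen [CharZero F] (hd : 2 ≤ d) {k : ℕ} {z a : Fin d → F}
    (hz : Function.Injective z) {A B : Fin d → Rt F}
    {μ : F} (h : CoordData k z a A B μ) {P : Rt F} (hP : P ≠ 0) :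
    ∃ x : ℕ, x ≤ d * P.totalDegree ∧ IsRelPrime P (gen x A) := by
  classical
  set 𝓕 := (UniqueFactorizationMonoid.factors P).toFinset with h𝓕
  have h𝓕card : 𝓕.card ≤ P.totalDegree := card_factors_le hP
  have hprime : ∀ π ∈ 𝓕, Prime π := by
    intro π hπ
    exact UniqueFactorizationMonoid.prime_of_factor π (Multiset.mem_toFinset.mp hπ)
  -- bad x for a factor
  have hbad : ∀ π ∈ 𝓕, ∀ n : ℕ, ((Finset.range n).filter (fun x => π ∣ gen x A)).card < d := by
    intro π hπ n
    by_contra hge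
    push Not at hge
    obtain ⟨T, hT, hTcard⟩ := Finset.exists_subset_card_eq hge
    set e := T.orderEmbOfFin hTcard with he
    set v : Fin d → F := fun i => ((e i : ℕ) : F) with hv
    have hvinj : Function.Injective v := by
      intro i j hij
      exact e.injective (Nat.cast_injective hij)
    obtain ⟨l, hl⟩ := exists_not_dvd hd hz h (hprime π hπ)
    apply hl
    refine dvd_of_vandermonde hvinj A π (fun i => ?_) l
    have h1 : e i ∈ T := Finset.orderEmbOfFin_mem T hTcard i
    have h2 := (Finset.mem_filter.mp (hT h1)).2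
    exact h2
  -- union bound
  have hunion : (𝓕.biUnion (fun π => (Finset.range (d * P.totalDegree + 1)).filter
      (fun x => π ∣ gen x A))).card < d * P.totalDegree + 1 := by
    refine lt_of_le_of_lt Finset.card_biUnion_le ?_
    refine lt_of_le_of_lt (Finset.sum_le_sum fun π hπ => (hbad π hπ _).le) ?_
    rw [Finset.sum_const, smul_eq_mul]
    have : 𝓕.card * d ≤ P.totalDegree * d := Nat.mul_le_mul_right _ h𝓕card
    rw [mul_comm d]
    omega
  have hex : ∃ x ∈ Finset.range (d * P.totalDegree + 1),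
      x ∉ 𝓕.biUnion (fun π => (Finset.range (d * P.totalDegree + 1)).filter
      (fun x => π ∣ gen x A)) := by
    by_contra hall
    push Not at hall
    have := Finset.card_le_card (s := Finset.range (d * P.totalDegree + 1)) hall
    rw [Finset.card_range] at this
    omega
  obtain ⟨x, hx, hxn⟩ := hex
  refine ⟨x, by rw [Finset.mem_range] at hx; omega, ?_⟩
  rw [UniqueFactorizationMonoid.isRelPrime_iff_no_prime_factors hP]
  intro π hπP hπA hπ
  obtain ⟨π', hπ', hass⟩ := UniqueFactorizationMonoid.exists_mem_factors_of_dvd hP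
    hπ.irreducible hπP
  apply hxn
  rw [Finset.mem_biUnion]
  refine ⟨π', Multiset.mem_toFinset.mpr hπ', ?_⟩
  rw [Finset.mem_filter]
  exact ⟨hx, hass.symm.dvd.trans hπA⟩

end Crest.Agent.R022.Surf206
end

-- ▼ part R022/Surf206
section

/-! Row 22 (S0029), helper206.  Level-2 geometry, final part: a family of
`Y²/2 + (d-1) k Y²/(2ρ)` functions `t^e b^j` which is independent modulo EVERY prime polynomial
`g ∈ F[t₀,t₁][n]` of positive `n`-degree. -/

set_option autoImplicit false

namespace Crest.Agent.R022.Surf206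

open MvPolynomial

variable {F : Type*} [Field F] {d : ℕ}

/-- the norm form -/
noncomputable def nrm (z a : Fin d → F) : Rt F := ∏ i, lf (z i) (a i)

/-- the linear polynomial `A_x n - B_x` -/
noncomputable def Lx (x : ℕ) (A B : Fin d → Rt F) : Polynomial (Rt F) :=
  Polynomial.C (gen x A) * Polynomial.X - Polynomial.C (gen x B)

theorem nrm_ne_zero (z a : Fin d → F) : nrm z a ≠ 0 :=
  Finset.prod_ne_zero_iff.mpr fun _ _ => lf_ne_zero _ _

theorem lf_dvd_nrm (z a : Fin d → F) (i : Fin d) : lf (z i) (a i) ∣ nrm z a :=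
  Finset.dvd_prod_of_mem (fun i => lf (z i) (a i)) (Finset.mem_univ i)

theorem totalDegree_nrm (z a : Fin d → F) : (nrm z a).totalDegree = d := by
  have := totalDegree_prod_lf z a Finset.univ (fun _ => 1)
  simpa [nrm] using this

theorem Lx_natDegree_le (x : ℕ) (A B : Fin d → Rt F) : (Lx x A B).natDegree ≤ 1 := by
  rw [Lx]
  refine le_trans (Polynomial.natDegree_sub_le _ _) (max_le ?_ ?_)
  · refine le_trans Polynomial.natDegree_mul_le ?_
    rw [Polynomial.natDegree_C, Polynomial.natDegree_X]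
  · rw [Polynomial.natDegree_C]; omega

theorem Lx_coeff_one (x : ℕ) (A B : Fin d → Rt F) : (Lx x A B).coeff 1 = gen x A := by
  rw [Lx, Polynomial.coeff_sub, Polynomial.coeff_C_mul, Polynomial.coeff_X_one,
    Polynomial.coeff_C_succ, mul_one, sub_zero]

theorem dvd_Lx_comp {k : ℕ} {z a : Fin d → F} (hz : Function.Injective z) {A B : Fin d → Rt F}
    {μ : F} (h : CoordData k z a A B μ) (x : ℕ) (i : Fin d) :
    Polynomial.C (lf (z i) (a i) ^ k) ∣ (Lx x A B).comp (sb (C (z i)) (lf (z i) (a i)) k) := by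
  have h1 : (Lx x A B).comp (sb (C (z i)) (lf (z i) (a i)) k) =
      Polynomial.C (gen x A * C (z i) - gen x B) +
        Polynomial.C (lf (z i) (a i) ^ k) * (Polynomial.C (gen x A) * Polynomial.X) := by
    rw [Lx, sb]
    simp only [Polynomial.sub_comp, Polynomial.mul_comp, Polynomial.C_comp, Polynomial.X_comp,
      Polynomial.C_sub, Polynomial.C_mul]
    ring
  rw [h1]
  refine dvd_add (map_dvd Polynomial.C ?_) (dvd_mul_right _ _)
  have h2 : gen x A * C (z i) - gen x B =
      ∑ l : Fin d, C ((x : F) ^ (l : ℕ)) * (A l * C (z i) - B l) := by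
    rw [gen, gen, Finset.sum_mul, ← Finset.sum_sub_distrib]
    refine Finset.sum_congr rfl fun l _ => ?_
    ring
  rw [h2]
  exact Finset.dvd_sum fun l _ => (lf_pow_dvd hz h i l).mul_left _

/-- the homogeneous left hand side `∑_{j ≤ j₀} P_j L^j N^(k (j₀ - j))` -/
noncomputable def lhs (k : ℕ) (z a : Fin d → F) (x : ℕ) (A B : Fin d → Rt F) (P : ℕ → Rt F)
    (j₀ : ℕ) : Polynomial (Rt F) :=
  ∑ j ∈ Finset.range (j₀ + 1),
    Polynomial.C (P j) * Lx x A B ^ j * Polynomial.C (nrm z a ^ (k * (j₀ - j)))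

theorem lhs_natDegree_le (k : ℕ) (z a : Fin d → F) (x : ℕ) (A B : Fin d → Rt F) (P : ℕ → Rt F)
    (j₀ : ℕ) : (lhs k z a x A B P j₀).natDegree ≤ j₀ := by
  rw [lhs]
  refine Polynomial.natDegree_sum_le_of_forall_le _ _ fun j hj => ?_
  rw [Finset.mem_range] at hj
  refine le_trans Polynomial.natDegree_mul_le ?_
  rw [Polynomial.natDegree_C, add_zero]
  refine le_trans Polynomial.natDegree_mul_le ?_
  rw [Polynomial.natDegree_C, zero_add]
  refine le_trans (Polynomial.natDegree_pow_le_of_le j (Lx_natDegree_le x A B)) ?_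
  omega

theorem lhs_coeff (k : ℕ) (z a : Fin d → F) (x : ℕ) (A B : Fin d → Rt F) (P : ℕ → Rt F)
    (j₀ : ℕ) : (lhs k z a x A B P j₀).coeff j₀ = P j₀ * gen x A ^ j₀ := by
  rw [lhs, Polynomial.finsetSum_coeff, Finset.sum_range_succ, Finset.sum_eq_zero, zero_add]
  · rw [Polynomial.coeff_mul_C, Polynomial.coeff_C_mul, Nat.sub_self, mul_zero, pow_zero, mul_one]
    congr 1
    have := Polynomial.coeff_pow_of_natDegree_le (m := j₀) (Lx_natDegree_le x A B)
    rw [mul_one] at this
    rw [this, Lx_coeff_one]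
  · intro j hj
    rw [Finset.mem_range] at hj
    apply Polynomial.coeff_eq_zero_of_natDegree_lt
    refine lt_of_le_of_lt Polynomial.natDegree_mul_le ?_
    rw [Polynomial.natDegree_C, add_zero]
    refine lt_of_le_of_lt Polynomial.natDegree_mul_le ?_
    rw [Polynomial.natDegree_C, zero_add]
    refine lt_of_le_of_lt (Polynomial.natDegree_pow_le_of_le j (Lx_natDegree_le x A B)) ?_
    omega

theorem dvd_lhs_comp {k : ℕ} {z a : Fin d → F} (hz : Function.Injective z) {A B : Fin d → Rt F}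
    {μ : F} (h : CoordData k z a A B μ) (x : ℕ) (P : ℕ → Rt F) (j₀ : ℕ) (i : Fin d) :
    Polynomial.C (lf (z i) (a i) ^ (k * j₀)) ∣
      (lhs k z a x A B P j₀).comp (sb (C (z i)) (lf (z i) (a i)) k) := by
  rw [lhs, Polynomial.sum_comp]
  refine Finset.dvd_sum fun j hj => ?_
  rw [Finset.mem_range] at hj
  rw [Polynomial.mul_comp, Polynomial.mul_comp, Polynomial.pow_comp, Polynomial.C_comp,
    Polynomial.C_comp]
  have h1 : Polynomial.C (lf (z i) (a i) ^ (k * j)) ∣
      ((Lx x A B).comp (sb (C (z i)) (lf (z i) (a i)) k)) ^ j := by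
    rw [pow_mul, Polynomial.C_pow]
    exact pow_dvd_pow_of_dvd (dvd_Lx_comp hz h x i) j
  have h2 : Polynomial.C (lf (z i) (a i) ^ (k * (j₀ - j))) ∣
      Polynomial.C (nrm z a ^ (k * (j₀ - j))) := by
    apply map_dvd
    exact pow_dvd_pow_of_dvd (lf_dvd_nrm z a i) _
  have h3 : lf (z i) (a i) ^ (k * j₀) =
      lf (z i) (a i) ^ (k * j) * lf (z i) (a i) ^ (k * (j₀ - j)) := by
    rw [← pow_add, ← mul_add]
    congr 2
    omega
  rw [h3, Polynomial.C_mul]
  exact mul_dvd_mul (h1.mul_left _) h2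

theorem isRelPrime_Wp {k : ℕ} {z a : Fin d → F} {g : Polynomial (Rt F)} (hg : g ≠ 0)
    {V : Fin d → ℕ} {Q : Rt F} (h : IsRelPrime (g.leadingCoeff * nrm z a) Q) :
    IsRelPrime (Wp k z a g V) Q := by
  rw [UniqueFactorizationMonoid.isRelPrime_iff_no_prime_factors (Wp_ne_zero hg)]
  intro π hπW hπQ hπ
  rw [Wp] at hπW
  have h1 : π ∣ g.leadingCoeff * nrm z a := by
    rcases hπ.dvd_or_dvd hπW with h2 | h2
    · exact h2.mul_right _
    · rw [hπ.dvd_finsetProd_iff] at h2
      obtain ⟨i, _, hi⟩ := h2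
      exact ((hπ.dvd_of_dvd_pow hi).trans (lf_dvd_nrm z a i)).mul_left _
  exact hπ.not_isUnit (h h1 hπQ)

/-- **key divisibility** -/
theorem Wp_dvd {k : ℕ} {z a : Fin d → F} (hz : Function.Injective z) {A B : Fin d → Rt F}
    {μ : F} (h : CoordData k z a A B μ) {g : Polynomial (Rt F)} (hg : Prime g)
    (hm : 1 ≤ g.natDegree) {V : Fin d → ℕ} (hV : ∀ i, IsOrd k (z i) (a i) g (V i)) {x : ℕ}
    (hx : IsRelPrime (g.leadingCoeff * nrm z a) (gen x A)) (hA0 : gen x A ≠ 0)
    (P : ℕ → Rt F) (j₀ : ℕ) (hdvd : g ∣ lhs k z a x A B P j₀) :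
    (j₀ < g.natDegree → P j₀ = 0) ∧ Wp k z a g V ∣ P j₀ := by
  classical
  have hcoeff := lhs_coeff k z a x A B P j₀
  have hnd := lhs_natDegree_le k z a x A B P j₀
  have hsmall : j₀ < g.natDegree → P j₀ = 0 := by
    intro hlt
    have h0 : lhs k z a x A B P j₀ = 0 := by
      by_contra hne
      have := Polynomial.natDegree_le_of_dvd hdvd hne
      omega
    rw [h0, Polynomial.coeff_zero] at hcoeff
    rcases mul_eq_zero.mp hcoeff.symm with h1 | h1
    · exact h1
    · exact absurd h1 (pow_ne_zero _ hA0)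
  refine ⟨hsmall, ?_⟩
  rcases Nat.lt_or_ge j₀ g.natDegree with hlt | hge
  · rw [hsmall hlt]
    exact dvd_zero _
  · obtain ⟨Q, hQ⟩ := hdvd
    set r := j₀ - g.natDegree with hr
    have hjr : j₀ = g.natDegree + r := by omega
    have hQr : Q.natDegree ≤ r := by
      by_cases hQ0 : Q = 0
      · rw [hQ0]; simp
      · have h1 : (g * Q).natDegree = g.natDegree + Q.natDegree :=
          Polynomial.natDegree_mul hg.ne_zero hQ0
        rw [← hQ] at h1
        omega
    have htop : g.leadingCoeff * Q.coeff r = P j₀ * gen x A ^ j₀ := by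
      rw [← hcoeff, hQ, hjr]
      exact (Polynomial.coeff_mul_add_eq_of_natDegree_le le_rfl hQr).symm
    have hαdvd : ∀ i, lf (z i) (a i) ^ (k * g.natDegree - V i) ∣ Q.coeff r := by
      intro i
      obtain ⟨q, hq1, hq2⟩ := hV i
      have h1 := dvd_lhs_comp hz h x P j₀ i
      rw [hQ, show k * j₀ = k * g.natDegree + k * r by rw [hjr, mul_add]] at h1
      have h2 := dvd_top_coeff (lf_prime (z i) (a i)) hq1 hq2 hQr h1
      have h3 := isOrd_le hg hm (hV i)
      have h4 : lf (z i) (a i) ^ (k * g.natDegree) =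
          lf (z i) (a i) ^ V i * lf (z i) (a i) ^ (k * g.natDegree - V i) := by
        rw [← pow_add]
        congr 1
        omega
      rw [h4, mul_dvd_mul_iff_left (pow_ne_zero _ (lf_ne_zero _ _))] at h2
      exact h2
    have hprod : ∏ i, lf (z i) (a i) ^ (k * g.natDegree - V i) ∣ Q.coeff r := by
      apply Finset.prod_dvd_of_isRelPrime
      · intro i _ j _ hij
        apply IsRelPrime.pow
        rw [(lf_prime (z i) (a i)).irreducible.isRelPrime_iff_not_dvd]
        exact not_lf_dvd_lf (fun h => hij (hz h).symm)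
      · intro i _
        exact hαdvd i
    have hW : Wp k z a g V ∣ P j₀ * gen x A ^ j₀ := by
      rw [← htop, Wp]
      exact mul_dvd_mul_left _ hprod
    have hrel : IsRelPrime (Wp k z a g V) (gen x A ^ j₀) :=
      (isRelPrime_Wp hg.ne_zero hx).pow_right
    exact hrel.dvd_of_dvd_mul_right hW

/-- the member `(j, e)` of the family, denominators cleared: `t^e (A_x n - B_x)^j N^(k (J - j))` -/
noncomputable def fam (k : ℕ) (z a : Fin d → F) (x : ℕ) (A B : Fin d → Rt F) (J : ℕ)
    (je : ℕ × (Fin 2 →₀ ℕ)) (c : F) : Polynomial (Rt F) :=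
  Polynomial.C (monomial je.2 c) * Lx x A B ^ je.1 * Polynomial.C (nrm z a ^ (k * (J - je.1)))

/-- **Surface independence theorem.** -/
theorem independent [CharZero F] (hd : 2 ≤ d) {k : ℕ} {z a : Fin d → F}
    (hz : Function.Injective z) (hgp : GenPos z a) {A B : Fin d → Rt F} {μ : F}
    (h : CoordData k z a A B μ) {g : Polynomial (Rt F)} (hg : Prime g)
    (hm : 1 ≤ g.natDegree) {D : ℕ} (hD : g.leadingCoeff.totalDegree ≤ D) :
    ∃ x : ℕ, x ≤ d * (D + d) ∧ ∃ e₁ e₂ : ℕ, e₁ + e₂ = (d - 1) * k ∧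
      ∀ (J : ℕ) (c : (ℕ × (Fin 2 →₀ ℕ)) →₀ F),
        (∀ je ∈ c.support, je.1 ≤ J ∧ (je.1 = 0 ∨ ¬ (e₁ ≤ je.2 0 ∧ e₂ ≤ je.2 1))) →
        g ∣ c.sum (fun je y => fam k z a x A B J je y) → c = 0 := by
  classical
  choose V hV using fun i => exists_isOrd k (z i) (a i) hg.ne_zero
  set W := Wp k z a g V with hW
  have hW0 : W ≠ 0 := Wp_ne_zero hg.ne_zero
  have hlcN : g.leadingCoeff * nrm z a ≠ 0 :=
    mul_ne_zero (Polynomial.leadingCoeff_ne_zero.mpr hg.ne_zero) (nrm_ne_zero z a)
  obtain ⟨x, hx1, hx2⟩ := exists_gen hd hz h hlcN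
  have hdeg : (g.leadingCoeff * nrm z a).totalDegree ≤ D + d := by
    rw [totalDegree_mul_of_isDomain (Polynomial.leadingCoeff_ne_zero.mpr hg.ne_zero)
      (nrm_ne_zero z a), totalDegree_nrm]
    omega
  have hA0 : gen x A ≠ 0 := by
    intro h0
    rw [h0, isRelPrime_zero_right] at hx2
    have h1 : IsUnit (nrm z a) := isUnit_of_mul_isUnit_right hx2
    have h2 : lf (z ⟨0, by omega⟩) (a ⟨0, by omega⟩) ∣ nrm z a := lf_dvd_nrm z a _
    exact (lf_prime (z ⟨0, by omega⟩) (a ⟨0, by omega⟩)).not_isUnit (isUnit_of_dvd_unit h2 h1)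
  -- the exponent
  set e₀ := MonomialOrder.degLex.degree W with he₀
  have hsum : e₀ 0 + e₀ 1 = W.totalDegree := by
    rw [← MvPolynomial.degree_degLexDegree, Finsupp.degree_eq_sum, Fin.sum_univ_two]
  have hWdeg := le_totalDegree_Wp hz hgp hg hm hV
  rw [← hW] at hWdeg
  refine ⟨x, le_trans hx1 (Nat.mul_le_mul_left _ hdeg), min (e₀ 0) ((d - 1) * k),
    (d - 1) * k - min (e₀ 0) ((d - 1) * k), by omega, ?_⟩
  intro J c hc hdvd
  by_contra hc0
  -- top degree
  have hne : (c.support.image Prod.fst).Nonempty := by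
    rw [Finset.image_nonempty, Finsupp.support_nonempty_iff]
    exact hc0
  set j₀ := (c.support.image Prod.fst).max' hne with hj₀
  have hj₀mem : j₀ ∈ c.support.image Prod.fst := Finset.max'_mem _ _
  have hle : ∀ je ∈ c.support, je.1 ≤ j₀ := fun je hje =>
    Finset.le_max' _ _ (Finset.mem_image_of_mem _ hje)
  obtain ⟨⟨j', e'⟩, hje', hj'⟩ := Finset.mem_image.mp hj₀mem
  have hj₀J : j₀ ≤ J := by
    have := (hc _ hje').1
    omega
  -- coefficient polynomials
  set P : ℕ → Rt F := fun j => ∑ je ∈ c.support.filter (fun je => je.1 = j),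
    monomial je.2 (c je) with hP
  have hPcoeff : ∀ j e, coeff e (P j) = c (j, e) := by
    intro j e
    simp only [hP, coeff_sum, coeff_monomial]
    rw [Finset.sum_ite, Finset.sum_const_zero, add_zero]
    by_cases hmem : (j, e) ∈ c.support
    · have h1 : (c.support.filter (fun je => je.1 = j)).filter (fun je => je.2 = e) =
          {(j, e)} := by
        ext ⟨j1, e1⟩
        simp only [Finset.mem_filter, Finset.mem_singleton, Prod.mk.injEq]
        constructor
        · rintro ⟨⟨_, h1⟩, h2⟩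
          exact ⟨h1, h2⟩
        · rintro ⟨rfl, rfl⟩
          exact ⟨⟨hmem, rfl⟩, rfl⟩
      rw [h1, Finset.sum_singleton]
    · have h1 : (c.support.filter (fun je => je.1 = j)).filter (fun je => je.2 = e) = ∅ := by
        ext ⟨j1, e1⟩
        simp only [Finset.mem_filter, Finset.notMem_empty, iff_false]
        rintro ⟨⟨h0, h1⟩, h2⟩
        obtain rfl : j1 = j := h1
        obtain rfl : e1 = e := h2
        exact hmem h0
      rw [h1, Finset.sum_empty]
      exact (Finsupp.notMem_support_iff.mp hmem).symm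
  have hPne : P j₀ ≠ 0 := by
    intro h0
    have h1 := hPcoeff j₀ e'
    rw [h0, coeff_zero, ← hj'] at h1
    exact (Finsupp.mem_support_iff.mp hje') h1.symm
  -- rewrite the sum
  have hsumeq : c.sum (fun je y => fam k z a x A B J je y) =
      Polynomial.C (nrm z a ^ (k * (J - j₀))) * lhs k z a x A B P j₀ := by
    rw [Finsupp.sum, lhs, Finset.mul_sum]
    rw [← Finset.sum_fiberwise_of_maps_to (s := c.support) (t := Finset.range (j₀ + 1))
      (g := Prod.fst) (fun je hje => Finset.mem_range.mpr (Nat.lt_succ_of_le (hle je hje)))]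
    refine Finset.sum_congr rfl fun j hj => ?_
    rw [Finset.mem_range] at hj
    simp only [hP]
    rw [map_sum, Finset.sum_mul, Finset.sum_mul, Finset.mul_sum]
    refine Finset.sum_congr rfl fun je hje => ?_
    obtain ⟨hje1, hje2⟩ := Finset.mem_filter.mp hje
    rw [fam, hje2]
    have h1 : nrm z a ^ (k * (J - j)) = nrm z a ^ (k * (J - j₀)) * nrm z a ^ (k * (j₀ - j)) := by
      rw [← pow_add, ← mul_add]
      congr 2
      omega
    rw [h1, Polynomial.C_mul]
    ring
  rw [hsumeq] at hdvd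
  have hdvd' : g ∣ lhs k z a x A B P j₀ := by
    rcases hg.dvd_or_dvd hdvd with h1 | h1
    · exfalso
      have h2 : (Polynomial.C (nrm z a ^ (k * (J - j₀))) : Polynomial (Rt F)) ≠ 0 := by
        rw [Ne, Polynomial.C_eq_zero]
        exact pow_ne_zero _ (nrm_ne_zero z a)
      have h3 := Polynomial.natDegree_le_of_dvd h1 h2
      rw [Polynomial.natDegree_C] at h3
      omega
    · exact h1
  obtain ⟨hsmall, hWdvd⟩ := Wp_dvd hz h hg hm hV hx2 hA0 P j₀ hdvd'
  rw [← hW] at hWdvd
  have hj₀pos : j₀ ≠ 0 := by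
    intro h0
    exact hPne (hsmall (by omega))
  obtain ⟨Q, hQ⟩ := hWdvd
  have hQ0 : Q ≠ 0 := by
    intro h0
    rw [h0, mul_zero] at hQ
    exact hPne hQ
  have hdegP : MonomialOrder.degLex.degree (P j₀) = e₀ + MonomialOrder.degLex.degree Q := by
    rw [hQ]
    exact MonomialOrder.degree_mul hW0 hQ0
  set e := MonomialOrder.degLex.degree (P j₀) with he
  have hmem : (j₀, e) ∈ c.support := by
    rw [Finsupp.mem_support_iff, ← hPcoeff]
    exact MonomialOrder.coeff_degree_ne_zero_iff.mpr hPne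
  have h1 := (hc _ hmem).2
  rcases h1 with h1 | h1
  · exact hj₀pos h1
  · apply h1
    simp only
    rw [hdegP]
    simp only [Finsupp.add_apply]
    constructor <;> omega

end Crest.Agent.R022.Surf206
end

-- ▼ part R022/Surf206Glue

/-! Row 22 (S0029), helper206.  Glue: the surface independence theorem in terms of the integer slice
objects (helper250's `Nf`, `Sf`, helper294's `Bt`). -/

set_option autoImplicit false

namespace Crest.Agent.R022.Surf206

open MvPolynomial Crest.Agent.R022.Torsor Crest.Agent.R022.Cnt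

/-- base change of the coefficients -/
noncomputable def phi : MvPolynomial (Fin 2) ℤ →+* Rt ℂ := MvPolynomial.map (Int.castRingHom ℂ)

theorem phi_injective : Function.Injective phi :=
  MvPolynomial.map_injective _ (RingHom.injective_int (Int.castRingHom ℂ))

theorem phi_totalDegree_le (P : MvPolynomial (Fin 2) ℤ) :
    (phi P).totalDegree ≤ P.totalDegree := by
  unfold phi
  rw [totalDegree, totalDegree]
  exact Finset.sup_mono (support_map_subset _ _)

section
variable {F : Polynomial ℤ} (hF : F.Monic)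

/-- the generic combination of the cleared coordinates -/
noncomputable def Bg (k : ℕ) (M : ℤ) (a0 : Fin F.natDegree → ℤ) (x : ℕ) :
    Polynomial (MvPolynomial (Fin 2) ℤ) :=
  ∑ l : Fin F.natDegree, Polynomial.C (C ((x : ℤ) ^ (l : ℕ))) * Bt hF k M a0 l

/-- integer family -/
noncomputable def famZ (k : ℕ) (M : ℤ) (J : ℕ) (a0 : Fin F.natDegree → ℤ) (x : ℕ)
    (ω : ℕ × ℕ × ℕ) : Polynomial (MvPolynomial (Fin 2) ℤ) :=
  Polynomial.C (X 0 ^ ω.2.1 * X 1 ^ ω.2.2) * Bg hF k M a0 x ^ ω.1 *
    Polynomial.C (Nf hF 2 a0 ^ (k * (J - ω.1)))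

theorem Bg_natDegree (k : ℕ) (M : ℤ) (a0 : Fin F.natDegree → ℤ) (x : ℕ) :
    (Bg hF k M a0 x).natDegree ≤ 1 := by
  unfold Bg
  refine Polynomial.natDegree_sum_le_of_forall_le _ _ fun l _ => ?_
  refine (Polynomial.natDegree_C_mul_le _ _).trans ?_
  exact Bt_natDegree hF k M a0 l

theorem famZ_natDegree (k : ℕ) (M : ℤ) (J : ℕ) (a0 : Fin F.natDegree → ℤ) (x : ℕ)
    (ω : ℕ × ℕ × ℕ) : (famZ hF k M J a0 x ω).natDegree ≤ ω.1 := by
  unfold famZ
  refine (Polynomial.natDegree_mul_C_le _ _).trans ?_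
  refine (Polynomial.natDegree_C_mul_le _ _).trans ?_
  refine (Polynomial.natDegree_pow_le_of_le ω.1 (Bg_natDegree hF k M a0 x)).trans ?_
  omega

theorem val_Bt (k : ℕ) (M : ℤ) (a0 : Fin F.natDegree → ℤ) (t : Fin 2 → ℤ) (m : ℤ)
    (b : Fin F.natDegree → ℤ)
    (h : (M : AdjoinRoot F) * ((m : AdjoinRoot F) - AdjoinRoot.root F) =
      el F (emb 2 a0 t) ^ k * el F b) (l : Fin F.natDegree) :
    val (Bt hF k M a0 l) t m = b l * (MvPolynomial.eval t (Nf hF 2 a0)) ^ k := by
  rw [coord_eq_slice hF 2 a0 t k M m b h l]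
  unfold val Bt
  simp only [Polynomial.map_mul, Polynomial.map_sub, Polynomial.map_C, Polynomial.map_X,
    Polynomial.eval_mul, Polynomial.eval_sub, Polynomial.eval_C, Polynomial.eval_X,
    MvPolynomial.eval_C]

theorem val_Bg (k : ℕ) (M : ℤ) (a0 : Fin F.natDegree → ℤ) (x : ℕ) (t : Fin 2 → ℤ) (m : ℤ)
    (b : Fin F.natDegree → ℤ)
    (h : (M : AdjoinRoot F) * ((m : AdjoinRoot F) - AdjoinRoot.root F) =
      el F (emb 2 a0 t) ^ k * el F b) :
    val (Bg hF k M a0 x) t m =
      (∑ l : Fin F.natDegree, (x : ℤ) ^ (l : ℕ) * b l) *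
        (MvPolynomial.eval t (Nf hF 2 a0)) ^ k := by
  have h1 : val (Bg hF k M a0 x) t m =
      ∑ l : Fin F.natDegree, (x : ℤ) ^ (l : ℕ) * val (Bt hF k M a0 l) t m := by
    unfold val Bg
    rw [Polynomial.map_sum, Polynomial.eval_finsetSum]
    refine Finset.sum_congr rfl fun l _ => ?_
    rw [Polynomial.map_mul, Polynomial.eval_mul, Polynomial.map_C, Polynomial.eval_C,
      MvPolynomial.eval_C]
  rw [h1, Finset.sum_mul]
  refine Finset.sum_congr rfl fun l _ => ?_
  rw [val_Bt hF k M a0 t m b h l]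
  ring

theorem val_famZ (k : ℕ) (M : ℤ) (J : ℕ) (a0 : Fin F.natDegree → ℤ) (x : ℕ)
    (ω : ℕ × ℕ × ℕ) (hω : ω.1 ≤ J) (t : Fin 2 → ℤ) (m : ℤ) (b : Fin F.natDegree → ℤ)
    (h : (M : AdjoinRoot F) * ((m : AdjoinRoot F) - AdjoinRoot.root F) =
      el F (emb 2 a0 t) ^ k * el F b) :
    val (famZ hF k M J a0 x ω) t m =
      (t 0 ^ ω.2.1 * t 1 ^ ω.2.2 * (∑ l : Fin F.natDegree, (x : ℤ) ^ (l : ℕ) * b l) ^ ω.1) *
        (MvPolynomial.eval t (Nf hF 2 a0)) ^ (k * J) := by
  have h1 : val (famZ hF k M J a0 x ω) t m = (t 0 ^ ω.2.1 * t 1 ^ ω.2.2) *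
      (val (Bg hF k M a0 x) t m) ^ ω.1 * (MvPolynomial.eval t (Nf hF 2 a0)) ^ (k * (J - ω.1)) := by
    unfold val famZ
    rw [Polynomial.map_mul, Polynomial.map_mul, Polynomial.eval_mul, Polynomial.eval_mul,
      Polynomial.map_C, Polynomial.eval_C, Polynomial.map_C, Polynomial.eval_C,
      Polynomial.map_pow, Polynomial.eval_pow]
    simp only [map_mul, map_pow, MvPolynomial.eval_X]
  rw [h1, val_Bg hF k M a0 x t m b h]
  have h2 : k * J = k * ω.1 + k * (J - ω.1) := by
    rw [← Nat.mul_add]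
    congr 1
    omega
  rw [h2, pow_add, mul_pow, pow_mul]
  ring

/-- the coordinate data over `ℂ` -/
theorem coordData (z : Fin F.natDegree → ℂ) (hd : 2 ≤ F.natDegree)
    (hinj : Function.Injective z) (hz : ∀ i, F.eval₂ (Int.castRingHom ℂ) (z i) = 0) (k : ℕ)
    {M : ℤ} (hM : M ≠ 0) (a0 : Fin F.natDegree → ℤ) :
    CoordData k z (cst z a0) (fun l => C (M : ℂ) * phi (Sf hF 2 a0 k 1 l))
      (fun l => C (M : ℂ) * phi (Sf hF 2 a0 k (AdjoinRoot.root F) l)) (M : ℂ) := by
  have hV : Matrix.vandermonde z * (Matrix.vandermonde z)⁻¹ = 1 := by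
    apply Matrix.mul_nonsing_inv
    exact isUnit_iff_ne_zero.mpr (Matrix.det_vandermonde_ne_zero_iff.mpr hinj)
  have hδ : ∀ i i', ∑ l : Fin F.natDegree,
      z i ^ (l : ℕ) * (Matrix.vandermonde z)⁻¹ l i' = if i = i' then 1 else 0 := by
    intro i i'
    have := congrFun (congrFun hV i) i'
    rw [Matrix.mul_apply, Matrix.one_apply] at this
    simpa [Matrix.vandermonde_apply] using this
  have hco : ∀ i, coP z 2 a0 i = co z (cst z a0) i := by
    intro i
    unfold coP co
    exact Finset.prod_congr rfl fun j _ => aP_two z hd a0 j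
  have hS : ∀ (y : AdjoinRoot F) (i : Fin F.natDegree),
      ∑ l : Fin F.natDegree, C (z i ^ (l : ℕ)) * phi (Sf hF 2 a0 k y l) =
        C (Torsor.ev F (z i) (hz i) y) * co z (cst z a0) i ^ k := by
    intro y i
    have hmap : ∀ l, phi (Sf hF 2 a0 k y l) =
        ∑ i', C ((Matrix.vandermonde z)⁻¹ l i' * Torsor.ev F (z i') (hz i') y) *
          co z (cst z a0) i' ^ k := by
      intro l
      unfold phi
      rw [map_Sf hF z hinj hz]
      exact Finset.sum_congr rfl fun i' _ => by rw [hco]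
    simp_rw [hmap, Finset.mul_sum]
    rw [Finset.sum_comm]
    have h1 : ∀ i', ∑ l : Fin F.natDegree, (C (z i ^ (l : ℕ)) : Rt ℂ) *
        (C ((Matrix.vandermonde z)⁻¹ l i' * Torsor.ev F (z i') (hz i') y) *
          co z (cst z a0) i' ^ k) =
        C ((if i = i' then 1 else 0) * Torsor.ev F (z i') (hz i') y) *
          co z (cst z a0) i' ^ k := by
      intro i'
      rw [← hδ i i', Finset.sum_mul, map_sum, Finset.sum_mul]
      refine Finset.sum_congr rfl fun l _ => ?_
      rw [← mul_assoc, ← C_mul, mul_assoc]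
    rw [Finset.sum_congr rfl fun i' _ => h1 i', Finset.sum_eq_single i]
    · simp
    · intro b _ hb
      rw [if_neg (Ne.symm hb)]
      simp
    · intro h
      exact absurd (Finset.mem_univ _) h
  have hS' : ∀ (y : AdjoinRoot F) (i : Fin F.natDegree),
      ∑ l : Fin F.natDegree, C (z i ^ (l : ℕ)) * (C (M : ℂ) * phi (Sf hF 2 a0 k y l)) =
        C ((M : ℂ) * Torsor.ev F (z i) (hz i) y) * co z (cst z a0) i ^ k := by
    intro y i
    rw [C_mul, mul_assoc, ← hS y i, Finset.mul_sum]
    refine Finset.sum_congr rfl fun l _ => ?_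
    ring
  refine ⟨by exact_mod_cast hM, fun i => ?_, fun i => ?_⟩
  · rw [hS' 1 i, map_one, mul_one]
  · rw [hS' (AdjoinRoot.root F) i, ev_root]

theorem map_Bg (k : ℕ) (M : ℤ) (a0 : Fin F.natDegree → ℤ) (x : ℕ) :
    (Bg hF k M a0 x).map phi = Lx x (fun l => C (M : ℂ) * phi (Sf hF 2 a0 k 1 l))
      (fun l => C (M : ℂ) * phi (Sf hF 2 a0 k (AdjoinRoot.root F) l)) := by
  unfold Bg Lx gen
  rw [Polynomial.map_sum, map_sum, map_sum, Finset.sum_mul, ← Finset.sum_sub_distrib]
  refine Finset.sum_congr rfl fun l _ => ?_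
  unfold Bt
  have hc : ∀ c : ℤ, phi (C c) = C (c : ℂ) := by
    intro c
    unfold phi
    rw [MvPolynomial.map_C]
    rfl
  simp only [Polynomial.map_mul, Polynomial.map_sub, Polynomial.map_C, Polynomial.map_X, hc,
    Polynomial.C_mul]
  push_cast
  ring

theorem map_Nf' (z : Fin F.natDegree → ℂ) (hd : 2 ≤ F.natDegree)
    (hinj : Function.Injective z) (hz : ∀ i, F.eval₂ (Int.castRingHom ℂ) (z i) = 0)
    (a0 : Fin F.natDegree → ℤ) : phi (Nf hF 2 a0) = nrm z (cst z a0) := by
  unfold phi nrm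
  rw [map_Nf hF z hinj hz]
  exact Finset.prod_congr rfl fun j _ => aP_two z hd a0 j

/-- exponent as a finitely supported function -/
noncomputable def ex (u v : ℕ) : Fin 2 →₀ ℕ := Finsupp.single 0 u + Finsupp.single 1 v

theorem ex_zero (u v : ℕ) : ex u v 0 = u := by simp [ex]
theorem ex_one (u v : ℕ) : ex u v 1 = v := by simp [ex]

theorem ex_injective : Function.Injective (fun ω : ℕ × ℕ × ℕ => (ω.1, ex ω.2.1 ω.2.2)) := by
  rintro ⟨j, u, v⟩ ⟨j', u', v'⟩ h
  simp only [Prod.mk.injEq] at h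
  obtain ⟨h1, h2⟩ := h
  have h3 := DFunLike.congr_fun h2 0
  have h4 := DFunLike.congr_fun h2 1
  rw [ex_zero, ex_zero] at h3
  rw [ex_one, ex_one] at h4
  subst h1; subst h3; subst h4
  rfl

theorem monomial_ex (u v : ℕ) (c : ℂ) :
    (monomial (ex u v) c : Rt ℂ) = C c * (X 0 ^ u * X 1 ^ v) := by
  rw [ex, X_pow_eq_monomial, X_pow_eq_monomial, monomial_mul, C_mul_monomial]
  simp

theorem map_famZ (z : Fin F.natDegree → ℂ) (hd : 2 ≤ F.natDegree)
    (hinj : Function.Injective z) (hz : ∀ i, F.eval₂ (Int.castRingHom ℂ) (z i) = 0)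
    (k : ℕ) (M : ℤ) (J : ℕ) (a0 : Fin F.natDegree → ℤ) (x : ℕ)
    (ω : ℕ × ℕ × ℕ) (c : ℤ) :
    (Polynomial.C (C c) * famZ hF k M J a0 x ω).map phi =
      fam k z (cst z a0) x (fun l => C (M : ℂ) * phi (Sf hF 2 a0 k 1 l))
        (fun l => C (M : ℂ) * phi (Sf hF 2 a0 k (AdjoinRoot.root F) l)) J
        (ω.1, ex ω.2.1 ω.2.2) (c : ℂ) := by
  unfold famZ fam
  have hc : phi (C c) = C (c : ℂ) := by
    unfold phi
    rw [MvPolynomial.map_C]
    rfl
  have hX : ∀ i, phi (X i) = X i := by
    intro i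
    unfold phi
    rw [MvPolynomial.map_X]
  rw [Polynomial.map_mul, Polynomial.map_mul, Polynomial.map_mul, Polynomial.map_pow, map_Bg,
    Polynomial.map_C, Polynomial.map_C, Polynomial.map_C, map_pow, map_Nf' hF z hd hinj hz, hc,
    monomial_ex, map_mul, map_pow, map_pow, hX, hX]
  simp only [Polynomial.C_mul]
  ring

/-- a polynomial of positive degree has a prime factor of positive degree -/
theorem exists_prime_factor {g : Polynomial (Rt ℂ)} (hg : 1 ≤ g.natDegree) :
    ∃ q, Prime q ∧ q ∣ g ∧ 1 ≤ q.natDegree ∧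
      q.leadingCoeff.totalDegree ≤ g.leadingCoeff.totalDegree := by
  classical
  have hg0 : g ≠ 0 := by
    rintro rfl
    simp at hg
  by_contra hall
  push Not at hall
  obtain ⟨u, hu⟩ := UniqueFactorizationMonoid.factors_prod hg0
  have h1 : ∀ s : Multiset (Polynomial (Rt ℂ)), (∀ q ∈ s, q.natDegree = 0 ∧ q ≠ 0) →
      s.prod.natDegree = 0 ∧ s.prod ≠ 0 := by
    intro s
    induction s using Multiset.induction_on with
    | empty => intro _; simp
    | cons q s ih =>
      intro hs
      have hq := hs q (Multiset.mem_cons_self _ _)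
      have hs' := ih fun q hq => hs q (Multiset.mem_cons_of_mem hq)
      rw [Multiset.prod_cons]
      refine ⟨?_, mul_ne_zero hq.2 hs'.2⟩
      rw [Polynomial.natDegree_mul hq.2 hs'.2, hq.1, hs'.1]
  have h2 := h1 (UniqueFactorizationMonoid.factors g) (by
    intro q hq
    have hqp := UniqueFactorizationMonoid.prime_of_factor q hq
    have hqd := UniqueFactorizationMonoid.dvd_of_mem_factors hq
    refine ⟨?_, hqp.ne_zero⟩
    by_contra hne
    have h3 := hall q hqp hqd (by omega)
    obtain ⟨w, hw⟩ := hqd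
    have hw0 : w ≠ 0 := by
      rintro rfl
      rw [mul_zero] at hw
      exact hg0 hw
    rw [hw, Polynomial.leadingCoeff_mul, totalDegree_mul_of_isDomain
      (Polynomial.leadingCoeff_ne_zero.mpr hqp.ne_zero)
      (Polynomial.leadingCoeff_ne_zero.mpr hw0)] at h3
    omega)
  have h3 : g.natDegree = 0 := by
    rw [← hu, Polynomial.natDegree_mul h2.2 (Units.ne_zero u), h2.1]
    rw [Polynomial.natDegree_eq_zero_of_isUnit u.isUnit]
  omega

/-- **Surface independence, integer form.** -/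
theorem independent_int (z : Fin F.natDegree → ℂ) (hd : 2 ≤ F.natDegree)
    (hinj : Function.Injective z) (hz : ∀ i, F.eval₂ (Int.castRingHom ℂ) (z i) = 0)
    (k : ℕ) {M : ℤ} (hM : M ≠ 0) (a0 : Fin F.natDegree → ℤ)
    (hgp : Crest.Agent.R022.GenPos z a0) {g : Polynomial (MvPolynomial (Fin 2) ℤ)}
    (hg : 1 ≤ g.natDegree) {D : ℕ} (hD : g.leadingCoeff.totalDegree ≤ D) :
    ∃ x : ℕ, x ≤ F.natDegree * (D + F.natDegree) ∧ ∃ e₁ e₂ : ℕ,
      e₁ + e₂ = (F.natDegree - 1) * k ∧
      ∀ (J : ℕ) (T : Finset (ℕ × ℕ × ℕ)) (a : ℕ × ℕ × ℕ → ℤ),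
        (∀ ω ∈ T, ω.1 ≤ J ∧ (ω.1 = 0 ∨ ¬ (e₁ ≤ ω.2.1 ∧ e₂ ≤ ω.2.2))) →
        g ∣ ∑ ω ∈ T, Polynomial.C (C (a ω)) * famZ hF k M J a0 x ω → ∀ ω ∈ T, a ω = 0 := by
  classical
  have hgC : (g.map phi).natDegree = g.natDegree :=
    Polynomial.natDegree_map_eq_of_injective phi_injective g
  obtain ⟨q, hq1, hq2, hq3, hq4⟩ := exists_prime_factor (g := g.map phi) (by omega)
  have hlc : (g.map phi).leadingCoeff = phi g.leadingCoeff :=
    Polynomial.leadingCoeff_map_of_injective phi_injective g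
  have hqD : q.leadingCoeff.totalDegree ≤ D :=
    hq4.trans (hlc ▸ (phi_totalDegree_le _).trans hD)
  obtain ⟨x, hx, e₁, e₂, he, hind⟩ := independent (F := ℂ) hd hinj
    (a := cst z a0) (k := k)
    (fun i₀ i i' hi hi' hne => hgp i i' i₀ hne hi hi')
    (coordData hF z hd hinj hz k hM a0) hq1 hq3 hqD
  refine ⟨x, hx, e₁, e₂, he, ?_⟩
  intro J T a hT hdvd
  set ι : ℕ × ℕ × ℕ → ℕ × (Fin 2 →₀ ℕ) := fun ω => (ω.1, ex ω.2.1 ω.2.2) with hι
  have hιinj : Function.Injective ι := ex_injective
  set c : (ℕ × (Fin 2 →₀ ℕ)) →₀ ℂ :=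
    ∑ ω ∈ T, Finsupp.single (ι ω) ((a ω : ℤ) : ℂ) with hc
  have hcval : ∀ ω ∈ T, c (ι ω) = ((a ω : ℤ) : ℂ) := by
    intro ω hω
    rw [hc, Finsupp.finsetSum_apply, Finset.sum_eq_single ω]
    · simp
    · intro b _ hb
      rw [Finsupp.single_apply, if_neg (fun h => hb (hιinj h))]
    · intro h
      exact absurd hω h
  have hsupp : c.support ⊆ T.image ι := by
    intro y hy
    have h1 := Finsupp.support_finsetSum hy
    simp only [Finset.mem_biUnion] at h1
    obtain ⟨ω, hω, hy'⟩ := h1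
    have h2 := Finsupp.support_single_subset hy'
    rw [Finset.mem_singleton] at h2
    rw [h2]
    exact Finset.mem_image_of_mem _ hω
  have hzero := hind J c (by
    intro je hje
    obtain ⟨ω, hω, rfl⟩ := Finset.mem_image.mp (hsupp hje)
    have := hT ω hω
    simp only [hι, ex_zero, ex_one]
    exact this) (by
    have h1 : c.sum (fun je y => fam k z (cst z a0) x
        (fun l => C (M : ℂ) * phi (Sf hF 2 a0 k 1 l))
        (fun l => C (M : ℂ) * phi (Sf hF 2 a0 k (AdjoinRoot.root F) l)) J je y) =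
        (∑ ω ∈ T, Polynomial.C (C (a ω)) * famZ hF k M J a0 x ω).map phi := by
      rw [hc, ← Finsupp.sum_finsetSum_index, Polynomial.map_sum]
      · refine Finset.sum_congr rfl fun ω _ => ?_
        rw [Finsupp.sum_single_index, map_famZ hF z hd hinj hz]
        unfold fam
        simp
      · intro je
        unfold fam
        simp
      · intro je y y'
        unfold fam
        rw [map_add (monomial je.2), Polynomial.C_add]
        ring
    rw [h1]
    exact hq2.trans (Polynomial.map_dvd phi hdvd))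
  intro ω hω
  have := hcval ω hω
  rw [hzero, Finsupp.zero_apply] at this
  exact_mod_cast this.symm

end

end Crest.Agent.R022.Surf206
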