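import Mathlib
import Crest.Agent.R022.CntMain
import Crest.Agent.R022.CntStep
import Crest.Agent.R022.CntLink
import Crest.Agent.R022.Surf206Glue
import Crest.Agent.R022.SliceDefs
import Crest.Agent.R022.Ifaces250

-- ▼ part R022/Free712D
section

/-!
# R022, stage 3 (helper712), part D: numerics for one local parameter

`exists_params1` : `n` free over a curve (two-parameter count `c0 y ^ 2`), `exists_params0` :
functions of `t` alone on a curve of degree `δ` (count `δ y - C`).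
-/

set_option autoImplicit false

namespace Crest.Agent.R022.Free712

open Module Finset Filter Topology Crest.Agent.R022.Cnt Polynomial

/-- the count function used in the greedy choice -/
noncomputable def Hf2 (c0 : ℝ) (y0 y : ℕ) : ℕ := if y < y0 then 0 else ⌊c0 * (y : ℝ) ^ 2⌋₊

theorem Hf2_mono {c0 : ℝ} (hc0 : 0 < c0) (y0 : ℕ) : Monotone (Hf2 c0 y0) := by
  intro a b hab
  unfold Hf2
  split_ifs with h1 h2 h2
  · exact le_rfl
  · exact Nat.zero_le _
  · omega
  · apply Nat.floor_le_floor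
    have : (a : ℝ) ≤ b := by exact_mod_cast hab
    gcongr

theorem sum_sq' (Y : ℕ) :
    ∑ y ∈ range Y, (y : ℝ) ^ 2 = (Y : ℝ) * (Y - 1) * (2 * Y - 1) / 6 := by
  induction Y with
  | zero => simp
  | succ n ih => rw [Finset.sum_range_succ, ih]; push_cast; ring

theorem sum_Hf2_lower {c0 : ℝ} (hc0 : 0 < c0) (y0 Y : ℕ) :
    c0 * ((Y : ℝ) ^ 3 / 3 - (Y : ℝ) ^ 2 / 2) - Y - c0 * (y0 : ℝ) ^ 3 ≤
      ∑ y ∈ range Y, (Hf2 c0 y0 y : ℝ) := by
  have h1 : ∀ y ∈ range Y, c0 * (y : ℝ) ^ 2 - 1 - (if y < y0 then c0 * (y0 : ℝ) ^ 2 else 0) ≤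
      (Hf2 c0 y0 y : ℝ) := by
    intro y _
    unfold Hf2
    split_ifs with h
    · have : (y : ℝ) ≤ y0 := by exact_mod_cast h.le
      have : (y : ℝ) ^ 2 ≤ (y0 : ℝ) ^ 2 := by gcongr
      push_cast
      nlinarith
    · have := (Nat.sub_one_lt_floor (c0 * (y : ℝ) ^ 2)).le
      linarith
  refine le_trans ?_ (Finset.sum_le_sum h1)
  rw [Finset.sum_sub_distrib, Finset.sum_sub_distrib, ← Finset.mul_sum, sum_sq', Finset.sum_const,
    Finset.card_range, Finset.sum_ite, Finset.sum_const_zero, add_zero, Finset.sum_const,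
    nsmul_eq_mul, nsmul_eq_mul, mul_one]
  have h2 : (((range Y).filter fun y => y < y0).card : ℝ) ≤ y0 := by
    have : ((range Y).filter fun y => y < y0) ⊆ range y0 := by
      intro y hy
      rw [Finset.mem_filter] at hy
      exact Finset.mem_range.2 hy.2
    have h3 := Finset.card_le_card this
    rw [Finset.card_range] at h3
    exact_mod_cast h3
  have h3 : (((range Y).filter fun y => y < y0).card : ℝ) * (c0 * (y0 : ℝ) ^ 2) ≤
      y0 * (c0 * (y0 : ℝ) ^ 2) := by
    apply mul_le_mul_of_nonneg_right h2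
    positivity
  have hY : (0 : ℝ) ≤ Y := Nat.cast_nonneg Y
  nlinarith [mul_nonneg hc0.le hY]

/-- choice of the parameters of the determinant, one local parameter, `n` free -/
theorem exists_params1 {ρ κ c0 : ℝ} (hρ : 0 < ρ) (hκ : 0 < κ) (hc0 : 0 < c0)
    (hthr : (4 / 3 : ℝ) < κ * (c0 * ρ)) (y0 Y0 : ℕ) :
    ∃ Y m J w : ℕ, Y0 ≤ Y ∧ y0 ≤ Y ∧ (Y : ℝ) < ρ * (J + 1) ∧
      w + (J + 1) * (m + 1).choose 2 ≤ m * Hf2 c0 y0 Y ∧
      (Y : ℝ) * Hf2 c0 y0 Y - ∑ y ∈ range Y, (Hf2 c0 y0 y : ℝ) < κ * w := by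
  set μ : ℝ := c0 * ρ with hμ
  have hμ0 : 0 < μ := by positivity
  set g : ℝ → ℝ := fun x => κ * ((μ - x) * (c0 - x ^ 2) - (1 / ρ + x) * (μ + x) ^ 2 / 2) -
    (2 / 3 * c0 + c0 / 2 * x + x ^ 2 + c0 * (y0 : ℝ) ^ 3 * x ^ 3) with hg
  have hgc : Continuous g := by
    rw [hg]; fun_prop
  have hbase : (μ - 0) * (c0 - 0 ^ 2) - (1 / ρ + 0) * (μ + 0) ^ 2 / 2 = c0 ^ 2 * ρ / 2 := by
    rw [hμ]
    field_simp
    ring
  have hg0 : 0 < g 0 := by
    have h1 : g 0 = κ * (c0 ^ 2 * ρ / 2) - 2 / 3 * c0 := by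
      rw [hg]
      simp only
      rw [hbase]
      ring
    rw [h1]
    nlinarith
  have hlim1 : Tendsto (fun y : ℕ => (1 : ℝ) / y) atTop (𝓝 0) :=
    tendsto_one_div_atTop_nhds_zero_nat
  have hlim2 : Tendsto (fun y : ℕ => g ((1 : ℝ) / y)) atTop (𝓝 (g 0)) :=
    (hgc.tendsto 0).comp hlim1
  have hlim3 : Tendsto (fun y : ℕ => (μ - (1 : ℝ) / y) * (c0 - ((1 : ℝ) / y) ^ 2) -
      (1 / ρ + (1 : ℝ) / y) * (μ + ((1 : ℝ) / y)) ^ 2 / 2) atTop (𝓝 (c0 ^ 2 * ρ / 2)) := by
    have hc : Continuous fun x : ℝ => (μ - x) * (c0 - x ^ 2) - (1 / ρ + x) * (μ + x) ^ 2 / 2 := by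
      fun_prop
    have h3 := (hc.tendsto 0).comp hlim1
    rw [hbase, Function.comp_def] at h3
    exact h3
  have hev1 := hlim2.eventually (lt_mem_nhds hg0)
  have hev2 := hlim3.eventually (lt_mem_nhds (show (0 : ℝ) < c0 ^ 2 * ρ / 2 by positivity))
  have hev3 : ∀ᶠ y : ℕ in atTop, (1 : ℝ) / y < μ := hlim1.eventually (gt_mem_nhds hμ0)
  have hev4 : ∀ᶠ y : ℕ in atTop, (1 : ℝ) / y < c0 := hlim1.eventually (gt_mem_nhds hc0)
  obtain ⟨Y, ⟨⟨⟨hY1, hY2⟩, hY3⟩, hY4⟩, hY5⟩ := (((hev1.and hev2).and hev3).and hev4 |>.and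
    (eventually_ge_atTop (max (max y0 Y0) 1))).exists
  have hYy0 : y0 ≤ Y := by omega
  have hYY0 : Y0 ≤ Y := by omega
  have hYpos : (0 : ℝ) < Y := by
    have : 0 < Y := by omega
    exact_mod_cast this
  have hY1' : (1 : ℝ) ≤ Y := by
    have : 1 ≤ Y := by omega
    exact_mod_cast this
  have hH : Hf2 c0 y0 Y = ⌊c0 * (Y : ℝ) ^ 2⌋₊ := by
    unfold Hf2
    rw [if_neg (by omega)]
  have hHlo : c0 * (Y : ℝ) ^ 2 - 1 ≤ Hf2 c0 y0 Y := by
    rw [hH]; exact (Nat.sub_one_lt_floor _).le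
  have hHup : (Hf2 c0 y0 Y : ℝ) ≤ c0 * (Y : ℝ) ^ 2 := by
    rw [hH]; exact Nat.floor_le (by positivity)
  set m : ℕ := ⌊μ * Y⌋₊ with hm
  have hmlo : μ * Y - 1 ≤ m := (Nat.sub_one_lt_floor _).le
  have hmup : (m : ℝ) ≤ μ * Y := Nat.floor_le (by positivity)
  set J : ℕ := ⌊(Y : ℝ) / ρ⌋₊ with hJ
  have hJup : (J : ℝ) ≤ Y / ρ := Nat.floor_le (by positivity)
  have hJlo : (Y : ℝ) / ρ < J + 1 := Nat.lt_floor_add_one _
  have hch : (((m + 1).choose 2 : ℕ) : ℝ) ≤ (μ * Y + 1) ^ 2 / 2 := by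
    have h1 := Nat.choose_le_pow_div (α := ℝ) 2 (m + 1)
    have h2 : ((Nat.factorial 2 : ℕ) : ℝ) = 2 := by norm_num [Nat.factorial]
    rw [h2] at h1
    refine h1.trans ?_
    push_cast
    gcongr
  have hneg1 : 0 ≤ μ * Y - 1 := by
    rw [div_lt_iff₀ hYpos] at hY3
    linarith
  have hneg2 : 0 ≤ c0 * (Y : ℝ) ^ 2 - 1 := by
    rw [div_lt_iff₀ hYpos] at hY4
    have : c0 * (Y : ℝ) ≤ c0 * (Y : ℝ) ^ 2 := by
      apply mul_le_mul_of_nonneg_left _ hc0.le
      calc (Y : ℝ) = Y ^ 1 := (pow_one _).symm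
        _ ≤ Y ^ 2 := pow_le_pow_right₀ hY1' (by norm_num)
    linarith
  have hprod : (μ * Y - 1) * (c0 * (Y : ℝ) ^ 2 - 1) ≤ (m : ℝ) * Hf2 c0 y0 Y :=
    mul_le_mul hmlo hHlo hneg2 (Nat.cast_nonneg m)
  have hsub : ((J : ℝ) + 1) * ((m + 1).choose 2 : ℕ) ≤ (Y / ρ + 1) * ((μ * Y + 1) ^ 2 / 2) := by
    apply mul_le_mul (by linarith) hch (by positivity) (by positivity)
  have hW : (μ * Y - 1) * (c0 * (Y : ℝ) ^ 2 - 1) - (Y / ρ + 1) * ((μ * Y + 1) ^ 2 / 2) =
      (Y : ℝ) ^ 3 * ((μ - (1 : ℝ) / Y) * (c0 - ((1 : ℝ) / Y) ^ 2) -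
      (1 / ρ + (1 : ℝ) / Y) * (μ + ((1 : ℝ) / Y)) ^ 2 / 2) := by
    field_simp
  have hWpos : 0 < (μ * Y - 1) * (c0 * (Y : ℝ) ^ 2 - 1) - (Y / ρ + 1) * ((μ * Y + 1) ^ 2 / 2) := by
    rw [hW]
    positivity
  have hle : (J + 1) * (m + 1).choose 2 ≤ m * Hf2 c0 y0 Y := by
    have : (((J + 1) * (m + 1).choose 2 : ℕ) : ℝ) ≤ ((m * Hf2 c0 y0 Y : ℕ) : ℝ) := by
      push_cast
      linarith
    exact_mod_cast this
  refine ⟨Y, m, J, m * Hf2 c0 y0 Y - (J + 1) * (m + 1).choose 2, hYY0, hYy0, ?_, ?_, ?_⟩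
  · rw [div_lt_iff₀ hρ] at hJlo
    linarith
  · omega
  · rw [Nat.cast_sub hle]
    push_cast
    have hs := sum_Hf2_lower hc0 y0 Y
    have h1 : (Y : ℝ) * Hf2 c0 y0 Y ≤ Y * (c0 * (Y : ℝ) ^ 2) :=
      mul_le_mul_of_nonneg_left hHup hYpos.le
    have h2 : κ * ((μ * Y - 1) * (c0 * (Y : ℝ) ^ 2 - 1) - (Y / ρ + 1) * ((μ * Y + 1) ^ 2 / 2)) ≤
        κ * ((m : ℝ) * Hf2 c0 y0 Y - ((J : ℝ) + 1) * ((m + 1).choose 2 : ℕ)) := by
      apply mul_le_mul_of_nonneg_left _ hκ.le
      linarith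
    have h3 : (Y : ℝ) ^ 3 * g ((1 : ℝ) / Y) =
        κ * ((μ * Y - 1) * (c0 * (Y : ℝ) ^ 2 - 1) - (Y / ρ + 1) * ((μ * Y + 1) ^ 2 / 2)) -
        (2 / 3 * c0 * (Y : ℝ) ^ 3 + c0 / 2 * (Y : ℝ) ^ 2 + Y + c0 * (y0 : ℝ) ^ 3) := by
      rw [hW, hg]
      field_simp
    have h4 : 0 < (Y : ℝ) ^ 3 * g ((1 : ℝ) / Y) := by positivity
    rw [h3] at h4
    have h5 : (Y : ℝ) * (c0 * (Y : ℝ) ^ 2) = c0 * (Y : ℝ) ^ 3 := by ring
    have h6 : c0 * ((Y : ℝ) ^ 3 / 3 - (Y : ℝ) ^ 2 / 2) =
      c0 * (Y : ℝ) ^ 3 / 3 - c0 / 2 * (Y : ℝ) ^ 2 := by ring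
    rw [h5] at h1
    rw [h6] at hs
    have h7 : (Y : ℝ) * Hf2 c0 y0 Y - ∑ y ∈ range Y, (Hf2 c0 y0 y : ℝ) ≤
      2 / 3 * c0 * (Y : ℝ) ^ 3 + c0 / 2 * (Y : ℝ) ^ 2 + Y + c0 * (y0 : ℝ) ^ 3 := by linarith
    calc _ ≤ _ := h7
      _ < κ * ((μ * Y - 1) * (c0 * (Y : ℝ) ^ 2 - 1) - (Y / ρ + 1) * ((μ * Y + 1) ^ 2 / 2)) := by
        linarith
      _ ≤ _ := h2

/-- the constant of the count on a curve -/
noncomputable def C2 (ρ δ w' : ℝ) : ℝ := δ / (2 * ρ) + w' / (2 * ρ ^ 2)

/-- normalised count -/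
noncomputable def Pc (ρ δ w' C ν x : ℝ) : ℝ :=
  (ν + x) * (δ * (1 - x) - C * x) + (w' - δ * ρ) * (ν * (ν + x) / 2)

theorem Pc_zero {ρ : ℝ} (hρ : 0 < ρ) (δ w' C : ℝ) : Pc ρ δ w' C (1 / ρ) 0 = C2 ρ δ w' := by
  unfold Pc C2
  field_simp
  ring

/-- the asymptotic count on a curve -/
theorem count_asym1 {ρ : ℝ} (hρ : 0 < ρ) (k : ℕ) (δ w' C : ℝ) (hδ : 0 ≤ δ) {c0 : ℝ}
    (hc0 : c0 < C2 ρ δ w') :
    ∃ y0 : ℕ, ∀ y : ℕ, y0 ≤ y → ∃ n : ℕ, ρ * n ≤ y ∧ ∀ D : ℕ → ℕ → ℕ,
      (∀ j m, k ≤ m → δ * m + w' * j ≤ D j m + C) →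
      c0 * (y : ℝ) ^ 2 ≤ ((∑ j ∈ range (n + 1), D j ⌊(y : ℝ) - ρ * j⌋₊ : ℕ) : ℝ) := by
  have hcont : Continuous fun p : ℝ × ℝ => Pc ρ δ w' C p.1 p.2 := by
    unfold Pc
    fun_prop
  have hlim1 : Tendsto (fun y : ℕ => (1 : ℝ) / y) atTop (𝓝 0) :=
    tendsto_one_div_atTop_nhds_zero_nat
  set n : ℕ → ℕ := fun y => ⌊((y : ℝ) - k) / ρ⌋₊ with hn
  have hev : ∀ᶠ y : ℕ in atTop, (k : ℝ) ≤ y := by
    filter_upwards [eventually_ge_atTop k] with y hy
    exact_mod_cast hy
  have hup : ∀ᶠ y : ℕ in atTop, (n y : ℝ) / y ≤ (1 / ρ) * (1 - k * (1 / y)) := by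
    filter_upwards [hev, eventually_gt_atTop 0] with y hy hy0
    have hy' : (0 : ℝ) < y := by exact_mod_cast hy0
    have h1 : (n y : ℝ) ≤ ((y : ℝ) - k) / ρ :=
      Nat.floor_le (div_nonneg (by linarith) hρ.le)
    rw [div_le_iff₀ hy']
    calc (n y : ℝ) ≤ ((y : ℝ) - k) / ρ := h1
      _ = _ := by field_simp
  have hlo : ∀ᶠ y : ℕ in atTop, (1 / ρ) * (1 - k * (1 / y)) - 1 / y ≤ (n y : ℝ) / y := by
    filter_upwards [hev, eventually_gt_atTop 0] with y hy hy0
    have hy' : (0 : ℝ) < y := by exact_mod_cast hy0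
    have h1 : ((y : ℝ) - k) / ρ - 1 ≤ n y := (Nat.sub_one_lt_floor _).le
    rw [le_div_iff₀ hy']
    calc _ = ((y : ℝ) - k) / ρ - 1 := by field_simp
      _ ≤ _ := h1
  have hlimn : Tendsto (fun y : ℕ => (n y : ℝ) / y) atTop (𝓝 (1 / ρ)) := by
    refine tendsto_of_tendsto_of_tendsto_of_le_of_le' ?_ ?_ hlo hup
    · have := ((hlim1.const_mul (k : ℝ)).const_sub 1).const_mul (1 / ρ)
      have h2 := this.sub hlim1
      simpa using h2
    · have := ((hlim1.const_mul (k : ℝ)).const_sub 1).const_mul (1 / ρ)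
      simpa using this
  have hlim : Tendsto (fun y : ℕ => Pc ρ δ w' C ((n y : ℝ) / y) (1 / y)) atTop
      (𝓝 (C2 ρ δ w')) := by
    have hpair : Tendsto (fun y : ℕ => (((n y : ℝ) / y, (1 : ℝ) / y) : ℝ × ℝ)) atTop
        (𝓝 ((1 / ρ, 0) : ℝ × ℝ)) := hlimn.prodMk_nhds hlim1
    have h9 : Tendsto (fun p : ℝ × ℝ => Pc ρ δ w' C p.1 p.2) (𝓝 ((1 / ρ, 0) : ℝ × ℝ))
        (𝓝 (C2 ρ δ w')) := by
      rw [← Pc_zero hρ δ w' C]
      exact hcont.tendsto ((1 / ρ, 0) : ℝ × ℝ)
    have h10 := h9.comp hpair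
    rw [Function.comp_def] at h10
    exact h10
  have hev2 := hlim.eventually (lt_mem_nhds hc0)
  obtain ⟨y0, hy0⟩ := eventually_atTop.1 (hev2.and (hev.and (eventually_gt_atTop 0)))
  refine ⟨y0, fun y hy => ⟨n y, ?_, ?_⟩⟩
  · obtain ⟨-, h2, h3⟩ := hy0 y hy
    have h1 : (n y : ℝ) ≤ ((y : ℝ) - k) / ρ :=
      Nat.floor_le (div_nonneg (by linarith) hρ.le)
    rw [le_div_iff₀ hρ] at h1
    have hk0 : (0 : ℝ) ≤ k := Nat.cast_nonneg k
    linarith
  · intro D hD
    obtain ⟨h1, h2, h3⟩ := hy0 y hy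
    have hy' : (0 : ℝ) < y := by exact_mod_cast h3
    have h4 : (n y : ℝ) ≤ ((y : ℝ) - k) / ρ :=
      Nat.floor_le (div_nonneg (by linarith) hρ.le)
    rw [le_div_iff₀ hρ] at h4
    have h5 : ∀ j ∈ range (n y + 1), δ * ((y : ℝ) - 1 - ρ * j) + w' * j - C ≤
        (D j ⌊(y : ℝ) - ρ * j⌋₊ : ℝ) := by
      intro j hj
      have hjn : (j : ℝ) ≤ n y := by
        have := Finset.mem_range.1 hj
        exact_mod_cast Nat.lt_succ_iff.1 this
      have hpos : (k : ℝ) ≤ (y : ℝ) - ρ * j := by nlinarith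
      have hm1 : k ≤ ⌊(y : ℝ) - ρ * j⌋₊ := Nat.le_floor hpos
      have hm2 : (y : ℝ) - ρ * j - 1 < ⌊(y : ℝ) - ρ * j⌋₊ := Nat.sub_one_lt_floor _
      have := hD j _ hm1
      nlinarith
    have h6 : ∑ j ∈ range (n y + 1), (δ * ((y : ℝ) - 1 - ρ * j) + w' * j - C) =
        (y : ℝ) ^ 2 * Pc ρ δ w' C ((n y : ℝ) / y) (1 / y) := by
      have h7 : ∀ j : ℕ, δ * ((y : ℝ) - 1 - ρ * j) + w' * j - C =
          (δ * ((y : ℝ) - 1) - C) + (w' - δ * ρ) * j := by
        intro j; ring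
      rw [Finset.sum_congr rfl fun j _ => h7 j, Finset.sum_add_distrib, ← Finset.mul_sum, sum_id,
        Finset.sum_const, Finset.card_range, nsmul_eq_mul]
      unfold Pc
      push_cast
      field_simp
    have h8 : c0 * (y : ℝ) ^ 2 ≤ (y : ℝ) ^ 2 * Pc ρ δ w' C ((n y : ℝ) / y) (1 / y) := by
      nlinarith [pow_pos hy' 2]
    refine h8.trans ?_
    rw [← h6]
    push_cast
    exact Finset.sum_le_sum h5

/-- numerics for the functions of `t` alone -/
theorem exists_params0 {κ : ℝ} (δ C : ℕ) (hκ : 0 < κ) (hthr : 1 < κ * δ) (Y0 : ℕ) :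
    ∃ Y m w : ℕ, Y0 ≤ Y ∧ w + (0 + 1) * (m + 1).choose 2 ≤ m * (δ * Y - C) ∧
      (Y : ℝ) * ((δ * Y - C : ℕ) : ℝ) - ∑ y ∈ range Y, ((δ * y - C : ℕ) : ℝ) < κ * w := by
  have hδ : (0 : ℝ) < δ := by
    by_contra h
    push Not at h
    nlinarith
  have hδN : 1 ≤ δ := by
    have : 0 < δ := by exact_mod_cast hδ
    exact this
  set g : ℝ → ℝ := fun x => κ * ((δ - C * x) * (δ - (C + 1) * x) / 2) -
    (δ / 2 + δ * x) with hg
  have hgc : Continuous g := by
    rw [hg]; fun_prop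
  have hg0 : 0 < g 0 := by
    rw [hg]
    simp only [mul_zero, sub_zero, add_zero]
    nlinarith
  have hlim1 : Tendsto (fun y : ℕ => (1 : ℝ) / y) atTop (𝓝 0) :=
    tendsto_one_div_atTop_nhds_zero_nat
  have hlim2 : Tendsto (fun y : ℕ => g ((1 : ℝ) / y)) atTop (𝓝 (g 0)) :=
    (hgc.tendsto 0).comp hlim1
  have hev1 := hlim2.eventually (lt_mem_nhds hg0)
  obtain ⟨Y, hY1, hY2⟩ := (hev1.and (eventually_ge_atTop (max Y0 (C + 1)))).exists
  have hYpos : (0 : ℝ) < Y := by
    have : 0 < Y := by omega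
    exact_mod_cast this
  have hCY : C + 1 ≤ δ * Y := by
    calc C + 1 ≤ Y := by omega
      _ = 1 * Y := by ring
      _ ≤ δ * Y := Nat.mul_le_mul_right _ hδN
  set s : ℕ := δ * Y - C with hs
  have hs1 : 1 ≤ s := by omega
  have hsR : (s : ℝ) = δ * Y - C := by
    rw [hs, Nat.cast_sub (by omega)]
    push_cast
    ring
  have hch : (s + 1).choose 2 ≤ s * s := by
    rw [Nat.choose_two_right, Nat.add_sub_cancel]
    apply Nat.div_le_of_le_mul
    nlinarith
  refine ⟨Y, s, s * s - (s + 1).choose 2, by omega, ?_, ?_⟩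
  · rw [← hs, Nat.zero_add, one_mul]
    omega
  rw [Nat.cast_sub hch]
  have hch2 : (((s + 1).choose 2 : ℕ) : ℝ) = s * (s + 1) / 2 := by
    rw [Nat.cast_choose_two]
    push_cast
    ring
  rw [hch2]
  push_cast
  have hsum : (δ : ℝ) * ((Y : ℝ) * (Y - 1) / 2) - C * Y ≤
      ∑ y ∈ range Y, ((δ * y - C : ℕ) : ℝ) := by
    have h1 : ∀ y ∈ range Y, (δ : ℝ) * y - C ≤ ((δ * y - C : ℕ) : ℝ) := by
      intro y _
      have h2 : δ * y ≤ (δ * y - C) + C := by omega
      have h3 : ((δ * y : ℕ) : ℝ) ≤ (((δ * y - C) + C : ℕ) : ℝ) := by exact_mod_cast h2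
      push_cast at h3
      linarith
    refine le_trans (le_of_eq ?_) (Finset.sum_le_sum h1)
    have h2 : ∑ y ∈ range Y, (y : ℝ) = (Y : ℝ) * (Y - 1) / 2 := by
      clear h1 hch2 hsR hs1 hs hCY hYpos hY2 hY1 hch
      clear_value s
      induction Y with
      | zero => simp
      | succ n ih => rw [Finset.sum_range_succ, ih]; push_cast; ring
    rw [Finset.sum_sub_distrib, ← Finset.mul_sum, h2, Finset.sum_const, Finset.card_range,
      nsmul_eq_mul]
    ring
  have h4 : 0 < (Y : ℝ) ^ 2 * g ((1 : ℝ) / Y) := by positivity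
  have h5 : (Y : ℝ) ^ 2 * g ((1 : ℝ) / Y) =
      κ * ((δ * Y - C) * (δ * Y - (C + 1)) / 2) - (δ * Y ^ 2 / 2 + δ * Y) := by
    rw [hg]
    field_simp
  rw [h5] at h4
  rw [hsR]
  nlinarith

end Crest.Agent.R022.Free712
end

-- ▼ part R022/Free712E
section

/-!
# R022, stage 3 (helper712), part E: families of monomials on a curve
-/

set_option autoImplicit false

namespace Crest.Agent.R022.Free712

open Module Finset Filter Topology Crest.Agent.R022.Cnt Polynomial

/-- The family for `n` free over a curve, from a lower bound for the dimensions of the `Wsp`. -/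
theorem exists_family1 {k : ℕ} {ρ κ δ w' C : ℝ} (hρ : 0 < ρ) (hκ : 0 < κ) (hδ : 0 ≤ δ)
    (hthr : (4 / 3 : ℝ) < κ * (C2 ρ δ w' * ρ)) :
    ∃ Y m J w s : ℕ, (Y : ℝ) < ρ * (J + 1) ∧ w + (J + 1) * (m + 1).choose 2 ≤ m * s ∧
      ∃ W : ℝ, W < κ * w ∧
      ∀ (F : Type) [Field F] (R : Type) [CommRing R] [IsDomain R] [Algebra F R]
        (ι : Type) [Fintype ι] [DecidableEq ι] (Z : ℕ → Submodule F R)
        (_ : ∀ m, FiniteDimensional F (Z m)) (α : ι → R) (_ : ∀ i, α i ≠ 0) (mo : ℕ × ℕ → R)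
        (_ : ∀ m, Z m ≤ Submodule.span F (mo '' (Ex2 m : Set (ℕ × ℕ))))
        (_ : ∀ j m : ℕ, k ≤ m → δ * m + w' * j ≤ (finrank F (Wsp k Z α univ j m) : ℝ) + C)
        (κ' : Type) [Fintype κ'] [DecidableEq κ'] (B : κ' → R[X])
          (c : ι → R[X]) (μ : F), μ ≠ 0 → (∀ l, (B l).natDegree ≤ 1) →
          (∀ i, (c i).natDegree ≤ 1) →
          (∀ i, (c i).coeff 1 = algebraMap F R μ * ∏ i' ∈ univ.erase i, α i' ^ k) →
          (∀ i, c i ∈ Submodule.span F (Set.range B)) →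
          ∃ T : Finset ((ℕ × ℕ) × (κ' → ℕ)), T.card = s ∧
            (∀ ω ∈ T, wt ρ ω ≤ Y ∧ ∑ l, ω.2 l ≤ J) ∧
            LinearIndepOn F (mon k J α mo B) (T : Set ((ℕ × ℕ) × (κ' → ℕ))) ∧
            ∑ ω ∈ T, wt ρ ω ≤ W := by
  -- the constant c0
  set cmin : ℝ := (4 / 3 : ℝ) / (κ * ρ) with hcmin
  have hden : 0 < κ * ρ := by positivity
  have hcm0 : 0 < cmin := by positivity
  have hcm : cmin < C2 ρ δ w' := by
    rw [hcmin, div_lt_iff₀ hden]
    nlinarith
  obtain ⟨c0, hc1, hc2⟩ := exists_between hcm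
  have hc0 : 0 < c0 := hcm0.trans hc1
  have hthr' : (4 / 3 : ℝ) < κ * (c0 * ρ) := by
    rw [hcmin, div_lt_iff₀ hden] at hc1
    nlinarith
  obtain ⟨y0, hy0⟩ := count_asym1 hρ k δ w' C hδ hc2
  obtain ⟨Y, m, J, w, -, hYy0, hJ, hw, hW⟩ := exists_params1 hρ hκ hc0 hthr' y0 0
  refine ⟨Y, m, J, w, Hf2 c0 y0 Y, hJ, hw, _, hW, ?_⟩
  intro F _ R _ _ _ ι _ _ Z hfinZ α hα mo hEx hD κ' _ _ B c μ hμ hB hc hc1' hcB
  choose! n hn1 hn2 using hy0
  set T : ℕ → Finset ((ℕ × ℕ) × (κ' → ℕ)) := fun y =>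
    if y < y0 then ∅ else idxs κ' Ex2 (fun j => ⌊(y : ℝ) - ρ * j⌋₊) (n y + 1) with hT
  have hTw : ∀ y, ∀ ω ∈ T y, wt ρ ω ≤ y := by
    intro y ω hω
    simp only [hT] at hω
    split_ifs at hω with h
    · exact absurd hω (Finset.notMem_empty _)
    · rw [mem_idxs, mem_Ex2] at hω
      obtain ⟨h1, h2⟩ := hω
      have h3 := hn1 y (not_lt.1 h)
      have h4 : ((∑ l, ω.2 l : ℕ) : ℝ) ≤ n y := by
        exact_mod_cast Nat.lt_succ_iff.1 h1
      have h5 : (0 : ℝ) ≤ (y : ℝ) - ρ * ((∑ l, ω.2 l : ℕ) : ℝ) := by nlinarith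
      have h6 := Nat.floor_le h5
      have h7 : ((ω.1.1 + ω.1.2 : ℕ) : ℝ) ≤ ⌊(y : ℝ) - ρ * ((∑ l, ω.2 l : ℕ) : ℝ)⌋₊ := by
        exact_mod_cast h2
      unfold wt
      linarith
  have hdim : ∀ y ≤ Y, Hf2 c0 y0 y ≤
      finrank F (Submodule.span F (mon k J α mo B '' (T y : Set _))) := by
    intro y _
    by_cases h : y < y0
    · unfold Hf2
      rw [if_pos h]
      exact Nat.zero_le _
    · have h1 := fam_dim (F := F) (k := k) (J := J) (α := α) hα (mo := mo) (Z := Z)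
        hfinZ (Ex := Ex2) hEx (D := fun j m => finrank F (Wsp k Z α univ j m))
        (fun j m => le_rfl)
        hμ hB hc hc1' hcB (fun j => ⌊(y : ℝ) - ρ * j⌋₊) (n y + 1)
      have hTy : T y = idxs κ' Ex2 (fun j => ⌊(y : ℝ) - ρ * j⌋₊) (n y + 1) := by
        simp only [hT, if_neg h]
      rw [hTy]
      refine le_trans ?_ h1
      have h2 := hn2 y (not_lt.1 h) (fun j m => finrank F (Wsp k Z α univ j m)) hD
      unfold Hf2
      rw [if_neg h]
      exact Nat.floor_le_of_le h2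
  obtain ⟨s, h1, h2, h3, h4⟩ := exists_greedy (F := F) (x := mon k J α mo B)
    (wt ρ) T hTw (Hf2 c0 y0) (Hf2_mono hc0 y0) Y hdim
  refine ⟨s, h2, ?_, h3, h4⟩
  intro ω hω
  obtain ⟨y, hyY, hy⟩ := h1 ω hω
  have h5 := hTw y ω hy
  have h6 : (y : ℝ) ≤ Y := by exact_mod_cast hyY
  refine ⟨h5.trans h6, ?_⟩
  by_contra hlt
  push Not at hlt
  have h7 : ((J : ℝ) + 1) ≤ ((∑ l, ω.2 l : ℕ) : ℝ) := by exact_mod_cast hlt
  have h8 : ρ * ((∑ l, ω.2 l : ℕ) : ℝ) ≤ wt ρ ω := by
    unfold wt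
    have : (0 : ℝ) ≤ ((ω.1.1 + ω.1.2 : ℕ) : ℝ) := Nat.cast_nonneg _
    linarith
  nlinarith

/-- The family of monomials in `t` alone on a curve of degree `δ`. The output is phrased with the
same index type as `exists_family1` (all exponents of the `b`'s vanish). -/
theorem exists_family0 {κ : ℝ} (δ C : ℕ) (hκ : 0 < κ) (hthr : 1 < κ * δ) (ρ : ℝ) :
    ∃ Y m w s : ℕ, w + (0 + 1) * (m + 1).choose 2 ≤ m * s ∧
      ∃ W : ℝ, W < κ * w ∧
      ∀ (F : Type) [Field F] (R : Type) [CommRing R] [IsDomain R] [Algebra F R]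
        (ι : Type) [Fintype ι] [DecidableEq ι] (k : ℕ) (Z : ℕ → Submodule F R)
        (_ : ∀ m, FiniteDimensional F (Z m)) (α : ι → R) (_ : ∀ i, α i ≠ 0) (mo : ℕ × ℕ → R)
        (_ : ∀ m, Z m ≤ Submodule.span F (mo '' (Ex2 m : Set (ℕ × ℕ))))
        (_ : ∀ m : ℕ, δ * m ≤ finrank F (Z m) + C)
        (κ' : Type) [Fintype κ'] [DecidableEq κ'] (B : κ' → R[X]),
          ∃ T : Finset ((ℕ × ℕ) × (κ' → ℕ)), T.card = s ∧
            (∀ ω ∈ T, wt ρ ω ≤ Y ∧ ω.2 = 0) ∧
            LinearIndepOn F (mon k 0 α mo B) (T : Set ((ℕ × ℕ) × (κ' → ℕ))) ∧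
            ∑ ω ∈ T, wt ρ ω ≤ W := by
  classical
  obtain ⟨Y, m, w, -, hw, hW⟩ := exists_params0 δ C hκ hthr 0
  refine ⟨Y, m, w, δ * Y - C, hw, _, hW, ?_⟩
  intro F _ R _ _ _ ι _ _ k Z hfinZ α hα mo hEx hdimZ κ' _ _ B
  set T : ℕ → Finset ((ℕ × ℕ) × (κ' → ℕ)) := fun y =>
    (Ex2 y).image (fun e => (e, (0 : κ' → ℕ))) with hT
  have hmon : ∀ e : ℕ × ℕ, mon k 0 α mo B (e, (0 : κ' → ℕ)) = Polynomial.C (mo e) := by
    intro e
    unfold mon
    simp
  have hTw : ∀ y, ∀ ω ∈ T y, wt ρ ω ≤ y := by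
    intro y ω hω
    simp only [hT, Finset.mem_image] at hω
    obtain ⟨e, he, rfl⟩ := hω
    rw [mem_Ex2] at he
    unfold wt
    simp only [Pi.zero_apply, Finset.sum_const_zero, Nat.cast_zero, mul_zero, add_zero]
    exact_mod_cast he
  have hmono : Monotone (fun y : ℕ => δ * y - C) := by
    intro a b hab
    have : δ * a ≤ δ * b := Nat.mul_le_mul_left _ hab
    simp only
    omega
  have hdim : ∀ y ≤ Y, δ * y - C ≤
      finrank F (Submodule.span F (mon k 0 α mo B '' (T y : Set _))) := by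
    intro y _
    have h1 := hdimZ y
    have hfz := hfinZ y
    -- embed `Z y` by constants
    have h2 : (Z y).map ((Polynomial.CAlgHom (R := F) (A := R)).toLinearMap) ≤
        Submodule.span F (mon k 0 α mo B '' (T y : Set _)) := by
      refine (Submodule.map_mono (hEx y)).trans ?_
      rw [Submodule.map_span, Submodule.span_le]
      rintro _ ⟨_, ⟨e, he, rfl⟩, rfl⟩
      refine Submodule.subset_span ⟨(e, 0), ?_, ?_⟩
      · simp only [hT, Finset.coe_image]
        exact ⟨e, he, rfl⟩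
      · rw [hmon]; rfl
    have hfd : FiniteDimensional F (Submodule.span F (mon k 0 α mo B '' (T y : Set _))) :=
      FiniteDimensional.span_of_finite F ((T y).finite_toSet.image _)
    have h3 := Submodule.finrank_mono h2
    have hinj : Function.Injective ((Polynomial.CAlgHom (R := F) (A := R)).toLinearMap) := by
      intro a b hab
      exact Polynomial.C_injective hab
    have h4 : finrank F ((Z y).map ((Polynomial.CAlgHom (R := F) (A := R)).toLinearMap)) =
        finrank F (Z y) := by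
      have e := Submodule.equivMapOfInjective _ hinj (Z y)
      exact e.finrank_eq.symm
    rw [h4] at h3
    omega
  obtain ⟨s, h1, h2, h3, h4⟩ := exists_greedy (F := F) (x := mon k 0 α mo B)
    (wt ρ) T hTw (fun y => δ * y - C) hmono Y hdim
  refine ⟨s, h2, ?_, h3, h4⟩
  intro ω hω
  obtain ⟨y, hyY, hy⟩ := h1 ω hω
  have h5 := hTw y ω hy
  have h6 : (y : ℝ) ≤ Y := by exact_mod_cast hyY
  refine ⟨h5.trans h6, ?_⟩
  simp only [hT, Finset.mem_image] at hy
  obtain ⟨e, _, rfl⟩ := hy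
  rfl

end Crest.Agent.R022.Free712
end

-- ▼ part R022/Free712A
section

/-!
# R022, stage 3 (helper712), part A

The ring of functions on a plane curve `h = 0`, its degree filtration, and the step bound for the
spaces `Wsp` in a general one-dimensional ring.
-/

set_option autoImplicit false

namespace Crest.Agent.R022.Free712

open Module Finset Crest.Agent.R022.Cnt

variable {F : Type*} [Field F] {ι : Type*} [DecidableEq ι]

section step

variable {R S : Type*} [CommRing R] [IsDomain R] [Algebra F R] [CommRing S] [Algebra F S]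

/-- adding one more form `α i₀`: general version with a ring homomorphism `ψ` killing `α i₀`, under
which the other forms are non zero divisors. -/
theorem step_ring {k j m : ℕ} {Z : ℕ → Submodule F R} {α : ι → R} {I : Finset ι} {i₀ : ι}
    (hi₀ : i₀ ∉ I) (hI : I.Nonempty) (hfin : ∀ m, FiniteDimensional F (Z m))
    (hmul : ∀ m, ∀ z ∈ Z m, α i₀ * z ∈ Z (m + 1)) (hπ : α i₀ ≠ 0)
    (ψ : R →ₐ[F] S) (hψ : ψ (α i₀) = 0)
    (hu : ∀ i ∈ I, ∀ y : S, ψ (α i) * y = 0 → y = 0)
    (D' : ℕ → ℕ) (hD' : ∀ m', D' m' ≤ finrank F ((Z m').map ψ.toLinearMap)) :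
    finrank F (Wsp k Z α I j m) + j * ∑ s ∈ range (min k (m + 1)), D' (m - s) ≤
      finrank F (Wsp k Z α (insert i₀ I) j m) := by
  classical
  have hfinm := hfin m
  set V := Wsp k Z α (insert i₀ I) j m with hV
  set π : R := α i₀ with hπdef
  have hψ' : ∀ y, ψ.toLinearMap (π * y) = 0 := by
    intro y
    rw [AlgHom.toLinearMap_apply, map_mul, hψ, zero_mul]
  have hchain := finrank_chain V hπ ψ.toLinearMap hψ' (k * j)
  -- powers of π raise the degree
  have hpow : ∀ s : ℕ, ∀ m', ∀ z ∈ Z m', π ^ s * z ∈ Z (m' + s) := by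
    intro s
    induction s with
    | zero => intro m' z hz; simpa using hz
    | succ s ih =>
      intro m' z hz
      have h1 := hmul _ _ (ih m' z hz)
      have h2 : π ^ (s + 1) * z = π * (π ^ s * z) := by ring
      rw [h2]
      exact h1
  -- last term
  have hlast : finrank F (Wsp k Z α I j m) ≤
      finrank F (V.comap (LinearMap.mulLeft F (π ^ (k * j)))) := by
    have hfd := finite_comap_mul V (pow_ne_zero (k * j) hπ)
    refine Submodule.finrank_mono (Wsp_le ?_)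
    intro f hf z hz
    rw [Submodule.mem_comap, LinearMap.mulLeft_apply]
    rw [Finset.mem_piAntidiag] at hf
    have hf0 : f i₀ = 0 := by
      by_contra h
      exact hi₀ (hf.2 i₀ h)
    have hmem : f ∈ (insert i₀ I).piAntidiag j := by
      rw [Finset.mem_piAntidiag]
      refine ⟨?_, fun i hi => Finset.mem_insert_of_mem (hf.2 i hi)⟩
      rw [Finset.sum_insert hi₀, hf0, zero_add]
      exact hf.1
    have := mem_Wsp (F := F) (k := k) (Z := Z) (α := α) hmem hz
    rw [Finset.prod_insert hi₀, hf0, Nat.sub_zero] at this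
    rw [← mul_assoc]
    exact this
  -- middle terms
  obtain ⟨i₁, hi₁⟩ := hI
  have hne : i₀ ≠ i₁ := fun h => hi₀ (h ▸ hi₁)
  have hmid : ∀ l ∈ range j, ∀ s ∈ range (min k (m + 1)), D' (m - s) ≤
      finrank F ((V.comap (LinearMap.mulLeft F (π ^ (k * l + s)))).map ψ.toLinearMap) := by
    intro l hl s hs
    rw [Finset.mem_range] at hl hs
    have hsm : s ≤ m := by omega
    refine (hD' (m - s)).trans ?_
    have hfd := finite_comap_mul V (pow_ne_zero (k * l + s) hπ)
    -- exponent vector: `l` at `i₁`, `j - l` at `i₀`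
    obtain ⟨f, hf⟩ : ∃ f : ι → ℕ, f = Function.update (Pi.single i₁ l : ι → ℕ) i₀ (j - l) :=
      ⟨_, rfl⟩
    have hfi₀ : f i₀ = j - l := by rw [hf, Function.update_self]
    have hfi : ∀ i, i ≠ i₀ → f i = (Pi.single i₁ l : ι → ℕ) i := fun i hi => by
      rw [hf, Function.update_of_ne hi]
    have hmem : f ∈ (insert i₀ I).piAntidiag j := by
      rw [Finset.mem_piAntidiag]
      constructor
      · rw [Finset.sum_insert hi₀, hfi₀]
        have h1 : ∑ x ∈ I, f x = ∑ x ∈ I, (Pi.single i₁ l : ι → ℕ) x :=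
          Finset.sum_congr rfl fun x hx => hfi x (fun h => hi₀ (h ▸ hx))
        rw [h1, Finset.sum_eq_single i₁]
        · rw [Pi.single_eq_same]; omega
        · intro b _ hb
          exact Pi.single_eq_of_ne hb _
        · intro h
          exact absurd hi₁ h
      · intro i hi
        by_cases h : i = i₀
        · rw [h]; exact Finset.mem_insert_self _ _
        · rw [hfi i h] at hi
          by_cases h2 : i = i₁
          · rw [h2]; exact Finset.mem_insert_of_mem hi₁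
          · exact absurd (Pi.single_eq_of_ne h2 _) hi
    set c : R := ∏ i ∈ I, α i ^ (k * (j - f i)) with hc
    have hcinj : ∀ (e : ι → ℕ) (T : Finset ι), T ⊆ I → ∀ y : S, ψ (∏ i ∈ T, α i ^ e i) * y = 0 →
        y = 0 := by
      intro e T
      induction T using Finset.induction_on with
      | empty => intro _ y hy; simpa using hy
      | insert i T hiT ih =>
        intro hTI y hy
        rw [Finset.prod_insert hiT, map_mul, mul_assoc, map_pow] at hy
        have hiI : i ∈ I := hTI (Finset.mem_insert_self _ _)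
        have hpw : ∀ n : ℕ, ∀ y : S, ψ (α i) ^ n * y = 0 → y = 0 := by
          intro n
          induction n with
          | zero => intro y hy; simpa using hy
          | succ n ihn =>
            intro y hy
            rw [pow_succ', mul_assoc] at hy
            exact ihn _ (hu i hiI _ hy)
        exact ih (fun x hx => hTI (Finset.mem_insert_of_mem hx)) _ (hpw _ _ hy)
    have hsub : (Z (m - s)).map ψ.toLinearMap ≤
        ((V.comap (LinearMap.mulLeft F (π ^ (k * l + s)))).map ψ.toLinearMap).comap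
          (LinearMap.mulLeft F (ψ c)) := by
      rintro _ ⟨z', hz', rfl⟩
      rw [Submodule.mem_comap, LinearMap.mulLeft_apply, Submodule.mem_map]
      refine ⟨c * z', ?_, ?_⟩
      · rw [Submodule.mem_comap, LinearMap.mulLeft_apply]
        have hz : π ^ s * z' ∈ Z m := by
          have := hpow s (m - s) _ hz'
          rwa [Nat.sub_add_cancel hsm] at this
        have := mem_Wsp (F := F) (k := k) (Z := Z) (α := α) hmem hz
        rw [Finset.prod_insert hi₀, hfi₀] at this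
        have h3 : j - (j - l) = l := by omega
        rw [h3, ← hπdef, ← hc] at this
        have h4 : π ^ (k * l + s) * (c * z') = π ^ (k * l) * c * (π ^ s * z') := by
          rw [pow_add]; ring
        rw [h4]
        exact this
      · rw [AlgHom.toLinearMap_apply, AlgHom.toLinearMap_apply, map_mul]
    have hinj : Function.Injective (LinearMap.mulLeft F (ψ c)) := by
      rw [injective_iff_map_eq_zero]
      intro y hy
      rw [LinearMap.mulLeft_apply] at hy
      exact hcinj _ I (Finset.Subset.refl _) y hy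
    have hfd' : FiniteDimensional F (Z (m - s)) := hfin _
    have := LinearMap.finrank_le_finrank_of_injective
      (f := (LinearMap.mulLeft F (ψ c)).restrict (p := (Z (m - s)).map ψ.toLinearMap)
        (q := (V.comap (LinearMap.mulLeft F (π ^ (k * l + s)))).map ψ.toLinearMap)
        (fun x hx => hsub hx)) (by
        intro x y h
        apply Subtype.ext
        apply hinj
        have := congrArg Subtype.val h
        simpa using this)
    exact this
  have hmid2 : j * ∑ s ∈ range (min k (m + 1)), D' (m - s) ≤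
      ∑ e ∈ range (k * j),
        finrank F ((V.comap (LinearMap.mulLeft F (π ^ e))).map ψ.toLinearMap) := by
    rw [sum_range_mul_le]
    have h1 : j * ∑ s ∈ range (min k (m + 1)), D' (m - s) =
        ∑ l ∈ range j, ∑ s ∈ range (min k (m + 1)), D' (m - s) := by
      rw [Finset.sum_const, Finset.card_range, smul_eq_mul]
    rw [h1]
    refine Finset.sum_le_sum fun l hl => ?_
    refine (Finset.sum_le_sum (hmid l hl)).trans ?_
    refine Finset.sum_le_sum_of_subset ?_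
    intro s hs
    rw [Finset.mem_range] at *
    omega
  omega

omit [IsDomain R] in
/-- The space for a singleton contains `Z m`. -/
theorem le_Wsp_singleton {k : ℕ} {Z : ℕ → Submodule F R} {α : ι → R} {i₁ : ι} (j m : ℕ) :
    Z m ≤ Wsp k Z α {i₁} j m := by
  intro z hz
  have hmem : (Pi.single i₁ j : ι → ℕ) ∈ ({i₁} : Finset ι).piAntidiag j := by
    rw [Finset.mem_piAntidiag]
    constructor
    · simp
    · intro i hi
      by_contra h
      rw [Finset.mem_singleton] at h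
      exact hi (Pi.single_eq_of_ne h _)
  have := mem_Wsp (F := F) (k := k) (α := α) hmem hz
  simpa using this

/-- Enlarging the index set does not decrease the dimension. -/
theorem finrank_Wsp_mono {k j m : ℕ} {Z : ℕ → Submodule F R} {α : ι → R} {I I' : Finset ι}
    (hII : I ⊆ I') (hfin : ∀ m, FiniteDimensional F (Z m)) (hα : ∀ i ∈ I', α i ≠ 0) :
    finrank F (Wsp k Z α I j m) ≤ finrank F (Wsp k Z α I' j m) := by
  classical
  have hfinm := hfin m
  set c : R := ∏ i ∈ I' \ I, α i ^ (k * j) with hc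
  have hc0 : c ≠ 0 := Finset.prod_ne_zero_iff.mpr fun i hi =>
    pow_ne_zero _ (hα i (Finset.mem_sdiff.1 hi).1)
  have hsub : Wsp k Z α I j m ≤ (Wsp k Z α I' j m).comap (LinearMap.mulLeft F c) := by
    refine Wsp_le ?_
    intro f hf z hz
    rw [Submodule.mem_comap, LinearMap.mulLeft_apply]
    rw [Finset.mem_piAntidiag] at hf
    have hf0 : ∀ i ∉ I, f i = 0 := fun i hi => by
      by_contra h
      exact hi (hf.2 i h)
    have hmem : f ∈ I'.piAntidiag j := by
      rw [Finset.mem_piAntidiag]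
      refine ⟨?_, fun i hi => hII (hf.2 i hi)⟩
      rw [← hf.1]
      symm
      exact Finset.sum_subset hII fun i _ hi => hf0 i hi
    have := mem_Wsp (F := F) (k := k) (Z := Z) (α := α) hmem hz
    rw [← Finset.prod_sdiff hII] at this
    have h2 : ∏ x ∈ I' \ I, α x ^ (k * (j - f x)) = c := by
      rw [hc]
      refine Finset.prod_congr rfl fun x hx => ?_
      rw [hf0 x (Finset.mem_sdiff.1 hx).2, Nat.sub_zero]
    rw [h2, mul_assoc] at this
    exact this
  have hinj : Function.Injective (LinearMap.mulLeft F c) := by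
    intro x y h
    simpa [hc0] using h
  exact LinearMap.finrank_le_finrank_of_injective
    (f := (LinearMap.mulLeft F c).restrict (p := Wsp k Z α I j m)
      (q := Wsp k Z α I' j m) (fun x hx => hsub hx)) (by
      intro x y h
      apply Subtype.ext
      apply hinj
      have := congrArg Subtype.val h
      simpa using this)

end step

end Crest.Agent.R022.Free712
end

-- ▼ part R022/Free712B
section

/-!
# R022, stage 3 (helper712), part B

The ring `F[X₀,X₁]/(h)`, its degree filtration `Zq`, the dimension of `Zq h m`, the restriction to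
the lines `α_i = X₀ + θ_i X₁ + a_i = 0`.
-/

set_option autoImplicit false

namespace Crest.Agent.R022.Free712

open Module Finset Crest.Agent.R022.Cnt

variable {F : Type*} [Field F]

/-- polynomials of total degree `≤ m` in two variables -/
noncomputable def Zt (F : Type*) [Field F] (m : ℕ) : Submodule F (MvPolynomial (Fin 2) F) :=
  MvPolynomial.restrictTotalDegree (Fin 2) F m

theorem mem_Zt {m : ℕ} {p : MvPolynomial (Fin 2) F} : p ∈ Zt F m ↔ p.totalDegree ≤ m :=
  MvPolynomial.mem_restrictTotalDegree _ _ _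

instance Zt_finite (m : ℕ) : FiniteDimensional F (Zt F m) := by
  unfold Zt; infer_instance

/-- triangular numbers -/
def Tri (m : ℕ) : ℕ := ∑ a ∈ range (m + 1), (a + 1)

theorem Tri_succ (m : ℕ) : Tri (m + 1) = Tri m + (m + 2) := by
  unfold Tri
  rw [Finset.sum_range_succ]

theorem finrank_Zt (m : ℕ) : finrank F (Zt F m) = Tri m := by
  classical
  have hb := MvPolynomial.basisRestrictSupport F {n : Fin 2 →₀ ℕ | (n.sum fun _ e => e) ≤ m}
  have h1 : finrank F (Zt F m) = Nat.card {n : Fin 2 →₀ ℕ | (n.sum fun _ e => e) ≤ m} :=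
    Module.finrank_eq_nat_card_basis hb
  rw [h1]
  have e : {n : Fin 2 →₀ ℕ | (n.sum fun _ e => e) ≤ m} ≃
      ((range (m + 1)).sigma fun a => range (m + 1 - a)) := by
    refine
      { toFun := fun n => ⟨⟨n.1 0, n.1 1⟩, ?_⟩
        invFun := fun q => ⟨Finsupp.equivFunOnFinite.symm ![q.1.1, q.1.2], ?_⟩
        left_inv := ?_
        right_inv := ?_ }
    · have hn := n.2
      simp only [Set.mem_ofPred_eq] at hn
      rw [Finsupp.sum_fintype _ _ (fun _ => rfl), Fin.sum_univ_two] at hn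
      rw [Finset.mem_sigma, Finset.mem_range, Finset.mem_range]
      constructor <;> simp only <;> omega
    · have hq := q.2
      rw [Finset.mem_sigma, Finset.mem_range, Finset.mem_range] at hq
      simp only [Set.mem_ofPred_eq]
      rw [Finsupp.sum_fintype _ _ (fun _ => rfl), Fin.sum_univ_two]
      simp
      omega
    · intro n
      apply Subtype.ext
      ext i
      fin_cases i <;> simp
    · intro q
      apply Subtype.ext
      rcases q with ⟨⟨a, b⟩, hq⟩
      simp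
  rw [Nat.card_congr e, Nat.card_eq_fintype_card, Fintype.card_coe, Finset.card_sigma]
  unfold Tri
  rw [← Finset.sum_range_reflect]
  refine Finset.sum_congr rfl fun a ha => ?_
  rw [Finset.mem_range] at ha
  rw [Finset.card_range]
  omega

section curve

variable (h : MvPolynomial (Fin 2) F)

/-- the ring of functions on the curve `h = 0` -/
abbrev Rq : Type _ := MvPolynomial (Fin 2) F ⧸ Ideal.span ({h} : Set (MvPolynomial (Fin 2) F))

/-- functions of degree `≤ m` on the curve `h = 0` -/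
noncomputable def Zq (m : ℕ) : Submodule F (Rq h) :=
  (Zt F m).map (Ideal.Quotient.mkₐ F (Ideal.span ({h} : Set (MvPolynomial (Fin 2) F)))).toLinearMap

instance Zq_finite (m : ℕ) : FiniteDimensional F (Zq h m) := by
  unfold Zq; infer_instance

theorem mem_Zq_of {m : ℕ} {p : MvPolynomial (Fin 2) F} (hp : p.totalDegree ≤ m) :
    (Ideal.Quotient.mk (Ideal.span ({h} : Set (MvPolynomial (Fin 2) F))) p : Rq h) ∈ Zq h m :=
  ⟨p, mem_Zt.2 hp, rfl⟩

variable {h}

theorem isDomain_Rq (hh : Prime h) : IsDomain (Rq h) := by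
  have : (Ideal.span ({h} : Set (MvPolynomial (Fin 2) F))).IsPrime :=
    (Ideal.span_singleton_prime hh.ne_zero).2 hh
  exact Ideal.Quotient.isDomain _

theorem finrank_Zq (hh : h ≠ 0) (m : ℕ) (hm : h.totalDegree ≤ m) :
    Tri m ≤ finrank F (Zq h m) + Tri (m - h.totalDegree) := by
  classical
  set δ := h.totalDegree with hδ
  set mk := (Ideal.Quotient.mkₐ F (Ideal.span ({h} : Set (MvPolynomial (Fin 2) F)))).toLinearMap
    with hmk
  set φ : Zt F m →ₗ[F] Rq h := mk.comp (Zt F m).subtype with hφ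
  have hrk := φ.finrank_range_add_finrank_ker
  have hran : LinearMap.range φ = Zq h m := by
    rw [hφ, LinearMap.range_comp, Submodule.range_subtype]
    rfl
  rw [hran, finrank_Zt] at hrk
  -- the kernel embeds in the multiples of `h`
  let g : Zt F (m - δ) →ₗ[F] MvPolynomial (Fin 2) F :=
    (LinearMap.mulLeft F h).comp (Zt F (m - δ)).subtype
  have hker : (LinearMap.ker φ).map (Zt F m).subtype ≤ LinearMap.range g := by
    rintro _ ⟨p, hp, rfl⟩
    have hp0 : mk (p : MvPolynomial (Fin 2) F) = 0 := hp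
    have hdvd : h ∣ (p : MvPolynomial (Fin 2) F) := by
      rw [← Ideal.mem_span_singleton]
      exact Ideal.Quotient.eq_zero_iff_mem.1 hp0
    obtain ⟨q, hq⟩ := hdvd
    by_cases hq0 : q = 0
    · refine ⟨0, ?_⟩
      rw [map_zero]
      show (0 : MvPolynomial (Fin 2) F) = (p : MvPolynomial (Fin 2) F)
      rw [hq, hq0, mul_zero]
    · have hpd := mem_Zt.1 p.2
      rw [hq, MvPolynomial.totalDegree_mul_of_isDomain hh hq0] at hpd
      refine ⟨⟨q, mem_Zt.2 (by omega)⟩, ?_⟩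
      exact hq.symm
  have h1 : finrank F (LinearMap.ker φ) ≤ Tri (m - δ) := by
    have h2 : finrank F ((LinearMap.ker φ).map (Zt F m).subtype) = finrank F (LinearMap.ker φ) :=
      Submodule.finrank_map_subtype_eq _ _
    rw [← h2]
    refine (Submodule.finrank_mono hker).trans ?_
    refine (LinearMap.finrank_range_le g).trans ?_
    rw [finrank_Zt]
  omega

theorem finrank_Zq_ge (hh : h ≠ 0) (m : ℕ) :
    h.totalDegree * m ≤ finrank F (Zq h m) + h.totalDegree * h.totalDegree := by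
  rcases le_or_gt h.totalDegree m with hm | hm
  · have h1 := finrank_Zq hh m hm
    obtain ⟨q, rfl⟩ := Nat.exists_eq_add_of_le hm
    rw [Nat.add_sub_cancel_left] at h1
    have h2 : ∀ δ : ℕ, Tri q + δ * q ≤ Tri (δ + q) := by
      intro δ
      induction δ with
      | zero => simp
      | succ δ ih =>
        have h3 : δ + 1 + q = (δ + q) + 1 := by ring
        rw [h3, Tri_succ]
        nlinarith
    have h3 := h2 h.totalDegree
    nlinarith
  · nlinarith

/-- For curves of degree 1: `m + 1`. -/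
theorem finrank_Zq_one (h1 : h.totalDegree = 1) (m : ℕ) : m + 1 ≤ finrank F (Zq h m) := by
  have hh : h ≠ 0 := by
    rintro rfl
    simp at h1
  rcases Nat.eq_zero_or_pos m with rfl | hm
  · -- constants are non zero on the curve
    rw [Nat.zero_add, Nat.one_le_iff_ne_zero, Ne, Submodule.finrank_eq_zero]
    intro hbot
    have h2 : (Ideal.Quotient.mk (Ideal.span ({h} : Set (MvPolynomial (Fin 2) F))) 1 : Rq h) ∈
        Zq h 0 := mem_Zq_of h (by simp)
    rw [hbot, Submodule.mem_bot, Ideal.Quotient.eq_zero_iff_mem, Ideal.mem_span_singleton] at h2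
    have h3 := isUnit_of_dvd_one h2
    rw [MvPolynomial.isUnit_iff_eq_C_of_isReduced] at h3
    obtain ⟨r, _, hr⟩ := h3
    rw [hr] at h1
    simp at h1
  · obtain ⟨q, rfl⟩ : ∃ q, m = q + 1 := ⟨m - 1, by omega⟩
    have h2 := finrank_Zq hh (q + 1) (by omega)
    rw [h1, Nat.add_sub_cancel, Tri_succ] at h2
    omega

/-- For curves of degree 2: `2 m`. -/
theorem finrank_Zq_two (h1 : h.totalDegree = 2) (m : ℕ) : 2 * m ≤ finrank F (Zq h m) := by
  have hh : h ≠ 0 := by
    rintro rfl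
    simp at h1
  rcases le_or_gt 2 m with hm | hm
  · obtain ⟨q, rfl⟩ : ∃ q, m = q + 2 := ⟨m - 2, by omega⟩
    have h2 := finrank_Zq hh (q + 2) (by omega)
    rw [h1, Nat.add_sub_cancel, Tri_succ, Tri_succ] at h2
    omega
  · -- `m ≤ 1`: the functions of degree `≤ 1` are independent modulo `h`
    have hm1 : m = 0 ∨ m = 1 := by omega
    rcases hm1 with rfl | rfl
    · simp
    · have hinj : Function.Injective ((Ideal.Quotient.mkₐ F (Ideal.span
          ({h} : Set (MvPolynomial (Fin 2) F)))).toLinearMap.comp (Zt F 1).subtype) := by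
        rw [injective_iff_map_eq_zero]
        intro p hp
        have hp0 : (Ideal.Quotient.mk (Ideal.span ({h} : Set (MvPolynomial (Fin 2) F)))
          (p : MvPolynomial (Fin 2) F) : Rq h) = 0 := hp
        rw [Ideal.Quotient.eq_zero_iff_mem, Ideal.mem_span_singleton] at hp0
        by_contra hne
        have hne' : (p : MvPolynomial (Fin 2) F) ≠ 0 := fun h => hne (Subtype.ext h)
        have h2 := MvPolynomial.totalDegree_le_of_dvd_of_isDomain hp0 hne'
        have h3 := mem_Zt.1 p.2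
        omega
      have h2 : finrank F (Zt F 1) = finrank F (Zq h 1) := by
        have h3 := LinearMap.finrank_range_of_inj hinj
        rw [← h3, LinearMap.range_comp, Submodule.range_subtype]
        rfl
      rw [← h2, finrank_Zt]
      decide

end curve

end Crest.Agent.R022.Free712
end

-- ▼ part R022/Free712C
section

/-!
# R022, stage 3 (helper712), part C

Restriction to the lines `α_i = X₀ + θ_i X₁ + a_i = 0`; the dimension bounds for `Wsp` on a conic
(two of the forms) and on a line in general position (all the forms).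
-/

set_option autoImplicit false

namespace Crest.Agent.R022.Free712

open Module Finset Crest.Agent.R022.Cnt

variable {F : Type*} [Field F] {ι : Type*} [DecidableEq ι]

/-- the affine form `α_i = X₀ + θ_i X₁ + a_i` -/
noncomputable def al (θ a : ι → F) (i : ι) : MvPolynomial (Fin 2) F :=
  MvPolynomial.X 0 + MvPolynomial.C (θ i) * MvPolynomial.X 1 + MvPolynomial.C (a i)

/-- restriction to the line `α_i = 0`, with coordinate `X₁` -/
noncomputable def res (θ a : ι → F) (i : ι) : MvPolynomial (Fin 2) F →ₐ[F] Polynomial F :=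
  MvPolynomial.aeval ![-(Polynomial.C (θ i) * Polynomial.X + Polynomial.C (a i)), Polynomial.X]

omit [DecidableEq ι] in
theorem res_al (θ a : ι → F) (i i' : ι) :
    res θ a i (al θ a i') =
      Polynomial.C (θ i' - θ i) * Polynomial.X + Polynomial.C (a i' - a i) := by
  simp [res, al]
  ring

omit [DecidableEq ι] in
theorem res_al_self (θ a : ι → F) (i : ι) : res θ a i (al θ a i) = 0 := by
  rw [res_al]; simp

omit [DecidableEq ι] in
theorem res_X_one (θ a : ι → F) (i : ι) :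
    res θ a i (MvPolynomial.X 1) = Polynomial.X := by
  simp [res]

omit [DecidableEq ι] in
theorem natDegree_res_le (θ a : ι → F) (i : ι) (p : MvPolynomial (Fin 2) F) :
    (res θ a i p).natDegree ≤ p.totalDegree := by
  rw [res, MvPolynomial.aeval_def, MvPolynomial.eval₂_eq']
  refine Polynomial.natDegree_sum_le_of_forall_le _ _ ?_
  intro s hs
  refine (Polynomial.natDegree_mul_le).trans ?_
  have h1 : (algebraMap F (Polynomial F) (MvPolynomial.coeff s p)).natDegree = 0 := by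
    rw [Polynomial.algebraMap_eq, Polynomial.natDegree_C]
  rw [h1, zero_add, Fin.prod_univ_two]
  refine (Polynomial.natDegree_mul_le).trans ?_
  have h2 : (-(Polynomial.C (θ i) * Polynomial.X + Polynomial.C (a i))).natDegree ≤ 1 := by
    rw [Polynomial.natDegree_neg]
    exact Polynomial.natDegree_linear_le
  have h3 := Polynomial.natDegree_pow_le_of_le (s 0) h2
  have h4 : (Polynomial.X ^ s 1 : Polynomial F).natDegree ≤ s 1 := Polynomial.natDegree_X_pow_le _
  have h5 := MvPolynomial.le_totalDegree hs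
  rw [Finsupp.sum_fintype _ _ (fun _ => rfl), Fin.sum_univ_two] at h5
  simp only [Matrix.cons_val_zero, Matrix.cons_val_one, Matrix.cons_val_fin_one]
  omega

section psi

variable (h : MvPolynomial (Fin 2) F) (θ a : ι → F) (i : ι)

/-- restriction of the functions on the curve `h = 0` to the intersection with `α_i = 0` -/
noncomputable def psi : Rq h →ₐ[F] AdjoinRoot (res θ a i h) :=
  Ideal.Quotient.liftₐ (Ideal.span ({h} : Set (MvPolynomial (Fin 2) F)))
    ((AdjoinRoot.mkₐ (res θ a i h)).comp (res θ a i)) (by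
      intro p hp
      rw [Ideal.mem_span_singleton] at hp
      obtain ⟨q, rfl⟩ := hp
      rw [map_mul, AlgHom.comp_apply]
      have : (AdjoinRoot.mkₐ (res θ a i h)) (res θ a i h) = 0 := AdjoinRoot.mk_self
      rw [this, zero_mul])

omit [DecidableEq ι] in
theorem psi_mk (p : MvPolynomial (Fin 2) F) :
    psi h θ a i (Ideal.Quotient.mk (Ideal.span ({h} : Set (MvPolynomial (Fin 2) F))) p) =
      AdjoinRoot.mk (res θ a i h) (res θ a i p) := rfl

/-- the form `α_i` on the curve -/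
noncomputable def alq (i : ι) : Rq h :=
  Ideal.Quotient.mk (Ideal.span ({h} : Set (MvPolynomial (Fin 2) F))) (al θ a i)

omit [DecidableEq ι] in
theorem psi_alq_self : psi h θ a i (alq h θ a i) = 0 := by
  rw [alq, psi_mk, res_al_self, map_zero]

variable {h θ a i}

omit [DecidableEq ι] in
/-- dimension of the restriction -/
theorem finrank_map_psi (δ : ℕ) (hδ : 1 ≤ δ) (hdeg : (res θ a i h).natDegree = δ) (m : ℕ) :
    min (m + 1) δ ≤ finrank F ((Zq h m).map (psi h θ a i).toLinearMap) := by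
  classical
  have h0 : res θ a i h ≠ 0 := by
    intro h0
    rw [h0, Polynomial.natDegree_zero] at hdeg
    omega
  set pb := AdjoinRoot.powerBasis h0 with hpb
  have hdim : pb.dim = δ := by rw [hpb, AdjoinRoot.powerBasis_dim, hdeg]
  set c := min (m + 1) δ with hc
  have hle : c ≤ pb.dim := by rw [hdim]; exact min_le_right _ _
  have hli : LinearIndependent F (fun s : Fin c => (AdjoinRoot.root (res θ a i h)) ^ (s : ℕ)) := by
    have h1 := pb.basis.linearIndependent.comp (Fin.castLE hle) (Fin.castLE_injective hle)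
    have h2 : (pb.basis ∘ Fin.castLE hle) =
        fun s : Fin c => (AdjoinRoot.root (res θ a i h)) ^ (s : ℕ) := by
      funext s
      rw [Function.comp_apply, PowerBasis.basis_eq_pow]
      simp [hpb, AdjoinRoot.powerBasis_gen]
    rwa [h2] at h1
  have hspan : Submodule.span F (Set.range
      (fun s : Fin c => (AdjoinRoot.root (res θ a i h)) ^ (s : ℕ))) ≤
      (Zq h m).map (psi h θ a i).toLinearMap := by
    rw [Submodule.span_le]
    rintro _ ⟨s, rfl⟩
    refine ⟨Ideal.Quotient.mk _ ((MvPolynomial.X 1) ^ (s : ℕ)), mem_Zq_of h ?_, ?_⟩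
    · refine (MvPolynomial.totalDegree_pow _ _).trans ?_
      rw [MvPolynomial.totalDegree_X, mul_one]
      have := s.2
      omega
    · rw [AlgHom.toLinearMap_apply, psi_mk, map_pow, res_X_one, map_pow, AdjoinRoot.mk_X]
  have h1 := Submodule.finrank_mono hspan
  rw [finrank_span_eq_card hli, Fintype.card_fin] at h1
  exact h1

omit [DecidableEq ι] in
/-- coprimality gives non zero divisors -/
theorem psi_alq_regular {i' : ι} (hcop : IsCoprime (res θ a i h) (res θ a i (al θ a i')))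
    (y : AdjoinRoot (res θ a i h)) (hy : psi h θ a i (alq h θ a i') * y = 0) : y = 0 := by
  obtain ⟨u, v, huv⟩ := hcop
  have h0 : AdjoinRoot.mk (res θ a i h) (u * res θ a i h) = 0 := by
    rw [map_mul, AdjoinRoot.mk_self, mul_zero]
  have h1 : AdjoinRoot.mk (res θ a i h) v * psi h θ a i (alq h θ a i') = 1 := by
    have h2 := congrArg (AdjoinRoot.mk (res θ a i h)) huv
    rw [map_add, h0, zero_add, map_mul, map_one] at h2
    rw [alq, psi_mk]
    exact h2
  calc y = (AdjoinRoot.mk (res θ a i h) v * psi h θ a i (alq h θ a i')) * y := by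
        rw [h1, one_mul]
    _ = AdjoinRoot.mk (res θ a i h) v * (psi h θ a i (alq h θ a i') * y) := by ring
    _ = 0 := by rw [hy, mul_zero]

end psi

section general

variable {h : MvPolynomial (Fin 2) F} {θ a : ι → F}

omit [DecidableEq ι] in
theorem totalDegree_al_le (i : ι) : (al θ a i).totalDegree ≤ 1 := by
  unfold al
  refine (MvPolynomial.totalDegree_add _ _).trans (max_le ?_ ?_)
  · refine (MvPolynomial.totalDegree_add _ _).trans (max_le ?_ ?_)
    · rw [MvPolynomial.totalDegree_X]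
    · refine (MvPolynomial.totalDegree_mul _ _).trans ?_
      rw [MvPolynomial.totalDegree_C, MvPolynomial.totalDegree_X]
  · rw [MvPolynomial.totalDegree_C]; omega

omit [DecidableEq ι] in
theorem al_ne_zero (i : ι) : al θ a i ≠ 0 := by
  intro h0
  have h1 := congrArg (MvPolynomial.eval ![1 - a i, 0]) h0
  simp [al] at h1

omit [DecidableEq ι] in
/-- `α_i ≠ 0` on the curve, if the curve does not contain (as a polynomial) the line `i`. -/
theorem alq_ne_zero {i : ι} (hres : res θ a i h ≠ 0) (hdeg : 1 ≤ h.totalDegree) :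
    alq h θ a i ≠ 0 := by
  intro h0
  rw [alq, Ideal.Quotient.eq_zero_iff_mem, Ideal.mem_span_singleton] at h0
  obtain ⟨q, hq⟩ := h0
  have hq0 : q ≠ 0 := by
    rintro rfl
    rw [mul_zero] at hq
    exact al_ne_zero i hq
  have hh0 : h ≠ 0 := by
    rintro rfl
    simp at hdeg
  have h1 := totalDegree_al_le (θ := θ) (a := a) i
  rw [hq, MvPolynomial.totalDegree_mul_of_isDomain hh0 hq0] at h1
  have hqd : q.totalDegree = 0 := by omega
  rw [MvPolynomial.totalDegree_eq_zero_iff_eq_C] at hqd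
  have h2 := congrArg (res θ a i) hq
  rw [res_al_self, map_mul] at h2
  rcases mul_eq_zero.1 h2.symm with h3 | h3
  · exact hres h3
  · rw [hqd] at h3
    have h4 : res θ a i (MvPolynomial.C (MvPolynomial.coeff 0 q)) =
        Polynomial.C (MvPolynomial.coeff 0 q) := by
      simp [res, Polynomial.algebraMap_eq]
    rw [h4, Polynomial.C_eq_zero] at h3
    rw [h3, map_zero] at hqd
    exact hq0 hqd

omit [DecidableEq ι] in
theorem alq_ne_zero_of_two_le {i : ι} (hdeg : 2 ≤ h.totalDegree) : alq h θ a i ≠ 0 := by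
  intro h0
  rw [alq, Ideal.Quotient.eq_zero_iff_mem, Ideal.mem_span_singleton] at h0
  have h1 := MvPolynomial.totalDegree_le_of_dvd_of_isDomain h0 (al_ne_zero i)
  have h2 := totalDegree_al_le (θ := θ) (a := a) i
  omega

omit [DecidableEq ι] in
theorem alq_mul_mem (i : ι) (m : ℕ) (z : Rq h) (hz : z ∈ Zq h m) :
    alq h θ a i * z ∈ Zq h (m + 1) := by
  obtain ⟨p, hp, rfl⟩ := hz
  have h1 : alq h θ a i * (Ideal.Quotient.mkₐ F (Ideal.span
      ({h} : Set (MvPolynomial (Fin 2) F)))).toLinearMap p =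
      Ideal.Quotient.mk (Ideal.span ({h} : Set (MvPolynomial (Fin 2) F))) (al θ a i * p) := by
    rw [map_mul]; rfl
  rw [h1]
  refine mem_Zq_of h ((MvPolynomial.totalDegree_mul _ _).trans ?_)
  have h2 := totalDegree_al_le (θ := θ) (a := a) i
  have h3 := mem_Zt.1 hp
  omega

/-- **lines**: all the forms. -/
theorem line_curve_bound {k j m : ℕ} (hh : Prime h) (h1 : h.totalDegree = 1) (I : Finset ι)
    (hne : I.Nonempty) (hdeg : ∀ i ∈ I, (res θ a i h).natDegree = 1)
    (hcop : ∀ i ∈ I, ∀ i' ∈ I, i' ≠ i → IsCoprime (res θ a i h) (res θ a i (al θ a i'))) :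
    m + 1 + (I.card - 1) * (j * min k (m + 1)) ≤ finrank F (Wsp k (Zq h) (alq h θ a) I j m) := by
  classical
  have := isDomain_Rq hh
  induction I using Finset.induction_on with
  | empty => exact absurd hne Finset.not_nonempty_empty
  | insert i₀ I hi₀ ih =>
    rcases I.eq_empty_or_nonempty with rfl | hI
    · rw [Finset.card_insert_of_notMem hi₀, Finset.card_empty]
      simp only [Nat.zero_add, Nat.sub_self, zero_mul, add_zero]
      refine (finrank_Zq_one h1 m).trans ?_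
      exact Submodule.finrank_mono (le_Wsp_singleton (F := F) j m)
    · have hres : res θ a i₀ h ≠ 0 := by
        intro h0
        have := hdeg i₀ (Finset.mem_insert_self _ _)
        rw [h0, Polynomial.natDegree_zero] at this
        omega
      have h2 := ih hI (fun i hi => hdeg i (Finset.mem_insert_of_mem hi))
        (fun i hi i' hi' => hcop i (Finset.mem_insert_of_mem hi) i' (Finset.mem_insert_of_mem hi'))
      have h3 := step_ring (F := F) (k := k) (j := j) (m := m) (Z := Zq h) (α := alq h θ a)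
        (I := I) (i₀ := i₀) hi₀ hI (fun m => Zq_finite h m) (alq_mul_mem i₀)
        (alq_ne_zero hres (by omega)) (psi h θ a i₀) (psi_alq_self h θ a i₀)
        (fun i hi y hy => psi_alq_regular (hcop i₀ (Finset.mem_insert_self _ _) i
          (Finset.mem_insert_of_mem hi) (fun h => hi₀ (h ▸ hi))) y hy)
        (fun _ => 1) (fun m' => by
          have := finrank_map_psi (h := h) (θ := θ) (a := a) (i := i₀) 1 le_rfl
            (hdeg i₀ (Finset.mem_insert_self _ _)) m'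
          simpa using this)
      rw [Finset.sum_const, Finset.card_range, smul_eq_mul, mul_one] at h3
      have hcard : (insert i₀ I).card - 1 = (I.card - 1) + 1 := by
        rw [Finset.card_insert_of_notMem hi₀]
        have := hI.card_pos
        omega
      rw [hcard, Nat.add_mul, one_mul]
      omega

/-- **two forms** with no common zero on the curve (any degree `δ ≥ 1`, the line `i₀` is not
asymptotic). -/
theorem pair_curve_bound {k j m δ z : ℕ} (hh : Prime h) (hδ : 1 ≤ δ) {i₀ i₁ : ι} (hne : i₁ ≠ i₀)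
    (hdeg : (res θ a i₀ h).natDegree = δ)
    (hcop : IsCoprime (res θ a i₀ h) (res θ a i₀ (al θ a i₁)))
    (hz : z ≤ finrank F (Zq h m)) (htd : 1 ≤ h.totalDegree) :
    z + j * ∑ s ∈ range (min k (m + 1)), min (m - s + 1) δ ≤
      finrank F (Wsp k (Zq h) (alq h θ a) {i₀, i₁} j m) := by
  classical
  have := isDomain_Rq hh
  have hres : res θ a i₀ h ≠ 0 := by
    intro h0
    rw [h0, Polynomial.natDegree_zero] at hdeg
    omega
  have h2 : z ≤ finrank F (Wsp k (Zq h) (alq h θ a) {i₁} j m) :=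
    hz.trans (Submodule.finrank_mono (le_Wsp_singleton (F := F) j m))
  have h3 := step_ring (F := F) (k := k) (j := j) (m := m) (Z := Zq h) (α := alq h θ a)
    (I := {i₁}) (i₀ := i₀) (by simpa using hne.symm) ⟨i₁, Finset.mem_singleton_self _⟩
    (fun m => Zq_finite h m) (alq_mul_mem i₀)
    (alq_ne_zero hres htd) (psi h θ a i₀) (psi_alq_self h θ a i₀)
    (fun i hi y hy => psi_alq_regular (by
      rw [Finset.mem_singleton] at hi
      rw [hi]
      exact hcop) y hy)
    (fun m' => min (m' + 1) δ) (fun m' => finrank_map_psi (h := h) (θ := θ) (a := a) (i := i₀) δ hδ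
      hdeg m')
  exact (Nat.add_le_add_right h2 _).trans h3

end general

end Crest.Agent.R022.Free712
end

-- ▼ part R022/Free712F
section

/-!
# R022, stage 3 (helper712), part F

Restriction of a plane curve to the lines `α_i = 0`: all but `δ` of the restrictions have degree
`δ`; two lines of the slice which do not meet on a conic; the generic lines of helper776.
-/

set_option autoImplicit false

namespace Crest.Agent.R022.Free712

open Module Finset Crest.Agent.R022.Cnt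

variable {F : Type*} [Field F] {ι : Type*}

/-- the top form of `h`, as a function of the slope -/
noncomputable def tau (h : MvPolynomial (Fin 2) F) : Polynomial F :=
  ∑ s ∈ h.support.filter (fun s => s 0 + s 1 = h.totalDegree),
    Polynomial.C (MvPolynomial.coeff s h * (-1) ^ (s 0)) * Polynomial.X ^ (s 0)

theorem exists_top {h : MvPolynomial (Fin 2) F} (hh : h ≠ 0) :
    ∃ s ∈ h.support, s 0 + s 1 = h.totalDegree := by
  have hne : h.support.Nonempty := by
    rw [Finset.nonempty_iff_ne_empty, Ne, MvPolynomial.support_eq_empty]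
    exact hh
  obtain ⟨s, hs, hs'⟩ := Finset.exists_mem_eq_sup h.support hne (fun s => s.sum fun _ e => e)
  refine ⟨s, hs, ?_⟩
  rw [MvPolynomial.totalDegree, hs', Finsupp.sum_fintype _ _ (fun _ => rfl), Fin.sum_univ_two]

theorem tau_ne_zero {h : MvPolynomial (Fin 2) F} (hh : h ≠ 0) : tau h ≠ 0 := by
  classical
  obtain ⟨s, hs, hs'⟩ := exists_top hh
  intro h0
  have h1 := congrArg (fun p => p.coeff (s 0)) h0
  simp only [tau, Polynomial.finsetSum_coeff, Polynomial.coeff_C_mul_X_pow,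
    Polynomial.coeff_zero] at h1
  rw [Finset.sum_eq_single s] at h1
  · rw [if_pos rfl] at h1
    have h2 := MvPolynomial.mem_support_iff.1 hs
    rcases mul_eq_zero.1 h1 with h3 | h3
    · exact h2 h3
    · exact (pow_ne_zero _ (neg_ne_zero.2 one_ne_zero)) h3
  · intro b hb hne
    rw [if_neg]
    intro heq
    apply hne
    rw [Finset.mem_filter] at hb
    ext i
    fin_cases i
    · simpa using heq.symm
    · have := hb.2
      simp only [Fin.mk_one]
      omega
  · intro hns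
    exact absurd (Finset.mem_filter.2 ⟨hs, hs'⟩) hns

theorem natDegree_tau_le (h : MvPolynomial (Fin 2) F) : (tau h).natDegree ≤ h.totalDegree := by
  unfold tau
  refine Polynomial.natDegree_sum_le_of_forall_le _ _ fun s hs => ?_
  refine (Polynomial.natDegree_C_mul_X_pow_le _ _).trans ?_
  rw [Finset.mem_filter] at hs
  omega

theorem coeff_res (θ a : ι → F) (i : ι) (h : MvPolynomial (Fin 2) F) :
    (res θ a i h).coeff h.totalDegree = (tau h).eval (θ i) := by
  classical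
  rw [res, MvPolynomial.aeval_def, MvPolynomial.eval₂_eq', Polynomial.finsetSum_coeff, tau,
    Polynomial.eval_finsetSum, Finset.sum_filter]
  refine Finset.sum_congr rfl fun s hs => ?_
  have h5 := MvPolynomial.le_totalDegree hs
  rw [Finsupp.sum_fintype _ _ (fun _ => rfl), Fin.sum_univ_two] at h5
  rw [Polynomial.algebraMap_eq, Polynomial.coeff_C_mul, Fin.prod_univ_two]
  simp only [Matrix.cons_val_zero, Matrix.cons_val_one, Matrix.cons_val_fin_one]
  rw [Polynomial.coeff_mul_X_pow', if_pos (by omega)]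
  have h2 : (-(Polynomial.C (θ i) * Polynomial.X + Polynomial.C (a i))).natDegree ≤ 1 := by
    rw [Polynomial.natDegree_neg]
    exact Polynomial.natDegree_linear_le
  split_ifs with h6
  · have h7 : h.totalDegree - s 1 = s 0 * 1 := by omega
    rw [h7, Polynomial.coeff_pow_of_natDegree_le h2]
    simp only [Polynomial.coeff_neg, Polynomial.coeff_add, Polynomial.coeff_C_mul,
      Polynomial.coeff_X_one, Polynomial.coeff_C_succ, Polynomial.eval_mul, Polynomial.eval_C,
      Polynomial.eval_pow, Polynomial.eval_X, mul_one, add_zero]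
    rw [neg_pow]
    ring
  · have h3 := Polynomial.natDegree_pow_le_of_le (s 0) h2
    rw [Polynomial.coeff_eq_zero_of_natDegree_lt (by omega), mul_zero]

theorem natDegree_res_eq {θ a : ι → F} {i : ι} {h : MvPolynomial (Fin 2) F}
    (hi : (tau h).eval (θ i) ≠ 0) : (res θ a i h).natDegree = h.totalDegree := by
  refine le_antisymm (natDegree_res_le θ a i h) ?_
  refine Polynomial.le_natDegree_of_ne_zero ?_
  rw [coeff_res]
  exact hi

theorem exists_nonroot [Fintype ι] [DecidableEq ι] {p : Polynomial F} (hp : p ≠ 0) {S : Finset ι}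
    {x : ι → F} (hx : Set.InjOn x S) (hS : p.natDegree < S.card) : ∃ i ∈ S, p.eval (x i) ≠ 0 := by
  classical
  by_contra hall
  push Not at hall
  have h1 : (S.image x).card ≤ p.natDegree := by
    refine le_trans (Finset.card_le_card ?_) ((Multiset.toFinset_card_le _).trans
      (Polynomial.card_roots' p))
    intro y hy
    rw [Finset.mem_image] at hy
    obtain ⟨i, hi, rfl⟩ := hy
    rw [Multiset.mem_toFinset, Polynomial.mem_roots hp]
    exact hall i hi
  rw [Finset.card_image_of_injOn hx] at h1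
  omega

/-- coprimality with a linear polynomial -/
theorem isCoprime_linear (p : Polynomial F) {c e : F} (hc : c ≠ 0) (hx : p.eval (-e / c) ≠ 0) :
    IsCoprime p (Polynomial.C c * Polynomial.X + Polynomial.C e) := by
  have h1 : Polynomial.C c * Polynomial.X + Polynomial.C e =
      Polynomial.C c * (Polynomial.X - Polynomial.C (-e / c)) := by
    rw [mul_sub, ← Polynomial.C_mul, mul_div_cancel₀ _ hc, Polynomial.C_neg, sub_neg_eq_add]
  rw [h1, isCoprime_mul_unit_left_right (Polynomial.isUnit_C.2 (isUnit_iff_ne_zero.2 hc)),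
    isCoprime_comm, (Polynomial.irreducible_X_sub_C _).coprime_iff_not_dvd,
    Polynomial.dvd_iff_isRoot]
  exact hx

/-- two of the lines which do not meet on the curve (`δ` = degree) -/
theorem exists_pair [Fintype ι] [DecidableEq ι] {θ a : ι → F} (hθ : Function.Injective θ)
    (hgp : ∀ i₀ i i' : ι, i ≠ i₀ → i' ≠ i₀ → i ≠ i' →
      (a i - a i₀) * (θ i' - θ i₀) ≠ (a i' - a i₀) * (θ i - θ i₀))
    {h : MvPolynomial (Fin 2) F} (hh : h ≠ 0) (hcard : h.totalDegree + 2 ≤ Fintype.card ι) :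
    ∃ i₀ i₁ : ι, i₁ ≠ i₀ ∧ (res θ a i₀ h).natDegree = h.totalDegree ∧
      (1 ≤ h.totalDegree → IsCoprime (res θ a i₀ h) (res θ a i₀ (al θ a i₁))) := by
  obtain ⟨i₀, -, h0⟩ := exists_nonroot (tau_ne_zero hh) (S := (univ : Finset ι)) (x := θ)
    hθ.injOn (by
      have := natDegree_tau_le h
      rw [Finset.card_univ]
      omega)
  have hdeg := natDegree_res_eq (a := a) h0
  by_cases hd : 1 ≤ h.totalDegree
  · have hres : res θ a i₀ h ≠ 0 := by
      intro h1
      rw [h1, Polynomial.natDegree_zero] at hdeg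
      omega
    obtain ⟨i₁, hi₁, h1⟩ := exists_nonroot hres (S := (univ : Finset ι).erase i₀)
      (x := fun i => -(a i - a i₀) / (θ i - θ i₀)) (by
        intro i hi i' hi' heq
        rw [Finset.mem_coe, Finset.mem_erase] at hi hi'
        by_contra hne
        have e1 : θ i - θ i₀ ≠ 0 := sub_ne_zero.2 fun h => hi.1 (hθ h)
        have e2 : θ i' - θ i₀ ≠ 0 := sub_ne_zero.2 fun h => hi'.1 (hθ h)
        simp only at heq
        rw [div_eq_div_iff e1 e2] at heq
        apply hgp i₀ i i' hi.1 hi'.1 hne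
        linear_combination -heq) (by
        rw [Finset.card_erase_of_mem (Finset.mem_univ _), Finset.card_univ, hdeg]
        omega)
    rw [Finset.mem_erase] at hi₁
    refine ⟨i₀, i₁, hi₁.1, hdeg, fun _ => ?_⟩
    rw [res_al]
    exact isCoprime_linear _ (sub_ne_zero.2 fun h => hi₁.1 (hθ h)) h1
  · have hne : ∃ i₁ : ι, i₁ ≠ i₀ := by
      have : 1 < Fintype.card ι := by omega
      exact Fintype.exists_ne_of_one_lt_card this i₀
    obtain ⟨i₁, hi₁⟩ := hne
    exact ⟨i₀, i₁, hi₁, hdeg, fun h => absurd h hd⟩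

/-- coefficients of an affine polynomial -/
theorem affine_eq {h : MvPolynomial (Fin 2) F} (h1 : h.totalDegree ≤ 1) :
    h = MvPolynomial.C (MvPolynomial.coeff 0 h) +
      MvPolynomial.C (MvPolynomial.coeff (Finsupp.single 0 1) h) * MvPolynomial.X 0 +
      MvPolynomial.C (MvPolynomial.coeff (Finsupp.single 1 1) h) * MvPolynomial.X 1 := by
  classical
  ext s
  rw [MvPolynomial.coeff_add, MvPolynomial.coeff_add, MvPolynomial.coeff_C,
    MvPolynomial.coeff_C_mul, MvPolynomial.coeff_C_mul, MvPolynomial.coeff_X,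
    MvPolynomial.coeff_X]
  by_cases hs : MvPolynomial.coeff s h = 0
  · rw [hs]
    split_ifs with e1 e2 e3 e3 e2 e3 e3
    all_goals first
      | (subst e1; simp_all)
      | (subst e2; simp_all)
      | (subst e3; simp_all)
      | simp
  · have h5 := MvPolynomial.le_totalDegree (MvPolynomial.mem_support_iff.2 hs)
    rw [Finsupp.sum_fintype _ _ (fun _ => rfl), Fin.sum_univ_two] at h5
    have hcases : s = 0 ∨ s = Finsupp.single 0 1 ∨ s = Finsupp.single 1 1 := by
      have h6 : (s 0 = 0 ∧ s 1 = 0) ∨ (s 0 = 1 ∧ s 1 = 0) ∨ (s 0 = 0 ∧ s 1 = 1) := by omega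
      rcases h6 with ⟨e0, e1⟩ | ⟨e0, e1⟩ | ⟨e0, e1⟩
      · left
        ext i
        fin_cases i <;> simp [e0, e1]
      · right; left
        ext i
        fin_cases i <;> simp [e0, e1]
      · right; right
        ext i
        fin_cases i <;> simp [e0, e1]
    have n1 : (Finsupp.single (0 : Fin 2) 1 : Fin 2 →₀ ℕ) ≠ 0 := by
      intro h
      have := DFunLike.congr_fun h 0
      simp at this
    have n2 : (Finsupp.single (1 : Fin 2) 1 : Fin 2 →₀ ℕ) ≠ 0 := by
      intro h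
      have := DFunLike.congr_fun h 1
      simp at this
    have n3 : (Finsupp.single (0 : Fin 2) 1 : Fin 2 →₀ ℕ) ≠ Finsupp.single 1 1 := by
      intro h
      have := DFunLike.congr_fun h 0
      simp at this
    rcases hcases with rfl | rfl | rfl
    · simp [n1, n2]
    · simp [n1.symm, n3.symm]
    · simp [n2.symm, n3]

theorem res_affine (θ a : ι → F) (i : ι) (h0 h1 h2 : F) :
    res θ a i (MvPolynomial.C h0 + MvPolynomial.C h1 * MvPolynomial.X 0 +
      MvPolynomial.C h2 * MvPolynomial.X 1) =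
      Polynomial.C (h2 - h1 * θ i) * Polynomial.X + Polynomial.C (h0 - h1 * a i) := by
  simp [res, Polynomial.algebraMap_eq]
  ring

/-- helper776's generic condition gives the hypotheses of `line_curve_bound`. -/
theorem generic_line {θ a : ι → F} (hθ : Function.Injective θ) {h0 h1 h2 : F}
    (g1 : ∀ i, h2 - h1 * θ i ≠ 0)
    (g2 : ∀ i j, i ≠ j → (θ j - θ i) * (-(h0 - h1 * a i) / (h2 - h1 * θ i)) + (a j - a i) ≠ 0)
    {h : MvPolynomial (Fin 2) F} (hh : h = MvPolynomial.C h0 + MvPolynomial.C h1 * MvPolynomial.X 0 +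
      MvPolynomial.C h2 * MvPolynomial.X 1) :
    (∀ i, (res θ a i h).natDegree = 1) ∧
      ∀ i i', i' ≠ i → IsCoprime (res θ a i h) (res θ a i (al θ a i')) := by
  constructor
  · intro i
    rw [hh, res_affine]
    exact Polynomial.natDegree_linear (g1 i)
  · intro i i' hne
    rw [hh, res_affine, res_al]
    have hc : θ i' - θ i ≠ 0 := sub_ne_zero.2 fun h => hne (hθ h)
    refine isCoprime_linear _ hc ?_
    simp only [Polynomial.eval_add, Polynomial.eval_mul, Polynomial.eval_C, Polynomial.eval_X]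
    intro h3
    apply g2 i i' hne.symm
    have hg := g1 i
    field_simp at h3 ⊢
    linear_combination -h3

section span

/-- monomials on the curve -/
noncomputable def moq (h : MvPolynomial (Fin 2) F) (e : ℕ × ℕ) : Rq h :=
  Ideal.Quotient.mk (Ideal.span ({h} : Set (MvPolynomial (Fin 2) F)))
    (MvPolynomial.X 0 ^ e.1 * MvPolynomial.X 1 ^ e.2)

theorem Zq_le_span (h : MvPolynomial (Fin 2) F) (m : ℕ) :
    Zq h m ≤ Submodule.span F (moq h '' (Ex2 m : Set (ℕ × ℕ))) := by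
  rintro _ ⟨p, hp, rfl⟩
  have hp' := mem_Zt.1 hp
  rw [MvPolynomial.as_sum p, map_sum]
  refine Submodule.sum_mem _ fun s hs => ?_
  have h5 := MvPolynomial.le_totalDegree hs
  rw [Finsupp.sum_fintype _ _ (fun _ => rfl), Fin.sum_univ_two] at h5
  have h6 : (MvPolynomial.monomial s (MvPolynomial.coeff s p) : MvPolynomial (Fin 2) F) =
      (MvPolynomial.coeff s p) • (MvPolynomial.X 0 ^ (s 0) * MvPolynomial.X 1 ^ (s 1)) := by
    rw [MvPolynomial.monomial_eq, MvPolynomial.smul_eq_C_mul,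
      Finsupp.prod_fintype _ _ (fun _ => pow_zero _), Fin.prod_univ_two]
  rw [h6, map_smul]
  refine Submodule.smul_mem _ _ (Submodule.subset_span ⟨(s 0, s 1), ?_, rfl⟩)
  rw [Finset.mem_coe, mem_Ex2]
  simp only
  omega

end span

end Crest.Agent.R022.Free712
end

-- ▼ part R022/CntInt
section

/-! Row 22, stage-1 count (helper294), part 11: the family in the form used by `Stage107`. -/

set_option autoImplicit false

namespace Crest.Agent.R022.Cnt

open Finset Polynomial Crest.Agent.R022.Torsor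

section
variable {F : Polynomial ℤ} (hF : F.Monic)

/-- cleared coordinate of `β` -/
noncomputable def Bi (k : ℕ) (M : ℤ) (a0 : Fin F.natDegree → ℤ) (l : Fin F.natDegree) :
    Polynomial (MvPolynomial (Fin 2) ℤ) :=
  C (MvPolynomial.C M * Sf hF 2 a0 k 1 l) * X -
    C (MvPolynomial.C M * Sf hF 2 a0 k (AdjoinRoot.root F) l)

/-- cleared monomial `t^e b^f N^(kJ)` -/
noncomputable def Imon (k J : ℕ) (M : ℤ) (a0 : Fin F.natDegree → ℤ)
    (w : (ℕ × ℕ) × (Fin F.natDegree → ℕ)) : Polynomial (MvPolynomial (Fin 2) ℤ) :=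
  C (MvPolynomial.X 0 ^ w.1.1 * MvPolynomial.X 1 ^ w.1.2) * (∏ l, Bi hF k M a0 l ^ w.2 l) *
    C (Nf hF 2 a0 ^ (k * (J - ∑ l, w.2 l)))

theorem Bi_eq_Bt (k : ℕ) (M : ℤ) (a0 : Fin F.natDegree → ℤ) (l : Fin F.natDegree) :
    Bi hF k M a0 l = Bt hF k M a0 l := by
  unfold Bi Bt
  rw [C_mul, C_mul]
  ring

theorem Imon_eq_monZ (k J : ℕ) (M : ℤ) (a0 : Fin F.natDegree → ℤ)
    (w : (ℕ × ℕ) × (Fin F.natDegree → ℕ)) : Imon hF k J M a0 w = monZ hF k M J a0 w := by
  unfold Imon monZ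
  simp only [Bi_eq_Bt]

end


end Crest.Agent.R022.Cnt
end

-- ▼ part R022/Free712G
section

/-!
# R022, stage 3 (helper712), part G

The families of monomials on a plane curve `h(t) = 0` of a slice, in integral form.
-/

set_option autoImplicit false

namespace Crest.Agent.R022.Free712

open Module Finset Crest.Agent.R022.Cnt Crest.Agent.R022.Torsor Crest.Agent.R022.Surf206
open Polynomial (C X)

section dims

variable {F : Type*} [Field F] {ι : Type*} [Fintype ι] [DecidableEq ι]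
variable {h : MvPolynomial (Fin 2) F} {θ a : ι → F}

/-- lines in general position -/
theorem dim_line {k j m : ℕ} (hh : Prime h) (h1 : h.totalDegree = 1) (hι : 0 < Fintype.card ι)
    (hdeg : ∀ i, (res θ a i h).natDegree = 1)
    (hcop : ∀ i i', i' ≠ i → IsCoprime (res θ a i h) (res θ a i (al θ a i'))) (hm : k ≤ m) :
    m + (k * (Fintype.card ι - 1)) * j ≤ finrank F (Wsp k (Zq h) (alq h θ a) univ j m) := by
  have := line_curve_bound (k := k) (j := j) (m := m) hh h1 (univ : Finset ι)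
    (Finset.univ_nonempty_iff.2 (Fintype.card_pos_iff.1 hι)) (fun i _ => hdeg i)
    (fun i _ i' _ hne => hcop i i' hne)
  rw [Finset.card_univ, min_eq_left (by omega)] at this
  have e : (k * (Fintype.card ι - 1)) * j = (Fintype.card ι - 1) * (j * k) := by ring
  rw [e]
  omega

/-- conics -/
theorem dim_conic {k j m : ℕ} (hh : Prime h) (h2 : h.totalDegree = 2) (hι : 4 ≤ Fintype.card ι)
    (hθ : Function.Injective θ)
    (hgp : ∀ i₀ i i' : ι, i ≠ i₀ → i' ≠ i₀ → i ≠ i' →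
      (a i - a i₀) * (θ i' - θ i₀) ≠ (a i' - a i₀) * (θ i - θ i₀)) (hm : k ≤ m) :
    2 * m + (2 * k) * j ≤ finrank F (Wsp k (Zq h) (alq h θ a) univ j m) := by
  have hdom := isDomain_Rq hh
  obtain ⟨i₀, i₁, hne, hdeg, hcop⟩ := exists_pair hθ hgp hh.ne_zero (by omega)
  have h3 := pair_curve_bound (k := k) (j := j) (m := m) (δ := 2) (z := 2 * m) hh (by norm_num)
    hne (by rw [hdeg, h2]) (hcop (by omega)) (finrank_Zq_two h2 m) (by omega)
  have h4 := finrank_Wsp_mono (F := F) (k := k) (j := j) (m := m) (Z := Zq h) (α := alq h θ a)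
    (Finset.subset_univ ({i₀, i₁} : Finset ι)) (fun m => Zq_finite h m)
    (fun i _ => alq_ne_zero_of_two_le (by omega))
  refine le_trans ?_ (h3.trans h4)
  have h5 : ∑ s ∈ range (min k (m + 1)), min (m - s + 1) 2 = 2 * k := by
    rw [min_eq_left (by omega), Finset.sum_congr rfl (g := fun _ => 2), Finset.sum_const,
      Finset.card_range, smul_eq_mul, mul_comm]
    intro s hs
    rw [Finset.mem_range] at hs
    rw [min_eq_right (by omega)]
  rw [h5]
  have e : j * (2 * k) = 2 * k * j := by ring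
  rw [e]

end dims

section bridge

/-- base change and restriction to the curve -/
noncomputable def Th (h : MvPolynomial (Fin 2) ℂ) :
    Polynomial (MvPolynomial (Fin 2) ℤ) →+* Polynomial (Rq h) :=
  Polynomial.mapRingHom ((Ideal.Quotient.mk (Ideal.span ({h} : Set (MvPolynomial (Fin 2) ℂ)))).comp
    phi)

theorem Th_C (h : MvPolynomial (Fin 2) ℂ) (P : MvPolynomial (Fin 2) ℤ) :
    Th h (C P) = C (Ideal.Quotient.mk (Ideal.span ({h} : Set (MvPolynomial (Fin 2) ℂ))) (phi P)) := by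
  unfold Th
  rw [Polynomial.coe_mapRingHom, Polynomial.map_C]
  rfl

theorem not_dvd_of_Th {h : MvPolynomial (Fin 2) ℂ} {g : Polynomial (MvPolynomial (Fin 2) ℤ)}
    (hg : Th h g ≠ 0) : ¬ C h ∣ g.map (MvPolynomial.map (Int.castRingHom ℂ)) := by
  rintro ⟨q, hq⟩
  apply hg
  have h1 : Th h g = (g.map (MvPolynomial.map (Int.castRingHom ℂ))).map
      (Ideal.Quotient.mk (Ideal.span ({h} : Set (MvPolynomial (Fin 2) ℂ)))) := by
    rw [Polynomial.map_map]
    rfl
  rw [h1, hq, Polynomial.map_mul, Polynomial.map_C]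
  have h2 : (Ideal.Quotient.mk (Ideal.span ({h} : Set (MvPolynomial (Fin 2) ℂ)))) h = 0 := by
    rw [Ideal.Quotient.eq_zero_iff_mem]
    exact Ideal.mem_span_singleton_self h
  rw [h2, Polynomial.C_0, zero_mul]

variable {F : Polynomial ℤ} (hF : F.Monic)

theorem Th_Bt_natDegree (h : MvPolynomial (Fin 2) ℂ) (k : ℕ) (M : ℤ) (a0 : Fin F.natDegree → ℤ)
    (l : Fin F.natDegree) : (Th h (Bt hF k M a0 l)).natDegree ≤ 1 :=
  (Polynomial.natDegree_map_le).trans (Bt_natDegree hF k M a0 l)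

theorem Th_Bt_coeff (h : MvPolynomial (Fin 2) ℂ) (k : ℕ) (M : ℤ) (a0 : Fin F.natDegree → ℤ)
    (l : Fin F.natDegree) : (Th h (Bt hF k M a0 l)).coeff 1 =
      Ideal.Quotient.mk (Ideal.span ({h} : Set (MvPolynomial (Fin 2) ℂ)))
        (MvPolynomial.C (M : ℂ) * phi (Sf hF 2 a0 k 1 l)) := by
  unfold Th Bt
  rw [Polynomial.coe_mapRingHom, Polynomial.coeff_map, Polynomial.coeff_C_mul,
    Polynomial.coeff_sub, Polynomial.coeff_mul_C, Polynomial.coeff_X_one, Polynomial.coeff_C_succ,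
    sub_zero, one_mul, RingHom.comp_apply, map_mul phi]
  congr 2
  unfold phi
  rw [MvPolynomial.map_C]
  rfl

theorem coeff_c (z : Fin F.natDegree → ℂ) (hd : 2 ≤ F.natDegree) (hinj : Function.Injective z)
    (hz : ∀ i, F.eval₂ (Int.castRingHom ℂ) (z i) = 0) (h : MvPolynomial (Fin 2) ℂ) (k : ℕ)
    {M : ℤ} (hM : M ≠ 0) (a0 : Fin F.natDegree → ℤ) (i : Fin F.natDegree) :
    (∑ l : Fin F.natDegree, (z i ^ (l : ℕ)) • Th h (Bt hF k M a0 l)).coeff 1 =
      algebraMap ℂ (Rq h) (M : ℂ) * ∏ i' ∈ univ.erase i, alq h z (cst z a0) i' ^ k := by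
  rw [Polynomial.finsetSum_coeff]
  have h1 : ∀ l : Fin F.natDegree, ((z i ^ (l : ℕ)) • Th h (Bt hF k M a0 l)).coeff 1 =
      Ideal.Quotient.mk (Ideal.span ({h} : Set (MvPolynomial (Fin 2) ℂ)))
        (MvPolynomial.C (z i ^ (l : ℕ)) * (MvPolynomial.C (M : ℂ) * phi (Sf hF 2 a0 k 1 l))) := by
    intro l
    rw [Polynomial.coeff_smul, Th_Bt_coeff, map_mul, Algebra.smul_def]
    rfl
  rw [Finset.sum_congr rfl fun l _ => h1 l, ← map_sum, (coordData hF z hd hinj hz k hM a0).hA i,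
    map_mul, map_pow, Finset.prod_pow]
  have h2 : Ideal.Quotient.mk (Ideal.span ({h} : Set (MvPolynomial (Fin 2) ℂ)))
      (co z (cst z a0) i) = ∏ i' ∈ univ.erase i, alq h z (cst z a0) i' := by
    unfold co
    rw [map_prod]
    rfl
  rw [h2]
  rfl

theorem Th_monZ (z : Fin F.natDegree → ℂ) (hd : 2 ≤ F.natDegree) (hinj : Function.Injective z)
    (hz : ∀ i, F.eval₂ (Int.castRingHom ℂ) (z i) = 0) (h : MvPolynomial (Fin 2) ℂ) (k : ℕ)
    (M : ℤ) (J : ℕ) (a0 : Fin F.natDegree → ℤ) (ω : (ℕ × ℕ) × (Fin F.natDegree → ℕ)) :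
    Th h (monZ hF k M J a0 ω) =
      Cnt.mon k J (alq h z (cst z a0)) (moq h) (fun l => Th h (Bt hF k M a0 l)) ω := by
  unfold monZ Cnt.mon
  rw [map_mul, map_mul, map_prod, Th_C, Th_C]
  have hX : ∀ i, phi (MvPolynomial.X i) = MvPolynomial.X i := by
    intro i
    unfold phi
    rw [MvPolynomial.map_X]
  have h1 : phi (MvPolynomial.X 0 ^ ω.1.1 * MvPolynomial.X 1 ^ ω.1.2) =
      MvPolynomial.X 0 ^ ω.1.1 * MvPolynomial.X 1 ^ ω.1.2 := by
    rw [map_mul, map_pow, map_pow, hX, hX]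
  have h2 : Ideal.Quotient.mk (Ideal.span ({h} : Set (MvPolynomial (Fin 2) ℂ)))
      (phi (Nf hF 2 a0 ^ (k * (J - ∑ l, ω.2 l)))) =
      (∏ i, alq h z (cst z a0) i) ^ (k * (J - ∑ l, ω.2 l)) := by
    rw [map_pow, map_pow, map_Nf' hF z hd hinj hz]
    unfold nrm
    rw [map_prod]
    rfl
  rw [h1, h2]
  simp only [map_pow]
  rfl

/-- independence over `ℂ` on the curve gives independence over `ℤ` -/
theorem int_indep (z : Fin F.natDegree → ℂ) (hd : 2 ≤ F.natDegree) (hinj : Function.Injective z)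
    (hz : ∀ i, F.eval₂ (Int.castRingHom ℂ) (z i) = 0) (h : MvPolynomial (Fin 2) ℂ) (k : ℕ)
    (M : ℤ) (J : ℕ) (a0 : Fin F.natDegree → ℤ) {T : Finset ((ℕ × ℕ) × (Fin F.natDegree → ℕ))}
    (hT : LinearIndepOn ℂ (Cnt.mon k J (alq h z (cst z a0)) (moq h)
      (fun l => Th h (Bt hF k M a0 l))) (T : Set ((ℕ × ℕ) × (Fin F.natDegree → ℕ))))
    (a : (ℕ × ℕ) × (Fin F.natDegree → ℕ) → ℤ)
    (h0 : Th h (∑ ω ∈ T, C (MvPolynomial.C (a ω)) * monZ hF k M J a0 ω) = 0) :
    ∀ ω ∈ T, a ω = 0 := by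
  intro ω₀ hω₀
  rw [map_sum] at h0
  have h6 : ∀ ω ∈ T, Th h (C (MvPolynomial.C (a ω)) * monZ hF k M J a0 ω) =
      ((a ω : ℤ) : ℂ) • Cnt.mon k J (alq h z (cst z a0)) (moq h) (fun l => Th h (Bt hF k M a0 l)) ω := by
    intro ω _
    rw [map_mul, Th_monZ hF z hd hinj hz, Algebra.smul_def, Th_C]
    congr 1
    unfold phi
    rw [MvPolynomial.map_C]
    rfl
  rw [Finset.sum_congr rfl h6] at h0
  have h7 := (linearIndepOn_finset_iff.1 hT) (fun ω => ((a ω : ℤ) : ℂ)) h0 ω₀ hω₀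
  exact_mod_cast h7

/-- Families of monomials independent on all the curves with the property `P`. -/
def CurveFam (k : ℕ) (ρ κ : ℝ)
    (P : (Fin F.natDegree → ℤ) → MvPolynomial (Fin 2) ℂ → Prop) : Prop :=
  ∃ Y m J w s : ℕ, w + (J + 1) * (m + 1).choose 2 ≤ m * s ∧ ∃ W : ℝ, W < κ * w ∧
    ∀ (a0 : Fin F.natDegree → ℤ) (h : MvPolynomial (Fin 2) ℂ), P a0 h → ∀ M : ℤ, M ≠ 0 →
      ∃ T : Finset ((ℕ × ℕ) × (Fin F.natDegree → ℕ)), T.card = s ∧
        (∀ ω ∈ T, wt ρ ω ≤ Y ∧ ∑ l, ω.2 l ≤ J) ∧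
        (∀ a : (ℕ × ℕ) × (Fin F.natDegree → ℕ) → ℤ,
          Th h (∑ ω ∈ T, C (MvPolynomial.C (a ω)) * monZ hF k M J a0 ω) = 0 →
            ∀ ω ∈ T, a ω = 0) ∧
        ∑ ω ∈ T, wt ρ ω ≤ W

theorem c_natDegree (z : Fin F.natDegree → ℂ) (h : MvPolynomial (Fin 2) ℂ) (k : ℕ)
    (M : ℤ) (a0 : Fin F.natDegree → ℤ) (i : Fin F.natDegree) :
    (∑ l : Fin F.natDegree, (z i ^ (l : ℕ)) • Th h (Bt hF k M a0 l)).natDegree ≤ 1 := by
  refine Polynomial.natDegree_sum_le_of_forall_le _ _ fun l _ => ?_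
  exact (Polynomial.natDegree_smul_le _ _).trans (Th_Bt_natDegree hF h k M a0 l)

/-- **lines in general position** -/
theorem curveFam_line (z : Fin F.natDegree → ℂ) (hinj : Function.Injective z)
    (hz : ∀ i, F.eval₂ (Int.castRingHom ℂ) (z i) = 0) {k : ℕ} (hk : k + 2 = F.natDegree)
    {ρ κ : ℝ} (hρ : 0 < ρ) (hκ : 0 < κ)
    (hthr : (4 / 3 : ℝ) < κ * (C2 ρ 1 ((k * (k + 1) : ℕ) : ℝ) * ρ)) :
    CurveFam hF k ρ κ (fun a0 h => Prime h ∧ h.totalDegree = 1 ∧
      (∀ i, (res z (cst z a0) i h).natDegree = 1) ∧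
      ∀ i i', i' ≠ i → IsCoprime (res z (cst z a0) i h) (res z (cst z a0) i
        (al z (cst z a0) i'))) := by
  obtain ⟨Y, m, J, w, s, -, hw, W, hW, H⟩ := exists_family1 (k := k) (C := 0) hρ hκ
    zero_le_one hthr
  refine ⟨Y, m, J, w, s, hw, W, hW, ?_⟩
  rintro a0 h ⟨hh, h1, hdeg, hcop⟩ M hM
  have hdom := isDomain_Rq hh
  obtain ⟨T, hT1, hT2, hT3, hT4⟩ := H ℂ (Rq h) (Fin F.natDegree) (Zq h) (fun m => Zq_finite h m)
    (alq h z (cst z a0)) (fun i => alq_ne_zero (by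
      intro h0
      have := hdeg i
      rw [h0, Polynomial.natDegree_zero] at this
      omega) (by omega)) (moq h) (Zq_le_span h)
    (by
      intro j m hm
      have h2 := dim_line (k := k) (j := j) (m := m) hh h1
        (by rw [Fintype.card_fin]; omega) hdeg hcop hm
      have hcard : Fintype.card (Fin F.natDegree) - 1 = k + 1 := by
        rw [Fintype.card_fin]; omega
      rw [hcard] at h2
      have h3 : ((m + k * (k + 1) * j : ℕ) : ℝ) ≤
        (finrank ℂ (Wsp k (Zq h) (alq h z (cst z a0)) univ j m) : ℝ) := by exact_mod_cast h2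
      push_cast at h3 ⊢
      linarith)
    (Fin F.natDegree) (fun l => Th h (Bt hF k M a0 l))
    (fun i => ∑ l : Fin F.natDegree, (z i ^ (l : ℕ)) • Th h (Bt hF k M a0 l)) (M : ℂ)
    (by exact_mod_cast hM) (fun l => Th_Bt_natDegree hF h k M a0 l)
    (fun i => c_natDegree hF z h k M a0 i)
    (fun i => coeff_c hF z (by omega) hinj hz h k hM a0 i)
    (fun i => Submodule.sum_mem _ fun l _ => Submodule.smul_mem _ _
        (Submodule.subset_span ⟨l, rfl⟩))
  exact ⟨T, hT1, hT2, fun a h0 => int_indep hF z (by omega) hinj hz h k M J a0 hT3 a h0, hT4⟩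

/-- **conics** -/
theorem curveFam_conic (z : Fin F.natDegree → ℂ) (hinj : Function.Injective z)
    (hz : ∀ i, F.eval₂ (Int.castRingHom ℂ) (z i) = 0) {k : ℕ} (hk : k + 2 = F.natDegree)
    (hk2 : 2 ≤ k) {ρ κ : ℝ} (hρ : 0 < ρ) (hκ : 0 < κ)
    (hthr : (4 / 3 : ℝ) < κ * (C2 ρ 2 ((2 * k : ℕ) : ℝ) * ρ)) :
    CurveFam hF k ρ κ (fun a0 h => Prime h ∧ h.totalDegree = 2 ∧ GenPos z a0) := by
  obtain ⟨Y, m, J, w, s, -, hw, W, hW, H⟩ := exists_family1 (k := k) (C := 0) hρ hκ
    zero_le_two hthr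
  refine ⟨Y, m, J, w, s, hw, W, hW, ?_⟩
  rintro a0 h ⟨hh, h1, hgp⟩ M hM
  have hdom := isDomain_Rq hh
  obtain ⟨T, hT1, hT2, hT3, hT4⟩ := H ℂ (Rq h) (Fin F.natDegree) (Zq h) (fun m => Zq_finite h m)
    (alq h z (cst z a0)) (fun i => alq_ne_zero_of_two_le (by omega)) (moq h) (Zq_le_span h)
    (by
      intro j m hm
      have h2 := dim_conic (k := k) (j := j) (m := m) hh h1
        (by rw [Fintype.card_fin]; omega) hinj
        (fun i₀ i i' hi hi' hne => hgp i i' i₀ hne hi hi') hm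
      have h3 : ((2 * m + (2 * k) * j : ℕ) : ℝ) ≤
        (finrank ℂ (Wsp k (Zq h) (alq h z (cst z a0)) univ j m) : ℝ) := by exact_mod_cast h2
      push_cast at h3 ⊢
      linarith)
    (Fin F.natDegree) (fun l => Th h (Bt hF k M a0 l))
    (fun i => ∑ l : Fin F.natDegree, (z i ^ (l : ℕ)) • Th h (Bt hF k M a0 l)) (M : ℂ)
    (by exact_mod_cast hM) (fun l => Th_Bt_natDegree hF h k M a0 l)
    (fun i => c_natDegree hF z h k M a0 i)
    (fun i => coeff_c hF z (by omega) hinj hz h k hM a0 i)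
    (fun i => Submodule.sum_mem _ fun l _ => Submodule.smul_mem _ _
        (Submodule.subset_span ⟨l, rfl⟩))
  exact ⟨T, hT1, hT2, fun a h0 => int_indep hF z (by omega) hinj hz h k M J a0 hT3 a h0, hT4⟩

/-- **curves of degree `δ`** (used for `δ ≥ 3`) -/
theorem curveFam_high (z : Fin F.natDegree → ℂ) (hd : 2 ≤ F.natDegree)
    (hinj : Function.Injective z) (hz : ∀ i, F.eval₂ (Int.castRingHom ℂ) (z i) = 0) {k : ℕ}
    (δ : ℕ) (hδ : 2 ≤ δ) (ρ : ℝ) {κ : ℝ} (hκ : 0 < κ) (hthr : 1 < κ * δ) :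
    CurveFam hF k ρ κ (fun _ h => Prime h ∧ h.totalDegree = δ) := by
  obtain ⟨Y, m, w, s, hw, W, hW, H⟩ := exists_family0 δ (δ * δ) hκ hthr ρ
  refine ⟨Y, m, 0, w, s, hw, W, hW, ?_⟩
  rintro a0 h ⟨hh, h1⟩ M hM
  have hdom := isDomain_Rq hh
  obtain ⟨T, hT1, hT2, hT3, hT4⟩ := H ℂ (Rq h) (Fin F.natDegree) k (Zq h)
    (fun m => Zq_finite h m) (alq h z (cst z a0)) (fun i => alq_ne_zero_of_two_le (by omega))
    (moq h) (Zq_le_span h)
    (by
      intro m
      have := finrank_Zq_ge hh.ne_zero m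
      rwa [h1] at this)
    (Fin F.natDegree) (fun l => Th h (Bt hF k M a0 l))
  refine ⟨T, hT1, fun ω hω => ⟨(hT2 ω hω).1, ?_⟩,
    fun a h0 => int_indep hF z hd hinj hz h k M 0 a0 hT3 a h0, hT4⟩
  rw [(hT2 ω hω).2]
  simp

end bridge

end Crest.Agent.R022.Free712
end

-- ▼ part R022/Free776L
section

/-! Row 22, stage 3 (helper776): lines in a slice. Generic / special dichotomy. -/

set_option autoImplicit false

namespace Crest.Agent.R022.Free776L

open Polynomial Crest.Agent.R022.Torsor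

section field

variable {L : Type*} [Field L] [Algebra ℚ L] [FiniteDimensional ℚ L]

open IntermediateField in
theorem norm_add_eq_pow (ξ : L) (s : ℚ) : ∃ y : ℚ,
    Algebra.norm ℚ (ξ + algebraMap ℚ L s) = y ^ (Module.finrank ℚ⟮ξ⟯ L) := by
  set g : ℚ⟮ξ⟯ := AdjoinSimple.gen ℚ ξ + algebraMap ℚ ℚ⟮ξ⟯ s with hg
  refine ⟨Algebra.norm ℚ g, ?_⟩
  have h1 : ξ + algebraMap ℚ L s = algebraMap ℚ⟮ξ⟯ L g := by
    rw [hg, map_add, AdjoinSimple.algebraMap_gen, ← IsScalarTower.algebraMap_apply]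
  rw [h1, ← Algebra.norm_norm (S := ℚ⟮ξ⟯), Algebra.norm_algebraMap, map_pow]

open IntermediateField in
theorem two_le_finrank (ξ : L) {σ τ : L →ₐ[ℚ] ℂ} (hne : σ ≠ τ) (h : σ ξ = τ ξ) :
    2 ≤ Module.finrank ℚ⟮ξ⟯ L := by
  by_contra hlt
  have hpos : 0 < Module.finrank ℚ⟮ξ⟯ L := Module.finrank_pos
  have h1 : Module.finrank ℚ⟮ξ⟯ L = 1 := by omega
  rw [IntermediateField.finrank_eq_one_iff_eq_top] at h1
  apply hne
  ext x
  have hx : x ∈ ℚ⟮ξ⟯ := by rw [h1]; trivial
  induction hx using IntermediateField.adjoin_induction with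
  | mem x hx =>
    rw [Set.mem_singleton_iff] at hx
    rw [hx, h]
  | algebraMap x => rw [AlgHom.commutes, AlgHom.commutes]
  | add x y _ _ hx hy => rw [map_add, map_add, hx, hy]
  | inv x _ hx => rw [map_inv₀, map_inv₀, hx]
  | mul x y _ _ hx hy => rw [map_mul, map_mul, hx, hy]

end field

/-- the valuation argument -/
theorem same_prime {U y y' : ℚ} (hU : U ≠ 0) {e : ℕ} (he : 2 ≤ e) {p p' : ℕ} (hp : p.Prime)
    (hp' : p'.Prime) {c c' : ℤ} (hc : c ≠ 0) (hc' : c' ≠ 0) {C : ℕ} (hC : C < p)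
    (hcC : |c| ≤ C) (hcC' : |c'| ≤ C) (h : (p * c : ℚ) = U * y ^ e)
    (h' : (p' * c' : ℚ) = U * y' ^ e) : p = p' := by
  by_contra hne
  have : Fact p.Prime := ⟨hp⟩
  have hpc : ∀ x : ℤ, x ≠ 0 → |x| ≤ C → padicValRat p (x : ℚ) = 0 := by
    intro x hx hxC
    rw [padicValRat.of_int]
    have h1 : ¬ (p : ℤ) ∣ x := by
      intro hd
      have h2 := Int.le_of_dvd (abs_pos.2 hx) ((dvd_abs _ _).2 hd)
      omega
    have h2 : padicValInt p x = 0 := padicValInt.eq_zero_of_not_dvd h1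
    rw [h2]; rfl
  have hy : y ^ e ≠ 0 := by
    intro h0
    rw [h0, mul_zero] at h
    have := mul_ne_zero (Nat.cast_ne_zero (R := ℚ).2 hp.ne_zero) (Int.cast_ne_zero (α := ℚ).2 hc)
    exact this h
  have hy' : y' ^ e ≠ 0 := by
    intro h0
    rw [h0, mul_zero] at h'
    have := mul_ne_zero (Nat.cast_ne_zero (R := ℚ).2 hp'.ne_zero) (Int.cast_ne_zero (α := ℚ).2 hc')
    exact this h'
  have hy0 : y ≠ 0 := by
    rintro rfl
    exact hy (zero_pow (by omega))
  have hy0' : y' ≠ 0 := by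
    rintro rfl
    exact hy' (zero_pow (by omega))
  have e1 : padicValRat p (p * c : ℚ) = 1 := by
    rw [padicValRat.mul (Nat.cast_ne_zero.2 hp.ne_zero) (Int.cast_ne_zero.2 hc), hpc c hc hcC,
      padicValRat.self hp.one_lt, add_zero]
  have e2 : padicValRat p (p' * c' : ℚ) = 0 := by
    rw [padicValRat.mul (Nat.cast_ne_zero.2 hp'.ne_zero) (Int.cast_ne_zero.2 hc'), hpc c' hc' hcC',
      add_zero, padicValRat.of_nat]
    have h3 : padicValNat p p' = 0 := by
      rw [padicValNat.eq_zero_iff]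
      right; right
      intro hd
      exact hne ((Nat.prime_dvd_prime_iff_eq hp hp').1 hd)
    rw [h3]; rfl
  rw [h, padicValRat.mul hU hy, padicValRat.pow] at e1
  rw [h', padicValRat.mul hU hy', padicValRat.pow] at e2
  have e3 : (e : ℤ) * (padicValRat p y - padicValRat p y') = 1 := by linarith
  have e4 : (e : ℤ) ∣ 1 := Dvd.intro _ e3
  have e5 := Int.le_of_dvd one_pos e4
  omega

section main

variable {F : ℤ[X]}

theorem cj_emb (z : Fin F.natDegree → ℂ) (hd : 2 ≤ F.natDegree) (a0 : Fin F.natDegree → ℤ)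
    (t : Fin 2 → ℤ) (i : Fin F.natDegree) :
    cj z (emb 2 a0 t) i = t 0 + z i * t 1 + cst z a0 i := by
  rw [← eval_aP, aP_two z hd a0 i]
  simp

theorem comp_cast : (algebraMap ℚ ℂ).comp (Int.castRingHom ℚ) = Int.castRingHom ℂ :=
  Subsingleton.elim _ _

/-- a root of an irreducible polynomial of degree `≥ 2` is irrational -/
theorem nu_ne_zero (hirr : Irreducible (F.map (Int.castRingHom ℚ))) (hF : F.Monic)
    (hd : 2 ≤ F.natDegree) {z : ℂ} (hz : F.eval₂ (Int.castRingHom ℂ) z = 0) {v0 v1 : ℤ}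
    (hv : v0 ≠ 0 ∨ v1 ≠ 0) : (v0 : ℂ) + z * v1 ≠ 0 := by
  intro h0
  by_cases h1 : v1 = 0
  · rw [h1] at h0
    simp only [Int.cast_zero, mul_zero, add_zero, Int.cast_eq_zero] at h0
    rcases hv with h | h
    · exact h h0
    · exact h h1
  · have h2 : (v1 : ℂ) ≠ 0 := Int.cast_ne_zero.2 h1
    have h3 : z = algebraMap ℚ ℂ ((-v0 : ℚ) / v1) := by
      rw [eq_ratCast]
      push_cast
      rw [eq_div_iff h2]
      linear_combination h0
    have h4 : (F.map (Int.castRingHom ℚ)).eval ((-v0 : ℚ) / v1) = 0 := by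
      have h5 : algebraMap ℚ ℂ ((F.map (Int.castRingHom ℚ)).eval ((-v0 : ℚ) / v1)) = 0 := by
        rw [← Polynomial.aeval_algebraMap_apply_eq_algebraMap_eval, Polynomial.aeval_def,
          Polynomial.eval₂_map, comp_cast, ← h3]
        exact hz
      exact (map_eq_zero _).1 h5
    have h6 : (F.map (Int.castRingHom ℚ)).degree = 1 :=
      Polynomial.degree_eq_one_of_irreducible_of_root hirr h4
    have h7 : (F.map (Int.castRingHom ℚ)).natDegree = F.natDegree := hF.natDegree_map _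
    have h8 : (F.map (Int.castRingHom ℚ)).natDegree = 1 :=
      Polynomial.natDegree_eq_of_degree_eq_some (n := 1) (by exact_mod_cast h6)
    omega

/-- the number field generated by a root of `F`, with all its complex embeddings -/
theorem exists_field (hF : F.Monic) (hirr : Irreducible (F.map (Int.castRingHom ℚ)))
    {z : Fin F.natDegree → ℂ} (hinj : Function.Injective z)
    (hz : ∀ i, F.eval₂ (Int.castRingHom ℂ) (z i) = 0) :
    ∃ (L : Type) (_ : Field L) (_ : Algebra ℚ L) (_ : FiniteDimensional ℚ L) (θ : L)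
      (σ : Fin F.natDegree → (L →ₐ[ℚ] ℂ)), Function.Bijective σ ∧ ∀ i, σ i θ = z i := by
  have hfact : Fact (Irreducible (F.map (Int.castRingHom ℚ))) := ⟨hirr⟩
  let alg : Algebra ℚ (AdjoinRoot (F.map (Int.castRingHom ℚ))) := Ideal.Quotient.algebra ℚ
  have hfin : @Module.Finite ℚ (AdjoinRoot (F.map (Int.castRingHom ℚ))) _ _ alg.toModule :=
    Module.Finite.of_basis (AdjoinRoot.powerBasis hirr.ne_zero).basis
  have he : ∀ i, (F.map (Int.castRingHom ℚ)).eval₂ ((Algebra.ofId ℚ ℂ : ℚ →ₐ[ℚ] ℂ) : ℚ →+* ℂ)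
      (z i) = 0 := by
    intro i
    rw [Polynomial.eval₂_map, show ((Algebra.ofId ℚ ℂ : ℚ →ₐ[ℚ] ℂ) : ℚ →+* ℂ) = algebraMap ℚ ℂ
      from rfl, comp_cast]
    exact hz i
  let σ : Fin F.natDegree → (AdjoinRoot (F.map (Int.castRingHom ℚ)) →ₐ[ℚ] ℂ) := fun i =>
    AdjoinRoot.liftAlgHom _ (Algebra.ofId ℚ ℂ) (z i) (he i)
  have hσ : ∀ i, σ i (AdjoinRoot.root _) = z i := fun i => AdjoinRoot.liftAlgHom_root _ _ _ _
  refine ⟨AdjoinRoot (F.map (Int.castRingHom ℚ)), inferInstance, alg, hfin, AdjoinRoot.root _, σ,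
    ?_, hσ⟩
  rw [Fintype.bijective_iff_injective_and_card]
  constructor
  · intro i j hij
    apply hinj
    rw [← hσ i, ← hσ j, hij]
  · have h9 := (AdjoinRoot.powerBasis hirr.ne_zero).finrank
    rw [AdjoinRoot.powerBasis_dim, hF.natDegree_map] at h9
    rw [Fintype.card_fin, AlgHom.card ℚ (AdjoinRoot (F.map (Int.castRingHom ℚ))) ℂ]
    exact h9.symm

/-- the norm as a product over the embeddings -/
theorem norm_prod {L : Type} [Field L] [Algebra ℚ L] [FiniteDimensional ℚ L] {ι : Type*}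
    [Fintype ι] (σ : ι → (L →ₐ[ℚ] ℂ)) (hσ : Function.Bijective σ) (x : L) :
    ((Algebra.norm ℚ x : ℚ) : ℂ) = ∏ i, σ i x := by
  have h1 := Algebra.norm_eq_prod_embeddings ℚ ℂ x
  rw [eq_ratCast] at h1
  rw [h1]
  exact (Fintype.prod_bijective _ hσ _ _ fun i => rfl).symm

/-- special direction: the norm on the line is `U y^e`, `e ≥ 2` -/
theorem special_norm (hF : F.Monic) (hirr : Irreducible (F.map (Int.castRingHom ℚ)))
    (hd : 2 ≤ F.natDegree) {z : Fin F.natDegree → ℂ} (hinj : Function.Injective z)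
    (hz : ∀ i, F.eval₂ (Int.castRingHom ℂ) (z i) = 0) (a0 : Fin F.natDegree → ℤ)
    (t0 v : Fin 2 → ℤ) (hv : v 0 ≠ 0 ∨ v 1 ≠ 0) {i j : Fin F.natDegree} (hij : i ≠ j)
    (hsp : cj z (emb 2 a0 t0) i * ((v 0 : ℂ) + z j * v 1) =
      cj z (emb 2 a0 t0) j * ((v 0 : ℂ) + z i * v 1)) :
    ∃ (U : ℚ) (e : ℕ), U ≠ 0 ∧ 2 ≤ e ∧ ∀ (t : Fin 2 → ℤ) (s : ℚ),
      (∀ l, (t l : ℚ) = t0 l + s * v l) →
      ∃ y : ℚ, ((nm hF (el F (emb 2 a0 t)) : ℤ) : ℚ) = U * y ^ e := by
  obtain ⟨L, _, _, _, θ, σ, hσ, hσθ⟩ := exists_field hF hirr hinj hz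
  set ν : L := (v 0 : L) + θ * (v 1 : L) with hν
  have hσν : ∀ i, σ i ν = (v 0 : ℂ) + z i * v 1 := by
    intro i
    rw [hν, map_add, map_mul, map_intCast, map_intCast, hσθ]
  have hν0 : ν ≠ 0 := by
    intro h0
    have h1 := hσν i
    rw [h0, map_zero] at h1
    exact nu_ne_zero hirr hF hd (hz i) hv h1.symm
  set x0 : L := ∑ l, (emb 2 a0 t0 l : L) * θ ^ (l : ℕ) with hx0
  have hσx : ∀ (t : Fin 2 → ℤ) i, σ i (∑ l, (emb 2 a0 t l : L) * θ ^ (l : ℕ)) =
      cj z (emb 2 a0 t) i := by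
    intro t i
    unfold cj
    rw [map_sum]
    refine Finset.sum_congr rfl fun l _ => ?_
    rw [map_mul, map_pow, hσθ, map_intCast]
  set ξ : L := x0 / ν with hξ
  have hne : σ i ≠ σ j := fun h => hij (hσ.1 h)
  have hξij : σ i ξ = σ j ξ := by
    rw [hξ, map_div₀, map_div₀, hx0, hσx, hσx, hσν, hσν, div_eq_div_iff
      (nu_ne_zero hirr hF hd (hz i) hv) (nu_ne_zero hirr hF hd (hz j) hv)]
    exact hsp
  refine ⟨Algebra.norm ℚ ν, _, (Algebra.norm_ne_zero_iff).2 hν0, two_le_finrank ξ hne hξij, ?_⟩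
  intro t s hts
  obtain ⟨y, hy⟩ := norm_add_eq_pow ξ s
  refine ⟨y, ?_⟩
  rw [← hy, ← map_mul]
  have h1 : ν * (ξ + algebraMap ℚ L s) = ∑ l, (emb 2 a0 t l : L) * θ ^ (l : ℕ) := by
    have hinjσ : Function.Injective (σ i) := (σ i).toRingHom.injective
    apply hinjσ
    rw [hσx, map_mul, hσν, map_add, AlgHom.commutes, hξ, map_div₀, hx0, hσx, hσν, cj_emb z hd,
      cj_emb z hd]
    have h2 := nu_ne_zero hirr hF hd (hz i) hv
    have h3 : ((t 0 : ℚ) : ℂ) = ((t0 0 + s * v 0 : ℚ) : ℂ) := by rw [hts 0]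
    have h4 : ((t 1 : ℚ) : ℂ) = ((t0 1 + s * v 1 : ℚ) : ℂ) := by rw [hts 1]
    push_cast at h3 h4
    rw [eq_ratCast, mul_add, mul_div_cancel₀ _ h2, h3, h4]
    ring
  rw [h1]
  have h2 : ((((nm hF (el F (emb 2 a0 t)) : ℤ) : ℚ)) : ℂ) =
      ((Algebra.norm ℚ (∑ l, (emb 2 a0 t l : L) * θ ^ (l : ℕ)) : ℚ) : ℂ) := by
    rw [norm_prod σ hσ, Rat.cast_intCast, nm_eq_prod hF z hinj hz]
    exact Finset.prod_congr rfl fun i _ => (hσx t i).symm
  exact_mod_cast h2

/-- all points of a special line have the same prime, hence there are boundedly many -/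
theorem special_card (hF : F.Monic) (hirr : Irreducible (F.map (Int.castRingHom ℚ)))
    (hd : 2 ≤ F.natDegree) {z : Fin F.natDegree → ℂ} (hinj : Function.Injective z)
    (hz : ∀ i, F.eval₂ (Int.castRingHom ℂ) (z i) = 0) (a0 : Fin F.natDegree → ℤ) (C : ℕ)
    (T : Finset (Fin 2 → ℤ))
    (hT : ∀ t ∈ T, ∃ (p : ℕ) (c : ℤ), p.Prime ∧ C < p ∧ nm hF (el F (emb 2 a0 t)) = p * c ∧
      c ≠ 0 ∧ |c| ≤ C)
    (t0 v : Fin 2 → ℤ) (hv : v 0 ≠ 0 ∨ v 1 ≠ 0) {i j : Fin F.natDegree} (hij : i ≠ j)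
    (hsp : cj z (emb 2 a0 t0) i * ((v 0 : ℂ) + z j * v 1) =
      cj z (emb 2 a0 t0) j * ((v 0 : ℂ) + z i * v 1))
    (hline : ∀ t ∈ T, ∃ s : ℚ, ∀ l, (t l : ℚ) = t0 l + s * v l) :
    T.card ≤ F.natDegree * (2 * C + 1) := by
  classical
  obtain ⟨U, e, hU, he, hUe⟩ := special_norm hF hirr hd hinj hz a0 t0 v hv hij hsp
  rcases T.eq_empty_or_nonempty with hT0 | ⟨t1, ht1⟩
  · simp [hT0]
  obtain ⟨p, c1, hp, hCp, hn1, hc1, hc1C⟩ := hT t1 ht1
  obtain ⟨s1, hs1⟩ := hline t1 ht1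
  obtain ⟨y1, hy1⟩ := hUe t1 s1 hs1
  have hall : ∀ t ∈ T, ∃ c : ℤ, nm hF (el F (emb 2 a0 t)) = p * c ∧ |c| ≤ C := by
    intro t ht
    obtain ⟨p', c, hp', hCp', hn, hc, hcC⟩ := hT t ht
    obtain ⟨s, hs⟩ := hline t ht
    obtain ⟨y, hy⟩ := hUe t s hs
    have h1 : p = p' := by
      refine same_prime (y := y1) (y' := y) hU he hp hp' hc1 hc hCp hc1C hcC ?_ ?_
      · rw [← hy1, hn1]; push_cast; ring
      · rw [← hy, hn]; push_cast; ring
    exact ⟨c, by rw [hn, h1], hcC⟩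
  choose! cc hcc using hall
  have hmaps : ∀ t ∈ T, cc t ∈ Finset.Icc (-(C : ℤ)) C := by
    intro t ht
    rw [Finset.mem_Icc, ← abs_le]
    exact (hcc t ht).2
  have hcard := Finset.card_le_mul_card_image_of_maps_to hmaps F.natDegree (fun c _ => ?_)
  · rw [Int.card_Icc] at hcard
    have : (((C : ℤ) + 1 - -(C : ℤ)).toNat) = 2 * C + 1 := by omega
    rwa [this] at hcard
  · -- the polynomial in `s`
    choose! ss hss using hline
    set Q : ℂ[X] := (∏ i, (Polynomial.C (cj z (emb 2 a0 t0) i) +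
      Polynomial.C ((v 0 : ℂ) + z i * v 1) * X)) - Polynomial.C ((p : ℂ) * c) with hQ
    have hdeg1 : ∀ i, (Polynomial.C (cj z (emb 2 a0 t0) i) +
      Polynomial.C ((v 0 : ℂ) + z i * v 1) * X).natDegree = 1 := by
      intro i
      rw [add_comm]
      exact Polynomial.natDegree_linear (nu_ne_zero hirr hF hd (hz i) hv)
    have hdeg : (∏ i, (Polynomial.C (cj z (emb 2 a0 t0) i) +
      Polynomial.C ((v 0 : ℂ) + z i * v 1) * X)).natDegree = F.natDegree := by
      rw [Polynomial.natDegree_prod _ _ fun i _ => ?_]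
      · rw [Finset.sum_congr rfl fun i _ => hdeg1 i]
        simp
      · intro h0
        have := hdeg1 i
        rw [h0] at this
        simp at this
    have hQdeg : Q.natDegree = F.natDegree := by
      rw [hQ, Polynomial.natDegree_sub_C, hdeg]
    have hQ0 : Q ≠ 0 := by
      intro h0
      rw [h0, Polynomial.natDegree_zero] at hQdeg
      omega
    have hroot : ∀ t ∈ T.filter (fun t => cc t = c), ((ss t : ℚ) : ℂ) ∈ Q.roots.toFinset := by
      intro t ht
      rw [Finset.mem_filter] at ht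
      rw [Multiset.mem_toFinset, Polynomial.mem_roots hQ0, Polynomial.IsRoot.def, hQ,
        Polynomial.eval_sub, Polynomial.eval_prod, Polynomial.eval_C, sub_eq_zero]
      have h1 := (hcc t ht.1).1
      have h2 := nm_eq_prod hF z hinj hz (emb 2 a0 t)
      rw [h1, ht.2] at h2
      push_cast at h2
      rw [h2]
      refine Finset.prod_congr rfl fun i _ => ?_
      have h3 : ((t 0 : ℚ) : ℂ) = ((t0 0 + ss t * v 0 : ℚ) : ℂ) := by rw [hss t ht.1 0]
      have h4 : ((t 1 : ℚ) : ℂ) = ((t0 1 + ss t * v 1 : ℚ) : ℂ) := by rw [hss t ht.1 1]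
      push_cast at h3 h4
      rw [cj_emb z hd, cj_emb z hd, h3, h4]
      simp only [Polynomial.eval_add, Polynomial.eval_C, Polynomial.eval_mul, Polynomial.eval_X]
      ring
    have hinj2 : Set.InjOn (fun t => ((ss t : ℚ) : ℂ)) (T.filter (fun t => cc t = c) : Set _) := by
      intro t ht t' ht' h
      rw [Finset.mem_coe, Finset.mem_filter] at ht ht'
      have h' : ss t = ss t' := Rat.cast_injective (α := ℂ) h
      funext l
      have h1 := hss t ht.1 l
      have h2 := hss t' ht'.1 l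
      rw [h', ← h2] at h1
      exact_mod_cast h1
    have h5 := Finset.card_le_card_of_injOn _ hroot hinj2
    refine h5.trans ((Multiset.toFinset_card_le _).trans ((Polynomial.card_roots' Q).trans ?_))
    rw [hQdeg]

/-- **Dichotomy for lines in a slice.** For a complex line `h0 + h1 t_0 + h2 t_1 = 0` containing the
points `T` of a slice: either no direction is degenerate and the zeros of the `α_i` on the line are
pairwise distinct, or there are boundedly many points. (`-(h0 - h1 cst_i) / (h2 - h1 z_i)` is the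
`t_1`-coordinate of the intersection with `α_i = 0`.) -/
theorem line_dichotomy (hF : F.Monic) (hirr : Irreducible (F.map (Int.castRingHom ℚ)))
    (hd : 2 ≤ F.natDegree) {z : Fin F.natDegree → ℂ} (hinj : Function.Injective z)
    (hz : ∀ i, F.eval₂ (Int.castRingHom ℂ) (z i) = 0) (a0 : Fin F.natDegree → ℤ) (C : ℕ)
    (T : Finset (Fin 2 → ℤ))
    (hT : ∀ t ∈ T, ∃ (p : ℕ) (c : ℤ), p.Prime ∧ C < p ∧ nm hF (el F (emb 2 a0 t)) = p * c ∧
      c ≠ 0 ∧ |c| ≤ C)
    (h0 h1 h2 : ℂ) (hh : h1 ≠ 0 ∨ h2 ≠ 0)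
    (hline : ∀ t ∈ T, h0 + h1 * t 0 + h2 * t 1 = 0) :
    ((∀ i, h2 - h1 * z i ≠ 0) ∧ ∀ i j, i ≠ j →
      (z j - z i) * (-(h0 - h1 * cst z a0 i) / (h2 - h1 * z i)) +
        (cst z a0 j - cst z a0 i) ≠ 0) ∨ T.card ≤ F.natDegree * (2 * C + 1) := by
  classical
  rcases Nat.lt_or_ge 1 T.card with hcard | hcard
  swap
  · right
    calc T.card ≤ 1 := hcard
      _ ≤ F.natDegree * (2 * C + 1) := Nat.one_le_iff_ne_zero.2 (by positivity)
  obtain ⟨t0, ht0, t1, ht1, hne⟩ := Finset.one_lt_card.1 hcard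
  set v : Fin 2 → ℤ := t1 - t0 with hvdef
  have hv : v 0 ≠ 0 ∨ v 1 ≠ 0 := by
    by_contra hcon
    push Not at hcon
    apply hne
    funext l
    have h3 : ∀ l, v l = 0 := by
      intro l
      fin_cases l
      · exact hcon.1
      · exact hcon.2
    have := h3 l
    rw [hvdef, Pi.sub_apply] at this
    omega
  have hl0 := hline t0 ht0
  have horth : ∀ t ∈ T, h1 * ((t 0 : ℂ) - t0 0) + h2 * ((t 1 : ℂ) - t0 1) = 0 := by
    intro t ht
    have := hline t ht
    linear_combination this - hl0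
  have hv0 : (v 0 : ℂ) = (t1 0 : ℂ) - t0 0 := by rw [hvdef]; push_cast [Pi.sub_apply]; ring
  have hv1 : (v 1 : ℂ) = (t1 1 : ℂ) - t0 1 := by rw [hvdef]; push_cast [Pi.sub_apply]; ring
  have horthv : h1 * (v 0 : ℂ) + h2 * (v 1 : ℂ) = 0 := by
    rw [hv0, hv1]
    exact horth t1 ht1
  have hvC : (v 0 : ℂ) ≠ 0 ∨ (v 1 : ℂ) ≠ 0 := by
    rcases hv with h | h
    · exact Or.inl (Int.cast_ne_zero.2 h)
    · exact Or.inr (Int.cast_ne_zero.2 h)
  -- `(h1, h2) = lam (v1, -v0)`
  obtain ⟨lam, hlam0, hlam1, hlam2⟩ : ∃ lam : ℂ, lam ≠ 0 ∧ h1 = lam * v 1 ∧ h2 = -lam * v 0 := by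
    rcases hvC with h | h
    · refine ⟨-h2 / v 0, ?_, ?_, ?_⟩
      · intro h3
        rw [div_eq_zero_iff] at h3
        rcases h3 with h3 | h3
        · have h4 : h2 = 0 := neg_eq_zero.1 h3
          rw [h4, zero_mul, add_zero] at horthv
          rcases hh with h5 | h5
          · exact h5 ((mul_eq_zero.1 horthv).resolve_right h)
          · exact h5 h4
        · exact h h3
      · field_simp
        linear_combination horthv
      · field_simp
    · refine ⟨h1 / v 1, ?_, ?_, ?_⟩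
      · intro h3
        rw [div_eq_zero_iff] at h3
        rcases h3 with h3 | h3
        · rw [h3, zero_mul, zero_add] at horthv
          rcases hh with h5 | h5
          · exact h5 h3
          · exact h5 ((mul_eq_zero.1 horthv).resolve_right h)
        · exact h h3
      · field_simp
      · field_simp
        linear_combination horthv
  have hν : ∀ i, (v 0 : ℂ) + z i * v 1 ≠ 0 := fun i => nu_ne_zero hirr hF hd (hz i) hv
  have hden : ∀ i, h2 - h1 * z i = -lam * ((v 0 : ℂ) + z i * v 1) := by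
    intro i
    rw [hlam1, hlam2]
    ring
  have hden0 : ∀ i, h2 - h1 * z i ≠ 0 := by
    intro i
    rw [hden]
    exact mul_ne_zero (neg_ne_zero.2 hlam0) (hν i)
  by_cases hgen : ∀ i j, i ≠ j →
      (z j - z i) * (-(h0 - h1 * cst z a0 i) / (h2 - h1 * z i)) +
        (cst z a0 j - cst z a0 i) ≠ 0
  · exact Or.inl ⟨hden0, hgen⟩
  right
  push Not at hgen
  obtain ⟨i, j, hij, hz0⟩ := hgen
  refine special_card hF hirr hd hinj hz a0 C T hT t0 v hv hij ?_ ?_
  · rw [cj_emb z hd, cj_emb z hd]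
    have h3 : (z j - z i) * (-(h0 - h1 * cst z a0 i)) +
        (cst z a0 j - cst z a0 i) * (h2 - h1 * z i) = 0 := by
      have h5 := div_mul_cancel₀ (-(h0 - h1 * cst z a0 i)) (hden0 i)
      linear_combination (h2 - h1 * z i) * hz0 - (z j - z i) * h5
    rw [hden, hlam1] at h3
    have h5 : h0 = -(lam * v 1) * t0 0 + lam * v 0 * t0 1 := by
      rw [hlam1, hlam2] at hl0
      linear_combination hl0
    rw [h5] at h3
    have h6 : lam * (((t0 0 : ℂ) + z i * t0 1 + cst z a0 i) * ((v 0 : ℂ) + z j * v 1) -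
        ((t0 0 : ℂ) + z j * t0 1 + cst z a0 j) * ((v 0 : ℂ) + z i * v 1)) = 0 := by
      linear_combination h3
    have h7 := (mul_eq_zero.1 h6).resolve_left hlam0
    exact sub_eq_zero.1 h7
  · intro t ht
    have h3 := horth t ht
    rw [hlam1, hlam2] at h3
    have h4 : ((t 0 : ℂ) - t0 0) * v 1 = ((t 1 : ℂ) - t0 1) * v 0 := by
      have : lam * (((t 0 : ℂ) - t0 0) * v 1 - ((t 1 : ℂ) - t0 1) * v 0) = 0 := by
        linear_combination h3
      exact sub_eq_zero.1 ((mul_eq_zero.1 this).resolve_left hlam0)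
    have h5 : ((t 0 : ℚ) - t0 0) * v 1 = ((t 1 : ℚ) - t0 1) * v 0 := by exact_mod_cast h4
    rcases hv with h | h
    · have h' : (v 0 : ℚ) ≠ 0 := Int.cast_ne_zero.2 h
      refine ⟨((t 0 : ℚ) - t0 0) / v 0, fun l => ?_⟩
      fin_cases l
      · show (t 0 : ℚ) = t0 0 + ((t 0 : ℚ) - t0 0) / v 0 * v 0
        field_simp
        ring
      · show (t 1 : ℚ) = t0 1 + ((t 0 : ℚ) - t0 0) / v 0 * v 1
        field_simp
        linear_combination -h5
    · have h' : (v 1 : ℚ) ≠ 0 := Int.cast_ne_zero.2 h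
      refine ⟨((t 1 : ℚ) - t0 1) / v 1, fun l => ?_⟩
      fin_cases l
      · show (t 0 : ℚ) = t0 0 + ((t 1 : ℚ) - t0 1) / v 1 * v 0
        field_simp
        linear_combination h5
      · show (t 1 : ℚ) = t0 1 + ((t 1 : ℚ) - t0 1) / v 1 * v 1
        field_simp
        ring

/-- `line_dichotomy` for the points of a slice -/
theorem line_dichotomy_SPt (hF : F.Monic) (hirr : Irreducible (F.map (Int.castRingHom ℚ)))
    (hd : 2 ≤ F.natDegree) {z : Fin F.natDegree → ℂ} (hinj : Function.Injective z)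
    (hz : ∀ i, F.eval₂ (Int.castRingHom ℂ) (z i) = 0) (a0 : Fin F.natDegree → ℤ) (k C M : ℕ)
    (A ρ : ℝ) (T : Finset (Fin 2 → ℤ)) (m : (Fin 2 → ℤ) → ℤ)
    (b : (Fin 2 → ℤ) → Fin F.natDegree → ℤ)
    (hT : ∀ t ∈ T, IsSPt hF k C M A ρ a0 t (m t) (b t))
    (h0 h1 h2 : ℂ) (hh : h1 ≠ 0 ∨ h2 ≠ 0)
    (hline : ∀ t ∈ T, h0 + h1 * t 0 + h2 * t 1 = 0) :
    ((∀ i, h2 - h1 * z i ≠ 0) ∧ ∀ i j, i ≠ j →
      (z j - z i) * (-(h0 - h1 * cst z a0 i) / (h2 - h1 * z i)) +
        (cst z a0 j - cst z a0 i) ≠ 0) ∨ T.card ≤ F.natDegree * (2 * C + 1) := by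
  refine line_dichotomy hF hirr hd hinj hz a0 C T (fun t ht => ?_) h0 h1 h2 hh hline
  obtain ⟨p, c, h1, h2, _, _, h3, h4, h5, _⟩ := (hT t ht).norm
  exact ⟨p, c, h1, h2, h3, h4, h5⟩

end main

end Crest.Agent.R022.Free776L
end

-- ▼ part R022/Free712H

/-!
# R022, stage 3 (helper712), part H

Level L2: `n` free over a plane curve. Determinant step and final statement `free_curve`.
-/

set_option autoImplicit false

namespace Crest.Agent.R022.Free712

open Crest.Agent.R022.Torsor Crest.Agent.R022.Expand Crest.Agent.R022.Stage107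
open Polynomial (C X)

/-- functions with a one-parameter expansion are constant modulo `l` -/
theorem const_mod {P : Type*} {r : ℕ} {S : Set P} {s : P → Fin r → ℤ} {n' : P → ℤ} {l : ℤ}
    {φ : P → ℤ} (hs : ∀ p ∈ S, ∀ i, l ∣ s p i) (h : HasExp S s n' l 1 0 φ) :
    ∀ p ∈ S, ∀ p' ∈ S, l ∣ φ p - φ p' := by
  obtain ⟨G, hG, h⟩ := h
  obtain ⟨Q, rfl⟩ : ∃ Q, G = C Q := ⟨G.coeff 0, Polynomial.eq_C_of_natDegree_le_zero hG⟩
  intro p hp p' hp'
  have h1 := h p hp
  have h2 := h p' hp'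
  rw [Polynomial.eval₂_C, pow_one] at h1 h2
  have h3 : l ∣ MvPolynomial.eval (s p) Q - MvPolynomial.eval (s p') Q :=
    HasExp.dvd_eval_sub Q fun i => dvd_sub (hs p hp i) (hs p' hp' i)
  have h4 := dvd_add (dvd_sub h1 h2) h3
  exact dvd_congr_right h4 (by ring)

theorem card_box {S : Set (Fin 2 → ℤ)} {B : ℕ} (h : ∀ t ∈ S, ∀ i, |t i| ≤ B) :
    S.ncard ≤ (2 * B + 1) ^ 2 := by
  classical
  have h1 : S ⊆ ((Fintype.piFinset fun _ : Fin 2 => Finset.Icc (-(B : ℤ)) B :
      Finset (Fin 2 → ℤ)) : Set (Fin 2 → ℤ)) := by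
    intro t ht
    rw [Finset.mem_coe, Fintype.mem_piFinset]
    intro i
    rw [Finset.mem_Icc]
    exact abs_le.1 (h t ht i)
  have h2 := Set.ncard_le_ncard h1 (Finset.finite_toSet _)
  rw [Set.ncard_coe_finset, Fintype.card_piFinset] at h2
  refine h2.trans ?_
  rw [Finset.prod_const, Finset.card_univ, Fintype.card_fin, Int.card_Icc]
  refine Nat.pow_le_pow_left ?_ 2
  omega

section
variable {F : Polynomial ℤ} (hF : F.Monic)

/-- expansion of the coordinates `b_l` of `n`-degree one -/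
theorem hasExp_b {r : ℕ} {k Cc M : ℕ} {A ρ : ℝ} {a0 : Fin F.natDegree → ℤ}
    {S : Set (Fin 2 → ℤ)} {n : (Fin 2 → ℤ) → ℤ} {b : (Fin 2 → ℤ) → Fin F.natDegree → ℤ}
    (hpt : ∀ t ∈ S, IsSPt hF k Cc M A ρ a0 t (n t) (b t)) {l : ℤ}
    (hnm : ∀ t ∈ S, IsCoprime (nm hF (el F (emb 2 a0 t))) l)
    {s : (Fin 2 → ℤ) → Fin r → ℤ} (hs : ∀ t ∈ S, ∀ i, l ∣ s t i)
    (ht : ∀ (i : Fin 2) (n' : (Fin 2 → ℤ) → ℤ) (m : ℕ), HasExp S s n' l m 0 (fun t => t i))
    (hne : S.Nonempty) (m : ℕ) (j : Fin F.natDegree) :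
    HasExp S s n l m 1 (fun t => b t j) := by
  obtain ⟨t0, ht0⟩ := hne
  obtain ⟨u, v, huv⟩ := (hnm t0 ht0).pow_left (m := k)
  have hpoly : ∀ Q : MvPolynomial (Fin 2) ℤ, ∀ m, HasExp S s n l m 0
      (fun t => MvPolynomial.eval t Q) := fun Q m =>
    HasExp.mvPolynomial (fun t => t) (fun i => ht i n m) Q
  have h1 : HasExp S s n l m 1 (fun t => (M : ℤ) * (n t * MvPolynomial.eval t (Sf hF 2 a0 k 1 j) -
      MvPolynomial.eval t (Sf hF 2 a0 k (AdjoinRoot.root F) j))) := by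
    refine HasExp.const_mul _ ?_
    refine HasExp.sub ?_ ((hpoly _ m).mono (by omega))
    exact (HasExp.mul_zero_left (hpoly (Sf hF 2 a0 k 1 j) m) HasExp.var).congr
      fun t _ => by ring
  refine HasExp.div ((hpoly (Nf hF 2 a0) m).pow_zero k) u (fun t htS => ?_) h1 fun t htS => ?_
  · have h2 := const_mod hs (hpoly (Nf hF 2 a0) 1) t htS t0 ht0
    have h3 : l ∣ (MvPolynomial.eval t (Nf hF 2 a0)) ^ k - (MvPolynomial.eval t0 (Nf hF 2 a0)) ^ k :=
      h2.trans (sub_dvd_pow_sub_pow _ _ k)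
    rw [Nf_eval hF 2 a0 t0] at h3
    exact dvd_congr_right (dvd_sub (dvd_mul_left l v) (h3.mul_left u)) (by linear_combination -huv)
  · rw [mul_comm, coord_eq_slice hF 2 a0 t k M (n t) (b t) (hpt t htS).eqn j, sub_self]
    exact dvd_zero _

/-- **determinant step** -/
theorem step_of_fam (z : Fin F.natDegree → ℂ) (k : ℕ) {ρ κ : ℝ} (hρ : 0 < ρ)
    {P : (Fin F.natDegree → ℤ) → MvPolynomial (Fin 2) ℂ → Prop}
    (hfam : CurveFam hF k ρ κ P) (Cc M : ℕ) (hC : 0 < Cc) (hM : 0 < M) :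
    ∃ B D : ℕ, ∀ A : ℝ, 1 ≤ A → ∀ a0 S n b L, LevelData hF z k Cc M A ρ a0 S n b L κ →
      (∀ l ∈ L, Par 1 S (l : ℤ) {(fun t => t 0), (fun t => t 1)}) →
      ∀ h : MvPolynomial (Fin 2) ℂ, P a0 h → S.ncard ≤ B ∨
        ∃ g : Polynomial (MvPolynomial (Fin 2) ℤ), g.natDegree ≤ D ∧ CD g D ∧
          (∀ t ∈ S, ev3 g t (n t) = 0) ∧ Th h g ≠ 0 := by
  classical
  obtain ⟨Y, m, J, w, s, hw, W, hW, hfam⟩ := hfam
  set δ : ℝ := κ * w - W with hδ
  have hδ0 : 0 < δ := by rw [hδ]; linarith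
  set Q : ℝ := (s.factorial : ℝ) * (2 ^ Y * (Cc : ℝ) ^ J) ^ s with hQ
  have hC1 : (1 : ℝ) ≤ Cc := by exact_mod_cast hC
  have hQ1 : 1 ≤ Q := by
    rw [hQ]
    have h1 : (1 : ℝ) ≤ (s.factorial : ℝ) := by exact_mod_cast Nat.succ_le_of_lt s.factorial_pos
    have h2 : (1 : ℝ) ≤ (2 ^ Y * (Cc : ℝ) ^ J) ^ s :=
      one_le_pow₀ (one_le_mul_of_one_le_of_one_le (one_le_pow₀ (by norm_num)) (one_le_pow₀ hC1))
    exact one_le_mul_of_one_le_of_one_le h1 h2
  set A0 : ℝ := Q ^ (1 / δ) with hA0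
  set B0 : ℕ := ⌈2 * A0⌉₊ with hB0
  refine ⟨(2 * B0 + 1) ^ 2, J + Y + J * (k * F.natDegree), ?_⟩
  intro A hA a0 S n b L hLD hPar h hPh
  have hApos : 0 < A := by linarith
  rcases le_or_gt A A0 with hAs | hAl
  · left
    refine card_box fun t ht i => ?_
    have h1 := (hLD.pt t ht).t_le i
    have h2 : (2 * A0 : ℝ) ≤ B0 := Nat.le_ceil _
    have h3 : |(t i : ℝ)| ≤ (B0 : ℝ) := by linarith
    exact_mod_cast h3
  rcases S.eq_empty_or_nonempty with hemp | hne
  · left
    rw [hemp, Set.ncard_empty]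
    exact Nat.zero_le _
  right
  obtain ⟨T, hTc, hTw, hTi, hTW⟩ := hfam a0 h hPh (M : ℤ) (by exact_mod_cast hM.ne')
  obtain ⟨a, ha0, ha⟩ := relation_hasExp (ι := {ω // ω ∈ T}) (r := 1) (J := J) (m := m) (w := w)
    S (fun ω t => mval ω.1 t (b t)) L hLD.cop
    (by
      intro l hl
      obtain ⟨s, hs, hexp⟩ := hPar l hl
      have ht : ∀ (i : Fin 2) (n' : (Fin 2 → ℤ) → ℤ) (m : ℕ),
          HasExp S s n' (l : ℤ) m 0 (fun t => t i) := by
        intro i n' m
        fin_cases i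
        · exact hexp _ (Or.inl rfl) n' m
        · exact hexp _ (Or.inr rfl) n' m
      refine ⟨s, n, hs, fun ω => ?_⟩
      have hb : ∀ j, HasExp S s n (l : ℤ) m 1 (fun t => b t j) := fun j =>
        hasExp_b hF hLD.pt (hLD.nm l hl) hs ht hne m j
      have h1 : HasExp S s n (l : ℤ) m (∑ j, ω.1.2 j) (fun t => ∏ j, b t j ^ ω.1.2 j) := by
        refine HasExp.prod Finset.univ (fun j t => b t j ^ ω.1.2 j) (fun j => ω.1.2 j) ?_
        intro j _
        have := (hb j).pow (ω.1.2 j)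
        rwa [mul_one] at this
      have h2 : HasExp S s n (l : ℤ) m 0 (fun t => t 0 ^ ω.1.1.1 * t 1 ^ ω.1.1.2) :=
        HasExp.mul_zero_left ((ht 0 n m).pow_zero _) ((ht 1 n m).pow_zero _)
      exact (HasExp.mul_zero_left h2 h1).mono (hTw _ ω.2).2)
    (fun ω => 2 ^ Y * (Cc : ℝ) ^ J * A ^ Cnt.wt ρ ω.1)
    (by
      intro t ht ω
      exact abs_mval_le hρ hA Cc hC ω.1 Y J (hTw _ ω.2).1 (hTw _ ω.2).2 t (b t)
        (hLD.pt t ht).t_le (hLD.pt t ht).b_le)
    (by rw [Fintype.card_coe, hTc]; exact hw)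
    (by
      rw [Fintype.card_coe, hTc, Finset.prod_mul_distrib, Finset.prod_const, Finset.card_univ,
        Fintype.card_coe, hTc]
      have e1 : ∏ x : {ω // ω ∈ T}, A ^ Cnt.wt ρ x.1 = A ^ (∑ ω ∈ T, Cnt.wt ρ ω) := by
        rw [Finset.prod_coe_sort T (fun ω => A ^ Cnt.wt ρ ω)]
        rw [← Real.rpow_sum_of_pos hApos]
      rw [e1, ← mul_assoc, ← hQ]
      have e2 : A ^ (∑ ω ∈ T, Cnt.wt ρ ω) ≤ A ^ W := Real.rpow_le_rpow_of_exponent_le hA hTW
      have e3 : (A ^ κ) ^ w ≤ ((∏ l ∈ L, l : ℕ) : ℝ) ^ w :=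
        pow_le_pow_left₀ (Real.rpow_pos_of_pos hApos _).le hLD.big w
      refine lt_of_lt_of_le ?_ e3
      rw [← Real.rpow_natCast, ← Real.rpow_mul hApos.le]
      have e4 : κ * (w : ℝ) = δ + W := by rw [hδ]; ring
      rw [e4, Real.rpow_add hApos]
      have e5 : Q < A ^ δ := by
        have h1 : A0 ^ δ = Q := by
          rw [hA0, ← Real.rpow_mul (by linarith), one_div, inv_mul_cancel₀ hδ0.ne', Real.rpow_one]
        rw [← h1]
        exact Real.rpow_lt_rpow (Real.rpow_nonneg (by linarith) _) hAl hδ0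
      calc Q * A ^ (∑ ω ∈ T, Cnt.wt ρ ω) ≤ Q * A ^ W :=
            mul_le_mul_of_nonneg_left e2 (by linarith)
        _ < A ^ δ * A ^ W := mul_lt_mul_of_pos_right e5 (Real.rpow_pos_of_pos hApos _))
  -- the polynomial
  set a' : (ℕ × ℕ) × (Fin F.natDegree → ℕ) → ℤ := fun ω => if h : ω ∈ T then a ⟨ω, h⟩ else 0
    with ha'
  set G : Polynomial (MvPolynomial (Fin 2) ℤ) :=
    ∑ ω ∈ T, C (MvPolynomial.C (a' ω)) * Imon hF k J M a0 ω with hG
  refine ⟨G, ?_, ?_, ?_, ?_⟩
  · rw [hG]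
    refine (Polynomial.natDegree_sum_le_of_forall_le _ _ (n := J) fun ω hω => ?_).trans (by omega)
    exact (Polynomial.natDegree_C_mul_le _ _).trans
      ((natDegree_Imon hF k J M a0 ω).trans (hTw ω hω).2)
  · rw [hG]
    refine CD_sum _ _ _ fun ω hω => ?_
    have h1 := CD_mul (CD_C (x := MvPolynomial.C (a' ω)) (c := 0)
      (by rw [MvPolynomial.totalDegree_C])) (CD_Imon hF k J M a0 ω (hTw ω hω).2)
    refine h1.mono ?_
    have he : ω.1.1 + ω.1.2 ≤ Y := by
      have h3 : ((ω.1.1 + ω.1.2 : ℕ) : ℝ) ≤ Y := by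
        refine le_trans ?_ (hTw ω hω).1
        unfold Cnt.wt
        have : (0 : ℝ) ≤ ρ * ((∑ l, ω.2 l : ℕ) : ℝ) := by positivity
        linarith
      exact_mod_cast h3
    omega
  · intro t ht
    have h1 := ha t ht
    unfold ev3
    rw [hG, Polynomial.map_sum, Polynomial.eval_finsetSum]
    have h2 : ∀ ω ∈ T, ((C (MvPolynomial.C (a' ω)) * Imon hF k J M a0 ω).map
        (MvPolynomial.eval t)).eval (n t) =
        (a' ω * mval ω t (b t)) * (MvPolynomial.eval t (Nf hF 2 a0)) ^ (k * J) := by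
      intro ω hω
      have h3 := eval_Imon hF k J M a0 ω (hTw ω hω).2 t (n t) (b t) (hLD.pt t ht).eqn
      unfold ev3 at h3
      rw [Polynomial.map_mul, Polynomial.eval_mul, h3, Polynomial.map_C, Polynomial.eval_C,
        MvPolynomial.eval_C, mval]
      ring
    rw [Finset.sum_congr rfl h2, ← Finset.sum_mul]
    have h4 : ∑ ω ∈ T, a' ω * mval ω t (b t) = 0 := by
      rw [← Finset.sum_coe_sort T (fun ω => a' ω * mval ω t (b t)), ← h1]
      refine Finset.sum_congr rfl fun ω _ => ?_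
      simp only [ha', dif_pos ω.2]
    rw [h4, zero_mul]
  · intro hG0
    apply ha0
    funext ω
    have h6 : G = ∑ ω ∈ T, C (MvPolynomial.C (a' ω)) * Cnt.monZ hF k M J a0 ω := by
      rw [hG]
      refine Finset.sum_congr rfl fun ω _ => ?_
      rw [Stage107.Imon_eq_monZ hF k J (M : ℤ) a0 ω]
    rw [h6] at hG0
    have := hTi a' hG0 ω.1 ω.2
    simp only [ha', dif_pos ω.2] at this
    exact this

theorem LevelData.mono {z : Fin F.natDegree → ℂ} {k Cc M : ℕ} {A ρ : ℝ}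
    {a0 : Fin F.natDegree → ℤ} {S U : Set (Fin 2 → ℤ)} {n : (Fin 2 → ℤ) → ℤ}
    {b : (Fin 2 → ℤ) → Fin F.natDegree → ℤ} {L : Finset ℕ} {κ : ℝ}
    (h : LevelData hF z k Cc M A ρ a0 S n b L κ) (hU : U ⊆ S) :
    LevelData hF z k Cc M A ρ a0 U n b L κ :=
  ⟨h.a0_le, h.gp, h.fin.subset hU, fun t ht => h.pt t (hU ht), h.cop, h.big,
    fun l hl t ht => h.nm l hl t (hU ht)⟩

theorem Par.mono {P : Type*} {r : ℕ} {S U : Set P} {l : ℤ} {φs : Set (P → ℤ)}
    (h : Par r S l φs) (hU : U ⊆ S) : Par r U l φs := by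
  obtain ⟨s, hs, h⟩ := h
  exact ⟨s, fun p hp => hs p (hU hp), fun φ hφ n' m => (h φ hφ n' m).mono_set hU⟩

theorem C2_mul {ρ δ w' : ℝ} (hρ : 0 < ρ) : 505 / 1000 * ρ * (C2 ρ δ w' * ρ) =
    505 / 2000 * (δ * ρ + w') := by
  unfold C2
  field_simp
  ring

/-- **Level L2** over an irreducible plane curve. -/
theorem free_curve (hirr : Irreducible (F.map (Int.castRingHom ℚ))) (z : Fin F.natDegree → ℂ)
    (hinj : Function.Injective z) (hz : ∀ i, F.eval₂ (Int.castRingHom ℂ) (z i) = 0) {k : ℕ}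
    (hk : k + 2 = F.natDegree) (hk2 : 2 ≤ k) {ρ : ℝ} (hρ : (k : ℝ) / (k + 1) ≤ ρ) (Cc M : ℕ)
    (hC : 0 < Cc) (hM : 0 < M) (D1 : ℕ) :
    ∃ B D : ℕ, ∀ A : ℝ, 1 ≤ A → ∀ a0 S n b L,
      LevelData hF z k Cc M A ρ a0 S n b L (505 / 1000 * ρ) →
      (∀ l ∈ L, Par 1 S (l : ℤ) {(fun t => t 0), (fun t => t 1)}) →
      ∀ h : MvPolynomial (Fin 2) ℂ, Irreducible h → h.totalDegree ≤ D1 →
      ∀ U ⊆ S, (∀ t ∈ U, MvPolynomial.eval (fun i => (t i : ℂ)) h = 0) → U.ncard ≤ B ∨
        ∃ g : Polynomial (MvPolynomial (Fin 2) ℤ), g.natDegree ≤ D ∧ CD g D ∧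
          (∀ t ∈ U, ev3 g t (n t) = 0) ∧
          ¬ C h ∣ g.map (MvPolynomial.map (Int.castRingHom ℂ)) := by
  have hkR : (2 : ℝ) ≤ k := by exact_mod_cast hk2
  have hρ23 : (2 / 3 : ℝ) ≤ ρ := by
    refine le_trans ?_ hρ
    rw [div_le_div_iff₀ (by norm_num) (by linarith)]
    linarith
  have hρ0 : 0 < ρ := by linarith
  have hκ0 : 0 < 505 / 1000 * ρ := by positivity
  -- lines
  obtain ⟨B1, E1, H1⟩ := step_of_fam hF z k hρ0 (curveFam_line hF z hinj hz hk hρ0 hκ0 (by
    rw [C2_mul hρ0]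
    push_cast
    nlinarith)) Cc M hC hM
  -- conics
  obtain ⟨B2, E2, H2⟩ := step_of_fam hF z k hρ0 (curveFam_conic hF z hinj hz hk hk2 hρ0 hκ0 (by
    rw [C2_mul hρ0]
    push_cast
    linarith)) Cc M hC hM
  -- higher degree
  have H3 : ∀ δ : ℕ, ∃ B D : ℕ, 3 ≤ δ → ∀ A : ℝ, 1 ≤ A → ∀ a0 S n b L,
      LevelData hF z k Cc M A ρ a0 S n b L (505 / 1000 * ρ) →
      (∀ l ∈ L, Par 1 S (l : ℤ) {(fun t => t 0), (fun t => t 1)}) →
      ∀ h : MvPolynomial (Fin 2) ℂ, Prime h ∧ h.totalDegree = δ → S.ncard ≤ B ∨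
        ∃ g : Polynomial (MvPolynomial (Fin 2) ℤ), g.natDegree ≤ D ∧ CD g D ∧
          (∀ t ∈ S, ev3 g t (n t) = 0) ∧ Th h g ≠ 0 := by
    intro δ
    by_cases hδ : 3 ≤ δ
    · have hδR : (3 : ℝ) ≤ δ := by exact_mod_cast hδ
      obtain ⟨B, D, H⟩ := step_of_fam hF z k hρ0 (curveFam_high hF z (by omega) hinj hz (k := k) δ
        (by omega) ρ hκ0 (by nlinarith)) Cc M hC hM
      exact ⟨B, D, fun _ => H⟩
    · exact ⟨0, 0, fun h => absurd h hδ⟩
  choose B3 E3 H3 using H3
  refine ⟨B1 + B2 + F.natDegree * (2 * Cc + 1) + (Finset.range (D1 + 1)).sup B3,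
    E1 + E2 + (Finset.range (D1 + 1)).sup E3, ?_⟩
  intro A hA a0 S n b L hLD hPar h hirrh hhD U hU hUh
  have hhp : Prime h := hirrh.prime
  have hLDU := LevelData.mono hF hLD hU
  have hParU : ∀ l ∈ L, Par 1 U (l : ℤ) {(fun t => t 0), (fun t => t 1)} :=
    fun l hl => Par.mono (hPar l hl) hU
  have hdeg0 : h.totalDegree ≠ 0 := by
    intro h0
    rw [MvPolynomial.totalDegree_eq_zero_iff_eq_C] at h0
    have hc : MvPolynomial.coeff 0 h ≠ 0 := by
      intro hc
      rw [hc, MvPolynomial.C_0] at h0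
      exact hirrh.ne_zero h0
    apply hirrh.not_isUnit
    rw [h0]
    exact (isUnit_iff_ne_zero.2 hc).map MvPolynomial.C
  have hconv : ∀ B D : ℕ, B ≤ B1 + B2 + F.natDegree * (2 * Cc + 1) +
      (Finset.range (D1 + 1)).sup B3 → D ≤ E1 + E2 + (Finset.range (D1 + 1)).sup E3 →
      (U.ncard ≤ B ∨ ∃ g : Polynomial (MvPolynomial (Fin 2) ℤ), g.natDegree ≤ D ∧ CD g D ∧
          (∀ t ∈ U, ev3 g t (n t) = 0) ∧ Th h g ≠ 0) →
      (U.ncard ≤ B1 + B2 + F.natDegree * (2 * Cc + 1) + (Finset.range (D1 + 1)).sup B3 ∨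
        ∃ g : Polynomial (MvPolynomial (Fin 2) ℤ),
          g.natDegree ≤ E1 + E2 + (Finset.range (D1 + 1)).sup E3 ∧
          CD g (E1 + E2 + (Finset.range (D1 + 1)).sup E3) ∧
          (∀ t ∈ U, ev3 g t (n t) = 0) ∧
          ¬ C h ∣ g.map (MvPolynomial.map (Int.castRingHom ℂ))) := by
    intro B D hB hD hor
    rcases hor with h1 | ⟨g, g1, g2, g3, g4⟩
    · exact Or.inl (h1.trans hB)
    · exact Or.inr ⟨g, g1.trans hD, g2.mono hD, g3, not_dvd_of_Th g4⟩
  have hcases : h.totalDegree = 1 ∨ h.totalDegree = 2 ∨ 3 ≤ h.totalDegree := by omega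
  rcases hcases with h1 | h2 | h3
  · -- lines
    set c0 := MvPolynomial.coeff 0 h with hc0
    set c1 := MvPolynomial.coeff (Finsupp.single 0 1) h with hc1
    set c2 := MvPolynomial.coeff (Finsupp.single 1 1) h with hc2
    have haff : h = MvPolynomial.C c0 + MvPolynomial.C c1 * MvPolynomial.X 0 +
        MvPolynomial.C c2 * MvPolynomial.X 1 := affine_eq h1.le
    have hne : c1 ≠ 0 ∨ c2 ≠ 0 := by
      by_contra hcon
      push Not at hcon
      rw [hcon.1, hcon.2, MvPolynomial.C_0, zero_mul, zero_mul, add_zero, add_zero] at haff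
      rw [haff, MvPolynomial.totalDegree_C] at hdeg0
      exact hdeg0 rfl
    rcases Free776L.line_dichotomy_SPt hF hirr (by omega) hinj hz a0 k Cc M A ρ
      hLDU.fin.toFinset n b (fun t ht => hLDU.pt t (by simpa using ht)) c0 c1 c2 hne
      (fun t ht => by
        have := hUh t (by simpa using ht)
        rw [haff] at this
        simpa using this) with ⟨g1, g2⟩ | hcard
    · obtain ⟨d1, d2⟩ := generic_line (a := cst z a0) hinj g1 g2 haff
      exact hconv B1 E1 (by omega) (by omega)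
        (H1 A hA a0 U n b L hLDU hParU h ⟨hhp, h1, d1, d2⟩)
    · left
      rw [← Set.ncard_eq_toFinset_card U hLDU.fin] at hcard
      omega
  · exact hconv B2 E2 (by omega) (by omega)
      (H2 A hA a0 U n b L hLDU hParU h ⟨hhp, h2, hLD.gp⟩)
  · have hmem : h.totalDegree ∈ Finset.range (D1 + 1) := Finset.mem_range.2 (by omega)
    have hb := Finset.le_sup (f := B3) hmem
    have he := Finset.le_sup (f := E3) hmem
    exact hconv (B3 h.totalDegree) (E3 h.totalDegree) (by omega) (by omega)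
      (H3 h.totalDegree h3 A hA a0 U n b L hLDU hParU h ⟨hhp, rfl⟩)

end

end Crest.Agent.R022.Free712
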