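import Mathlib

-- ▼ part R022/Small997A
section

set_option autoImplicit false

namespace Crest.Agent.R022.Small

open Polynomial

/-! ### Rolle chain and integer points on a smooth curve -/

/-- If `y j` has derivative `y (j+1)` on `[a,b]` for all `j`, and `y 0` has `s + 1` zeros in `[a,b]`,
then `y s` has a zero in `[a,b]`. -/
theorem rolle_chain (s : ℕ) : ∀ (y : ℕ → ℝ → ℝ) (a b : ℝ)
    (_ : ∀ j, ∀ x ∈ Set.Icc a b, HasDerivAt (y j) (y (j + 1) x) x)
    (Z : Finset ℝ) (_ : Z.card = s + 1) (_ : ∀ z ∈ Z, z ∈ Set.Icc a b ∧ y 0 z = 0),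
    ∃ x ∈ Set.Icc a b, y s x = 0 := by
  induction s with
  | zero =>
    intro y a b _ Z hZ hz
    obtain ⟨z, hz1⟩ := Finset.card_pos.mp (by omega : 0 < Z.card)
    exact ⟨z, (hz z hz1).1, (hz z hz1).2⟩
  | succ s ih =>
    intro y a b hy Z hZ hz
    set e := Z.orderEmbOfFin hZ with he
    have hmem : ∀ i, e i ∈ Z := fun i => Finset.orderEmbOfFin_mem Z hZ i
    have hlt : ∀ i : Fin (s + 1), e i.castSucc < e i.succ := fun i =>
      e.strictMono Fin.castSucc_lt_succ
    have hex : ∀ i : Fin (s + 1), ∃ c ∈ Set.Ioo (e i.castSucc) (e i.succ), y 1 c = 0 := by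
      intro i
      apply exists_hasDerivAt_eq_zero (hlt i)
      · intro x hx
        apply HasDerivAt.continuousAt (hy 0 x ?_) |>.continuousWithinAt
        exact ⟨(hz _ (hmem _)).1.1.trans hx.1, hx.2.trans (hz _ (hmem _)).1.2⟩
      · rw [(hz _ (hmem _)).2, (hz _ (hmem _)).2]
      · intro x hx
        apply hy 0 x
        exact ⟨(hz _ (hmem _)).1.1.trans hx.1.le, hx.2.le.trans (hz _ (hmem _)).1.2⟩
    choose c hc1 hc2 using hex
    have hcmono : StrictMono c := by
      rw [Fin.strictMono_iff_lt_succ]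
      intro i
      have h1 := (hc1 i.castSucc).2
      have h2 := (hc1 i.succ).1
      have h3 : i.castSucc.succ = i.succ.castSucc := by
        rw [Fin.succ_castSucc]
      rw [h3] at h1
      exact h1.trans h2
    refine ih (fun j => y (j + 1)) a b (fun j x hx => hy (j + 1) x hx)
      (Finset.univ.image c) ?_ ?_
    · rw [Finset.card_image_of_injective _ hcmono.injective]
      simp
    · intro z hz'
      obtain ⟨i, _, rfl⟩ := Finset.mem_image.mp hz'
      refine ⟨⟨(hz _ (hmem _)).1.1.trans (hc1 i).1.le, (hc1 i).2.le.trans (hz _ (hmem _)).1.2⟩, hc2 i⟩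

/-- Integer points test: on an interval of length `≤ H` where `y s` is nonzero and
`|y s| * H ^ (s (s + 1)) < 1`, fewer than `s + 1` integers `l` have `y 0 l` an integer. -/
theorem integer_points (s : ℕ) (y : ℕ → ℝ → ℝ) (a b H : ℝ) (hH : 1 ≤ H) (hab : b - a ≤ H)
    (hy : ∀ j, ∀ x ∈ Set.Icc a b, HasDerivAt (y j) (y (j + 1) x) x)
    (hne : ∀ x ∈ Set.Icc a b, y s x ≠ 0)
    (hsmall : ∀ x ∈ Set.Icc a b, |y s x| * H ^ ((s + 1) * s) < 1)
    (S : Finset ℤ) (hS : ∀ l ∈ S, (l : ℝ) ∈ Set.Icc a b ∧ ∃ p : ℤ, y 0 l = p) : S.card ≤ s := by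
  classical
  by_contra hcon
  push Not at hcon
  obtain ⟨T, hTS, hTc⟩ := Finset.exists_subset_card_eq (by omega : s + 1 ≤ S.card)
  have hT : ∀ l ∈ T, (l : ℝ) ∈ Set.Icc a b ∧ ∃ p : ℤ, y 0 l = p := fun l hl => hS l (hTS hl)
  choose! p hp using fun l hl => (hT l hl).2
  set v : ℤ → ℝ := fun l => (l : ℝ) with hv
  have hvs : Set.InjOn v (T : Set ℤ) := fun a _ b _ h => by
    simpa [hv] using h
  set P : ℝ[X] := Lagrange.interpolate T v (fun l => (p l : ℝ)) with hP
  have hPdeg : P.degree < T.card := Lagrange.degree_interpolate_lt _ hvs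
  have hPdeg' : P.natDegree ≤ s := by
    rw [hTc] at hPdeg
    by_cases h0 : P = 0
    · simp [h0]
    · have := (Polynomial.natDegree_lt_iff_degree_lt h0).mpr hPdeg
      omega
  have hPeval : ∀ l ∈ T, P.eval (l : ℝ) = p l := fun l hl =>
    Lagrange.eval_interpolate_at_node _ hvs hl
  -- chain of differences
  obtain ⟨ξ, hξ, hξ0⟩ := rolle_chain s
    (fun j x => y j x - (derivative^[j] P).eval x) a b (by
      intro j x hx
      refine (hy j x hx).sub ?_
      rw [Function.iterate_succ_apply']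
      exact Polynomial.hasDerivAt _ _)
    (T.image v) (by rw [Finset.card_image_of_injOn hvs, hTc]) (by
      intro z hz
      obtain ⟨l, hl, rfl⟩ := Finset.mem_image.mp hz
      refine ⟨(hT l hl).1, ?_⟩
      simp only [Function.iterate_zero, id, hv]
      rw [hPeval l hl, hp l hl, sub_self])
  have hder : (derivative^[s] P).eval ξ = s.factorial * P.coeff s := by
    have h1 : derivative^[s] P = C ((s.factorial : ℝ) * P.coeff s) := by
      ext m
      rw [Polynomial.coeff_iterate_derivative, Polynomial.coeff_C]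
      split_ifs with hm
      · subst hm
        simp [Nat.descFactorial_self]
      · rw [Polynomial.coeff_eq_zero_of_natDegree_lt (by omega), smul_zero]
    rw [h1, eval_C]
  have hys : y s ξ = s.factorial * P.coeff s := by
    rw [← hder]; linarith [hξ0]
  have hcoeff : P.coeff s = ∑ i ∈ T, (p i : ℝ) / ∏ j ∈ T.erase i, ((i : ℝ) - j) := by
    have h1 := Lagrange.coeff_eq_sum (v := v) hvs hPdeg
    rw [hTc, Nat.add_sub_cancel] at h1
    rw [h1]
    apply Finset.sum_congr rfl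
    intro i hi
    rw [hPeval i hi]
  -- common denominator
  set W : ℤ := ∏ i ∈ T, ∏ j ∈ T.erase i, (i - j) with hW
  have hWfac : ∀ i ∈ T, ∏ j ∈ T.erase i, (i - j) ≠ 0 := by
    intro i _
    apply Finset.prod_ne_zero_iff.mpr
    intro j hj
    have := (Finset.mem_erase.mp hj).1
    intro h
    exact this (by omega)
  set M : ℤ := ∑ i ∈ T, p i * ∏ i' ∈ T.erase i, ∏ j ∈ T.erase i', (i' - j) with hM
  have hWM : (W : ℝ) * P.coeff s = M := by
    rw [hcoeff, hM, hW, Finset.mul_sum]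
    push_cast
    apply Finset.sum_congr rfl
    intro i hi
    have h0 : (∏ j ∈ T.erase i, ((i : ℝ) - j)) ≠ 0 := by
      have := hWfac i hi
      intro h
      apply this
      exact_mod_cast h
    rw [← Finset.mul_prod_erase T _ hi]
    field_simp
  have hWabs : |(W : ℝ)| ≤ H ^ ((s + 1) * s) := by
    rw [hW]
    push_cast
    rw [Finset.abs_prod]
    have h1 : ∀ i ∈ T, |∏ j ∈ T.erase i, ((i : ℝ) - j)| ≤ H ^ s := by
      intro i hi
      rw [Finset.abs_prod]
      calc ∏ j ∈ T.erase i, |(i : ℝ) - j| ≤ ∏ j ∈ T.erase i, H := by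
            apply Finset.prod_le_prod
            · intro j _; exact abs_nonneg _
            · intro j hj
              have h2 := (hT i hi).1
              have h3 := (hT j (Finset.mem_of_mem_erase hj)).1
              rw [abs_le]
              constructor <;> linarith [h2.1, h2.2, h3.1, h3.2]
        _ = H ^ s := by
            rw [Finset.prod_const, Finset.card_erase_of_mem hi, hTc, Nat.add_sub_cancel]
    calc ∏ i ∈ T, |∏ j ∈ T.erase i, ((i : ℝ) - j)| ≤ ∏ i ∈ T, H ^ s :=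
          Finset.prod_le_prod (fun i _ => abs_nonneg _) h1
      _ = H ^ ((s + 1) * s) := by
          rw [Finset.prod_const, hTc, ← pow_mul, mul_comm]
  have hM0 : M ≠ 0 := by
    intro h0
    apply hne ξ hξ
    rw [hys]
    have hW0 : (W : ℝ) ≠ 0 := by
      have : W ≠ 0 := Finset.prod_ne_zero_iff.mpr hWfac
      exact_mod_cast this
    rw [h0, Int.cast_zero, mul_eq_zero] at hWM
    rw [hWM.resolve_left hW0, mul_zero]
  have hM1 : (1 : ℝ) ≤ |(M : ℝ)| := by
    rw [← Int.cast_abs]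
    exact_mod_cast Int.one_le_abs hM0
  have hfac : (1 : ℝ) ≤ s.factorial := by exact_mod_cast Nat.succ_le_of_lt (Nat.factorial_pos s)
  have h1 : (1 : ℝ) ≤ |y s ξ| * H ^ ((s + 1) * s) := by
    calc (1 : ℝ) ≤ |(M : ℝ)| := hM1
      _ = |(W : ℝ)| * |P.coeff s| := by rw [← hWM, abs_mul]
      _ ≤ H ^ ((s + 1) * s) * |P.coeff s| := by
          apply mul_le_mul_of_nonneg_right hWabs (abs_nonneg _)
      _ ≤ H ^ ((s + 1) * s) * (s.factorial * |P.coeff s|) := by
          apply mul_le_mul_of_nonneg_left _ (by positivity)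
          exact le_mul_of_one_le_left (abs_nonneg _) hfac
      _ = |y s ξ| * H ^ ((s + 1) * s) := by
          rw [hys, abs_mul, Nat.abs_cast]; ring
  exact absurd (hsmall ξ hξ) (not_lt.mpr h1)

end Crest.Agent.R022.Small
end

-- ▼ part R022/Small997B
section

set_option autoImplicit false

namespace Crest.Agent.R022.Small

open Polynomial

/-! ### The derivatives of `f ^ κ` -/

/-- numerator polynomials: the `j`-th derivative of `f ^ κ` is `f ^ (κ - j) * G j`. -/
noncomputable def G (f : ℚ[X]) (κ : ℚ) : ℕ → ℚ[X]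
  | 0 => 1
  | j + 1 => C (κ - j) * derivative f * G f κ j + f * derivative (G f κ j)

theorem G_ne_zero (f : ℚ[X]) (hf : Irreducible f) (κ : ℚ) (hκ : ∀ z : ℤ, κ ≠ z) (j : ℕ) :
    G f κ j ≠ 0 := by
  induction j with
  | zero => simp [G]
  | succ j ih =>
    intro h0
    have hfin : FiniteMultiplicity f (G f κ j) :=
      FiniteMultiplicity.of_not_isUnit hf.not_isUnit ih
    obtain ⟨H, hH, hnd⟩ := hfin.exists_eq_pow_mul_and_not_dvd
    set e := multiplicity f (G f κ j)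
    have hprime : Prime f := hf.prime
    have hder0 : derivative f ≠ 0 := by
      intro h
      exact hf.natDegree_pos.ne' (Polynomial.derivative_eq_zero.mp h)
    have h1 : G f κ (j + 1) = f ^ e * (C (κ - j + e) * derivative f * H + f * derivative H) := by
      change C (κ - j) * derivative f * G f κ j + f * derivative (G f κ j) = _
      rw [hH, derivative_mul]
      rcases Nat.eq_zero_or_pos e with he | he
      · rw [he]; simp
      · rw [derivative_pow]
        have h2 : f * f ^ (e - 1) = f ^ e := by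
          rw [← pow_succ']; congr 1; omega
        have h3 : (C (κ - j + e) : ℚ[X]) = C (κ - j) + (e : ℚ[X]) := by
          rw [C_add]; simp
        rw [h3]
        simp only [map_natCast]
        linear_combination ((e : ℚ[X]) * derivative f * H) * h2
    rw [h1] at h0
    have h2 := (mul_eq_zero.mp h0).resolve_left (pow_ne_zero _ hf.ne_zero)
    have h3 : f ∣ C (κ - j + e) * derivative f * H := by
      have : C (κ - j + e) * derivative f * H = f * (- derivative H) := by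
        linear_combination h2
      rw [this]; exact dvd_mul_right _ _
    have hc : (κ - j + e) ≠ 0 := by
      intro h
      apply hκ ((j : ℤ) - e)
      push_cast
      linarith
    rcases hprime.dvd_or_dvd h3 with h4 | h4
    · rcases hprime.dvd_or_dvd h4 with h5 | h5
      · apply hf.not_isUnit
        exact isUnit_of_dvd_unit h5 (Polynomial.isUnit_C.mpr (isUnit_iff_ne_zero.mpr hc))
      · have h6 := Polynomial.natDegree_le_of_dvd h5 hder0
        have h7 := Polynomial.natDegree_derivative_lt hf.natDegree_pos.ne'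
        omega
    · exact hnd h4

theorem natDegree_G (f : ℚ[X]) (hf : 1 ≤ f.natDegree) (κ : ℚ) (j : ℕ) :
    (G f κ j).natDegree ≤ j * (f.natDegree - 1) := by
  induction j with
  | zero => simp [G]
  | succ j ih =>
    change (C (κ - j) * derivative f * G f κ j + f * derivative (G f κ j)).natDegree ≤ _
    refine (Polynomial.natDegree_add_le _ _).trans (max_le ?_ ?_)
    · refine Polynomial.natDegree_mul_le.trans ?_
      have h1 : (C (κ - j) * derivative f).natDegree ≤ f.natDegree - 1 :=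
        (Polynomial.natDegree_C_mul_le _ _).trans (Polynomial.natDegree_derivative_le _)
      calc _ ≤ (f.natDegree - 1) + j * (f.natDegree - 1) := add_le_add h1 ih
        _ = (j + 1) * (f.natDegree - 1) := by ring
    · by_cases h0 : (G f κ j).natDegree = 0
      · rw [Polynomial.eq_C_of_natDegree_eq_zero h0]
        simp
      · refine Polynomial.natDegree_mul_le.trans ?_
        have h1 := Polynomial.natDegree_derivative_le (G f κ j)
        calc f.natDegree + (derivative (G f κ j)).natDegree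
            ≤ f.natDegree + ((G f κ j).natDegree - 1) := by omega
          _ = (f.natDegree - 1) + (G f κ j).natDegree := by omega
          _ ≤ (f.natDegree - 1) + j * (f.natDegree - 1) := by omega
          _ = (j + 1) * (f.natDegree - 1) := by ring

/-- real evaluation -/
noncomputable def ev (p : ℚ[X]) (x : ℝ) : ℝ := (p.map (algebraMap ℚ ℝ)).eval x

theorem hasDerivAt_ev (p : ℚ[X]) (x : ℝ) : HasDerivAt (ev p) (ev (derivative p) x) x := by
  unfold ev
  rw [← derivative_map]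
  exact Polynomial.hasDerivAt _ _

theorem hasDerivAt_G (f : ℚ[X]) (κ : ℚ) (j : ℕ) (x : ℝ) (hx : 0 < ev f x) :
    HasDerivAt (fun t => (ev f t) ^ ((κ : ℝ) - j) * ev (G f κ j) t)
      ((ev f x) ^ ((κ : ℝ) - (j + 1 : ℕ)) * ev (G f κ (j + 1)) x) x := by
  have h1 := (hasDerivAt_ev f x).rpow_const (p := (κ : ℝ) - j) (Or.inl hx.ne')
  have h2 := h1.mul (hasDerivAt_ev (G f κ j) x)
  have h3 : ev f x ^ ((κ : ℝ) - j) = ev f x ^ ((κ : ℝ) - (j + 1 : ℕ)) * ev f x := by
    rw [← Real.rpow_add_one hx.ne']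
    congr 1
    push_cast
    ring
  have h4 : ev f x ^ ((κ : ℝ) - j - 1) = ev f x ^ ((κ : ℝ) - (j + 1 : ℕ)) := by
    congr 1
    push_cast
    ring
  have h5 : ev (G f κ (j + 1)) x = ((κ : ℝ) - j) * ev (derivative f) x * ev (G f κ j) x +
      ev f x * ev (derivative (G f κ j)) x := by
    change ev (C (κ - j) * derivative f * G f κ j + f * derivative (G f κ j)) x = _
    unfold ev
    simp
  have h6 : (ev f x) ^ ((κ : ℝ) - (j + 1 : ℕ)) * ev (G f κ (j + 1)) x =
      ev (derivative f) x * (↑κ - ↑j) * ev f x ^ ((κ : ℝ) - ↑j - 1) * ev (G f κ j) x +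
      ev f x ^ ((κ : ℝ) - ↑j) * ev (derivative (G f κ j)) x := by
    rw [h5, h4, h3]
    ring
  rw [h6]
  exact h2

/-! ### growth of polynomials -/

theorem ev_upper (p : ℚ[X]) (D : ℕ) (hD : p.natDegree ≤ D) :
    ∃ C : ℝ, 0 < C ∧ ∀ x : ℝ, 1 ≤ x → |ev p x| ≤ C * x ^ D := by
  refine ⟨1 + ∑ i ∈ Finset.range (D + 1), |((p.coeff i : ℚ) : ℝ)|, by positivity, ?_⟩
  intro x hx
  have h1 : ev p x = ∑ i ∈ Finset.range (D + 1), ((p.coeff i : ℚ) : ℝ) * x ^ i := by
    unfold ev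
    rw [Polynomial.eval_eq_sum_range' (n := D + 1)]
    · simp
    · exact lt_of_le_of_lt (Polynomial.natDegree_map_le) (by omega)
  rw [h1]
  calc |∑ i ∈ Finset.range (D + 1), ((p.coeff i : ℚ) : ℝ) * x ^ i|
      ≤ ∑ i ∈ Finset.range (D + 1), |((p.coeff i : ℚ) : ℝ) * x ^ i| := Finset.abs_sum_le_sum_abs _ _
    _ ≤ ∑ i ∈ Finset.range (D + 1), |((p.coeff i : ℚ) : ℝ)| * x ^ D := by
        apply Finset.sum_le_sum
        intro i hi
        rw [abs_mul]
        apply mul_le_mul_of_nonneg_left _ (abs_nonneg _)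
        rw [abs_pow, abs_of_nonneg (by linarith)]
        exact pow_le_pow_right₀ hx (by simp at hi; omega)
    _ = (∑ i ∈ Finset.range (D + 1), |((p.coeff i : ℚ) : ℝ)|) * x ^ D := by
        rw [Finset.sum_mul]
    _ ≤ _ := by
        apply mul_le_mul_of_nonneg_right _ (by positivity)
        linarith

theorem ev_lower (p : ℚ[X]) (hp : 0 < p.leadingCoeff) :
    ∃ c x0 : ℝ, 0 < c ∧ 1 ≤ x0 ∧ ∀ x : ℝ, x0 ≤ x → c * x ^ p.natDegree ≤ ev p x := by
  have hlc : (0 : ℝ) < ((p.leadingCoeff : ℚ) : ℝ) := by exact_mod_cast hp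
  have hlin : (p.map (algebraMap ℚ ℝ)).leadingCoeff = ((p.leadingCoeff : ℚ) : ℝ) := by
    rw [Polynomial.leadingCoeff_map]; rfl
  have hnd : (p.map (algebraMap ℚ ℝ)).natDegree = p.natDegree :=
    Polynomial.natDegree_map _
  have h1 := Polynomial.isEquivalent_atTop_lead (p.map (algebraMap ℚ ℝ))
  rw [hlin, hnd] at h1
  -- eventually ev p x ≥ (lc/2) x^d
  have h2 := (h1.isLittleO).def (show (0 : ℝ) < 1 / 2 by norm_num)
  obtain ⟨x1, hx1⟩ := Filter.eventually_atTop.mp h2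
  refine ⟨((p.leadingCoeff : ℚ) : ℝ) / 2, max 1 x1, by positivity, le_max_left _ _, ?_⟩
  intro x hx
  have hx0 : (1 : ℝ) ≤ x := (le_max_left _ _).trans hx
  have h3 := hx1 x ((le_max_right _ _).trans hx)
  simp only [Pi.sub_apply, Real.norm_eq_abs] at h3
  have h4 : (0 : ℝ) < ((p.leadingCoeff : ℚ) : ℝ) * x ^ p.natDegree := by positivity
  rw [abs_of_pos h4] at h3
  have h5 := (abs_le.mp h3).1
  unfold ev
  nlinarith

theorem ev_ne_zero_large (p : ℚ[X]) (hp : p ≠ 0) : ∃ x0 : ℝ, 1 ≤ x0 ∧ ∀ x, x0 ≤ x → ev p x ≠ 0 := by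
  classical
  have h0 : p.map (algebraMap ℚ ℝ) ≠ 0 := (Polynomial.map_ne_zero_iff (algebraMap ℚ ℝ).injective).mpr hp
  obtain ⟨B, hB⟩ := ((p.map (algebraMap ℚ ℝ)).roots.toFinset : Set ℝ).toFinite.bddAbove
  refine ⟨max 1 (B + 1), le_max_left _ _, ?_⟩
  intro x hx h
  have h1 : x ∈ ((p.map (algebraMap ℚ ℝ)).roots.toFinset : Set ℝ) := by
    simp only [Finset.mem_coe, Multiset.mem_toFinset]
    exact (Polynomial.mem_roots h0).mpr h
  have h2 := hB h1
  have h3 := (le_max_right 1 (B + 1)).trans hx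
  linarith

end Crest.Agent.R022.Small
private theorem rz_57895c5db5 : type_of% @_root_.Crest.Agent.R022.Small.G.eq_def := @_root_.Crest.Agent.R022.Small.G.eq_def -- L12
private theorem rz_5b4b4aec65 : type_of% @_root_.Crest.Agent.R022.Small.G.eq_1 := @_root_.Crest.Agent.R022.Small.G.eq_1 -- L12
end

-- ▼ part R022/Small997C

set_option autoImplicit false

namespace Crest.Agent.R022.Small

open Polynomial Filter Topology

/-- Few integers `l` in a short window have `f (ν + m l) = p ^ k * m`. -/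
theorem window (f : ℚ[X]) (hf : Irreducible f) (hlc : 0 < f.leadingCoeff) (k : ℕ) (hk : 2 ≤ k)
    (c : ℝ) (hc : 0 < c) (hc1 : c ≤ 1) :
    ∃ (s : ℕ) (N0 : ℕ), 0 < s ∧ 1 ≤ N0 ∧ ∀ N : ℕ, N0 ≤ N → ∀ m : ℕ, 1 ≤ m →
      (m : ℝ) ≤ (N : ℝ) ^ (1 - c) → ∀ (ν : ℤ) (S : Finset ℤ),
      (∀ l ∈ S, (N : ℝ) ^ (1 - c / 2) ≤ (ν : ℝ) + m * l ∧
        ∃ p : ℕ, ev f ((ν : ℝ) + m * l) = (p : ℝ) ^ k * m) →
      (∀ l ∈ S, ∀ l' ∈ S, (l : ℝ) - l' ≤ (N : ℝ) ^ (c / (8 * (s + 1)))) → S.card ≤ s := by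
  classical
  set d := f.natDegree with hd
  have hd1 : 1 ≤ d := hf.natDegree_pos
  set κ : ℚ := 1 / (k : ℚ) with hκ
  have hkq : (2 : ℚ) ≤ k := by exact_mod_cast hk
  have hkr : (2 : ℝ) ≤ k := by exact_mod_cast hk
  have hκr : (κ : ℝ) = 1 / (k : ℝ) := by rw [hκ]; push_cast; rfl
  have hκ0 : (0 : ℝ) < κ := by rw [hκr]; positivity
  have hκ1 : (κ : ℝ) ≤ 1 := by rw [hκr, div_le_one (by linarith)]; linarith
  have hκint : ∀ z : ℤ, κ ≠ z := by
    intro z h
    have h1 : (1 : ℚ) = z * k := by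
      rw [← h, hκ]; field_simp
    have h2 : (1 : ℤ) = z * k := by exact_mod_cast h1
    have h3 : (k : ℤ) ∣ 1 := ⟨z, by rw [h2]; ring⟩
    have h4 := Int.le_of_dvd one_pos h3
    omega
  obtain ⟨s, hs⟩ := exists_nat_ge (4 * (d : ℝ) / c + 1)
  have hs0 : 0 < s := by
    rw [Nat.pos_iff_ne_zero]
    rintro rfl
    have : 0 ≤ 4 * (d : ℝ) / c := by positivity
    norm_num at hs
    linarith
  have hsd : 4 * (d : ℝ) ≤ c * s := by
    have h1 : 4 * (d : ℝ) / c ≤ s := by linarith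
    rw [div_le_iff₀ hc] at h1
    linarith
  obtain ⟨c1, x1, hc10, hx11, hlow⟩ := ev_lower f hlc
  obtain ⟨C2, hC20, hup⟩ := ev_upper (G f κ s) (s * (d - 1)) (natDegree_G f hd1 κ s)
  obtain ⟨x2, hx21, hne⟩ := ev_ne_zero_large (G f κ s) (G_ne_zero f hf κ hκint s)
  set C3 : ℝ := c1 ^ ((κ : ℝ) - s) * C2 with hC3
  have hC30 : 0 < C3 := by rw [hC3]; positivity
  -- choice of N0
  have hexp : 0 < c * s / 8 := by
    have : (0 : ℝ) < s := by exact_mod_cast hs0
    positivity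
  have ht1 : Tendsto (fun N : ℕ => C3 * (N : ℝ) ^ (-(c * s / 8))) atTop (𝓝 0) := by
    have h1 := (tendsto_rpow_neg_atTop hexp).comp tendsto_natCast_atTop_atTop
    have h2 := h1.const_mul C3
    rw [mul_zero] at h2
    exact h2
  have ht2 : Tendsto (fun N : ℕ => (N : ℝ) ^ (1 - c / 2)) atTop atTop :=
    (tendsto_rpow_atTop (by linarith)).comp tendsto_natCast_atTop_atTop
  obtain ⟨N1, hN1⟩ := eventually_atTop.mp (ht1.eventually (gt_mem_nhds (show (0 : ℝ) < 1 by norm_num)))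
  obtain ⟨N2, hN2⟩ := eventually_atTop.mp (ht2.eventually_ge_atTop (max x1 x2))
  refine ⟨s, max 1 (max N1 N2), hs0, le_max_left _ _, ?_⟩
  intro N hN m hm hmN ν S hS hdiff
  have hNge1 : 1 ≤ N := (le_max_left _ _).trans hN
  have hNR : (1 : ℝ) ≤ N := by exact_mod_cast hNge1
  have hN1' := hN1 N (((le_max_left _ _).trans (le_max_right _ _)).trans hN)
  have hN2' := hN2 N (((le_max_right _ _).trans (le_max_right _ _)).trans hN)
  have hmR : (1 : ℝ) ≤ m := by exact_mod_cast hm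
  set H : ℝ := (N : ℝ) ^ (c / (8 * (s + 1))) with hH
  have hH1 : 1 ≤ H := Real.one_le_rpow hNR (by positivity)
  rcases S.eq_empty_or_nonempty with rfl | hSne
  · simp
  set a : ℝ := ((S.min' hSne : ℤ) : ℝ) with ha
  set b : ℝ := ((S.max' hSne : ℤ) : ℝ) with hb
  have hlab : ∀ l ∈ S, (l : ℝ) ∈ Set.Icc a b := by
    intro l hl
    refine ⟨?_, ?_⟩
    · rw [ha]; exact_mod_cast S.min'_le l hl
    · rw [hb]; exact_mod_cast S.le_max' l hl
  have hbaH : b - a ≤ H := hdiff _ (S.max'_mem hSne) _ (S.min'_mem hSne)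
  have hX : ∀ x ∈ Set.Icc a b, (N : ℝ) ^ (1 - c / 2) ≤ (ν : ℝ) + m * x := by
    intro x hx
    have h1 := (hS _ (S.min'_mem hSne)).1
    have h2 : (m : ℝ) * a ≤ m * x := mul_le_mul_of_nonneg_left hx.1 (by linarith)
    linarith
  have hX1 : ∀ x ∈ Set.Icc a b, x1 ≤ (ν : ℝ) + m * x := fun x hx =>
    ((le_max_left _ _).trans hN2').trans (hX x hx)
  have hX2 : ∀ x ∈ Set.Icc a b, x2 ≤ (ν : ℝ) + m * x := fun x hx =>
    ((le_max_right _ _).trans hN2').trans (hX x hx)
  have hXpos : ∀ x ∈ Set.Icc a b, 0 < (ν : ℝ) + m * x := fun x hx => by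
    linarith [hX1 x hx]
  have hfpos : ∀ x ∈ Set.Icc a b, 0 < ev f ((ν : ℝ) + m * x) := by
    intro x hx
    have h1 := hlow _ (hX1 x hx)
    have h2 := hXpos x hx
    have : 0 < c1 * ((ν : ℝ) + m * x) ^ f.natDegree := by positivity
    linarith
  have hNpos : (0 : ℝ) < N := by linarith
  have hmpos : (0 : ℝ) < m := by linarith
  -- the chain
  refine integer_points s
    (fun j x => (m : ℝ) ^ j * (m : ℝ) ^ (-(κ : ℝ)) *
      ((ev f ((ν : ℝ) + m * x)) ^ ((κ : ℝ) - j) * ev (G f κ j) ((ν : ℝ) + m * x)))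
    a b H hH1 hbaH ?_ ?_ ?_ S ?_
  · intro j x hx
    have h1 := hasDerivAt_G f κ j _ (hfpos x hx)
    have h2 : HasDerivAt (fun x : ℝ => (ν : ℝ) + m * x) m x := by
      simpa using ((hasDerivAt_id x).const_mul (m : ℝ)).const_add (ν : ℝ)
    have h3 := (h1.comp x h2).const_mul ((m : ℝ) ^ j * (m : ℝ) ^ (-(κ : ℝ)))
    have h4 : (m : ℝ) ^ j * (m : ℝ) ^ (-(κ : ℝ)) *
        (ev f ((ν : ℝ) + m * x) ^ ((κ : ℝ) - ((j + 1 : ℕ) : ℝ)) * ev (G f κ (j + 1)) ((ν : ℝ) + m * x) * m) =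
        (m : ℝ) ^ (j + 1) * (m : ℝ) ^ (-(κ : ℝ)) *
        (ev f ((ν : ℝ) + m * x) ^ ((κ : ℝ) - ((j + 1 : ℕ) : ℝ)) * ev (G f κ (j + 1)) ((ν : ℝ) + m * x)) := by
      rw [pow_succ]
      ring
    rw [h4] at h3
    exact h3
  · intro x hx
    have h1 : 0 < (ev f ((ν : ℝ) + m * x)) ^ ((κ : ℝ) - s) := Real.rpow_pos_of_pos (hfpos x hx) _
    have h2 := hne _ (hX2 x hx)
    have h3 : (0 : ℝ) < (m : ℝ) ^ (-(κ : ℝ)) := Real.rpow_pos_of_pos hmpos _
    exact mul_ne_zero (mul_ne_zero (pow_ne_zero _ hmpos.ne') h3.ne') (mul_ne_zero h1.ne' h2)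
  · intro x hx
    set X := (ν : ℝ) + m * x with hXdef
    have hXp : 0 < X := hXpos x hx
    have hXge1 : 1 ≤ X := hx11.trans (hX1 x hx)
    have e1 : (m : ℝ) ^ (-(κ : ℝ)) ≤ 1 := by
      apply Real.rpow_le_one_of_one_le_of_nonpos hmR; linarith
    have e1' : 0 ≤ (m : ℝ) ^ (-(κ : ℝ)) := (Real.rpow_pos_of_pos hmpos _).le
    have hks : (κ : ℝ) - s ≤ 0 := by
      have : (1 : ℝ) ≤ s := by exact_mod_cast hs0
      linarith
    have e2 : (ev f X) ^ ((κ : ℝ) - s) ≤ (c1 * X ^ d) ^ ((κ : ℝ) - s) :=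
      Real.rpow_le_rpow_of_nonpos (by positivity) (hlow X (hX1 x hx)) hks
    have e2' : 0 ≤ (ev f X) ^ ((κ : ℝ) - s) := (Real.rpow_pos_of_pos (hfpos x hx) _).le
    have e3 : |ev (G f κ s) X| ≤ C2 * X ^ (s * (d - 1)) := hup X hXge1
    have e4 : (c1 * X ^ d) ^ ((κ : ℝ) - s) * (C2 * X ^ (s * (d - 1))) =
        C3 * X ^ ((d : ℝ) * κ - s) := by
      rw [Real.mul_rpow hc10.le (by positivity), ← Real.rpow_natCast X d, ← Real.rpow_mul hXp.le,
        ← Real.rpow_natCast X (s * (d - 1)), hC3]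
      have : X ^ ((d : ℝ) * κ - s) = X ^ ((d : ℝ) * ((κ : ℝ) - s)) * X ^ (((s * (d - 1) : ℕ)) : ℝ) := by
        rw [← Real.rpow_add hXp]
        congr 1
        push_cast [Nat.cast_sub hd1]
        ring
      rw [this]
      ring
    have hdk : (d : ℝ) * κ - s ≤ 0 := by
      have h1 : (d : ℝ) * κ ≤ d := by
        have : (0 : ℝ) ≤ d := by positivity
        nlinarith
      have h2 : c * s ≤ s := by
        have : (0 : ℝ) ≤ s := by positivity
        nlinarith
      have h3 : (0 : ℝ) ≤ d := by positivity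
      linarith
    have e5 : X ^ ((d : ℝ) * κ - s) ≤ ((N : ℝ) ^ (1 - c / 2)) ^ ((d : ℝ) * κ - s) :=
      Real.rpow_le_rpow_of_nonpos (by positivity) (hX x hx) hdk
    have e6 : (m : ℝ) ^ s ≤ ((N : ℝ) ^ (1 - c)) ^ s := pow_le_pow_left₀ hmpos.le hmN s
    have e7 : ((N : ℝ) ^ (1 - c)) ^ s * ((N : ℝ) ^ (1 - c / 2)) ^ ((d : ℝ) * κ - s) *
        H ^ ((s + 1) * s) ≤ (N : ℝ) ^ (-(c * s / 8)) := by
      rw [hH, ← Real.rpow_natCast _ s, ← Real.rpow_natCast _ ((s + 1) * s), ← Real.rpow_mul hNpos.le,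
        ← Real.rpow_mul hNpos.le, ← Real.rpow_mul hNpos.le, ← Real.rpow_add hNpos,
        ← Real.rpow_add hNpos]
      apply Real.rpow_le_rpow_of_exponent_le hNR
      have h1 : c / (8 * ((s : ℝ) + 1)) * (((s + 1) * s : ℕ) : ℝ) = c * s / 8 := by
        push_cast
        field_simp
      rw [h1]
      have h2 : (1 - c / 2) * ((d : ℝ) * κ) ≤ d := by
        have h3 : (0 : ℝ) ≤ d := by positivity
        have h4 : (d : ℝ) * κ ≤ d := by nlinarith
        have h5 : 0 ≤ (d : ℝ) * κ := by positivity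
        nlinarith
      nlinarith
    rw [abs_mul, abs_mul, abs_mul, abs_of_nonneg (pow_nonneg hmpos.le s), abs_of_nonneg e1',
      abs_of_nonneg e2']
    calc (m : ℝ) ^ s * (m : ℝ) ^ (-(κ : ℝ)) * (ev f X ^ ((κ : ℝ) - s) * |ev (G f κ s) X|) *
          H ^ ((s + 1) * s)
        ≤ ((N : ℝ) ^ (1 - c)) ^ s * 1 * ((c1 * X ^ d) ^ ((κ : ℝ) - s) * (C2 * X ^ (s * (d - 1)))) *
          H ^ ((s + 1) * s) := by
          gcongr
      _ = C3 * X ^ ((d : ℝ) * κ - s) * ((N : ℝ) ^ (1 - c)) ^ s * H ^ ((s + 1) * s) := by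
          rw [e4]; ring
      _ ≤ C3 * ((N : ℝ) ^ (1 - c / 2)) ^ ((d : ℝ) * κ - s) * ((N : ℝ) ^ (1 - c)) ^ s *
          H ^ ((s + 1) * s) := by
          gcongr
      _ = C3 * (((N : ℝ) ^ (1 - c)) ^ s * ((N : ℝ) ^ (1 - c / 2)) ^ ((d : ℝ) * κ - s) *
        H ^ ((s + 1) * s)) := by ring
      _ ≤ C3 * (N : ℝ) ^ (-(c * s / 8)) := by gcongr
      _ < 1 := hN1'
  · intro l hl
    refine ⟨hlab l hl, ?_⟩
    obtain ⟨p, hp⟩ := (hS l hl).2
    refine ⟨(p : ℤ), ?_⟩
    have hG0 : ev (G f κ 0) ((ν : ℝ) + m * l) = 1 := by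
      simp [G, ev]
    simp only [pow_zero, one_mul, Nat.cast_zero, sub_zero]
    rw [hG0, mul_one, hp, Real.mul_rpow (by positivity) hmpos.le, ← Real.rpow_natCast,
      ← Real.rpow_mul (by positivity)]
    have h1 : (k : ℝ) * κ = 1 := by rw [hκr]; field_simp
    rw [h1, Real.rpow_one, Real.rpow_neg hmpos.le]
    have h2 : (m : ℝ) ^ (κ : ℝ) ≠ 0 := (Real.rpow_pos_of_pos hmpos _).ne'
    push_cast
    field_simp

end Crest.Agent.R022.Small
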