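import Crest.Agent.R022.SliceDefs
import Mathlib
import Crest.Prelude.Def_PowerFree
import Crest.Agent.R022.SieveReduction
import Crest.Agent.R22.SieveRed
import Crest.Agent.R022.Small997C
import Crest.Agent.R022.Ifaces250
import Crest.Agent.R022.Surf206Glue

-- ▼ part R022/GenPos250
section

/-! Row 22 (helper250): slices which are not in general position have codimension `≥ 2`. -/

set_option autoImplicit false

open Polynomial

namespace Crest.Agent.R022.GenPosCount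

open Crest.Agent.R022.Torsor

/-- If a rational polynomial vanishes at one root of the irreducible `F` it vanishes at all roots. -/
theorem vanish_all {F : ℤ[X]} (hF : F.Monic) (hirr : Irreducible F) (Γ : ℚ[X]) (x y : ℂ)
    (hx : F.eval₂ (Int.castRingHom ℂ) x = 0) (hy : F.eval₂ (Int.castRingHom ℂ) y = 0)
    (h : aeval x Γ = 0) : aeval y Γ = 0 := by
  have hQ : Irreducible (F.map (Int.castRingHom ℚ)) :=
    (Polynomial.IsPrimitive.Int.irreducible_iff_irreducible_map_cast hF.isPrimitive).mp hirr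
  have hmap : ∀ w : ℂ, aeval w (F.map (Int.castRingHom ℚ)) = F.eval₂ (Int.castRingHom ℂ) w := by
    intro w
    rw [Polynomial.aeval_def, Polynomial.eval₂_map]
    congr 1
  have hmin : F.map (Int.castRingHom ℚ) = minpoly ℚ x :=
    minpoly.eq_of_irreducible_of_monic hQ (by rw [hmap]; exact hx) (hF.map _)
  have hdvd : F.map (Int.castRingHom ℚ) ∣ Γ := by
    rw [hmin]; exact minpoly.dvd ℚ x h
  obtain ⟨G, rfl⟩ := hdvd
  rw [map_mul, hmap, hy, zero_mul]

/-- The coefficients of `F / (X - y)` are integer polynomials in the root `y`. -/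
theorem exists_coeff_polys (F : ℤ[X]) : ∃ q : ℕ → ℤ[X], ∀ (y : ℂ) (Q : ℂ[X]),
    F.map (Int.castRingHom ℂ) = (X - C y) * Q →
    ∀ m, Q.coeff m = (q m).eval₂ (Int.castRingHom ℂ) y := by
  -- downward recursion: `Q_m = f_{m+1} + y Q_{m+1}`
  have key : ∀ (y : ℂ) (Q : ℂ[X]), F.map (Int.castRingHom ℂ) = (X - C y) * Q →
      ∀ m, Q.coeff m = (F.coeff (m + 1) : ℂ) + y * Q.coeff (m + 1) := by
    intro y Q h m
    have h1 := congrArg (fun P => P.coeff (m + 1)) h
    simp only [sub_mul, Polynomial.coeff_sub, Polynomial.coeff_X_mul, Polynomial.coeff_C_mul,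
      Polynomial.coeff_map] at h1
    have h2 : (Int.castRingHom ℂ) (F.coeff (m + 1)) = (F.coeff (m + 1) : ℂ) := rfl
    rw [h2] at h1
    linear_combination -h1
  -- statement for indices above the degree
  have main : ∀ e : ℕ, ∀ m : ℕ, F.natDegree ≤ m + e → ∃ qm : ℤ[X], ∀ (y : ℂ) (Q : ℂ[X]),
      F.map (Int.castRingHom ℂ) = (X - C y) * Q → Q.coeff m = qm.eval₂ (Int.castRingHom ℂ) y := by
    intro e
    induction e with
    | zero =>
      intro m hm
      refine ⟨0, ?_⟩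
      intro y Q h
      rw [Polynomial.eval₂_zero]
      by_cases hQ : Q = 0
      · rw [hQ]; simp
      · have h1 : (F.map (Int.castRingHom ℂ)).natDegree = 1 + Q.natDegree := by
          rw [h, Polynomial.natDegree_mul (Polynomial.X_sub_C_ne_zero y) hQ,
            Polynomial.natDegree_X_sub_C]
        have h2 : (F.map (Int.castRingHom ℂ)).natDegree ≤ F.natDegree :=
          Polynomial.natDegree_map_le
        exact Polynomial.coeff_eq_zero_of_natDegree_lt (by omega)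
    | succ e ih =>
      intro m hm
      obtain ⟨qm, hqm⟩ := ih (m + 1) (by omega)
      refine ⟨C (F.coeff (m + 1)) + X * qm, ?_⟩
      intro y Q h
      rw [key y Q h m, hqm y Q h, Polynomial.eval₂_add, Polynomial.eval₂_mul, Polynomial.eval₂_C,
        Polynomial.eval₂_X]
      rfl
  choose q hq using fun m : ℕ => main F.natDegree m (by omega)
  exact ⟨q, fun y Q h m => hq m y Q h⟩

/-- the functional `φ(g)` -/
noncomputable def phi (x y w : ℂ) (g : ℂ[X]) : ℂ :=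
  (g.eval x - g.eval w) * (y - w) - (g.eval y - g.eval w) * (x - w)

theorem phi_eq (x y w : ℂ) (g : ℂ[X]) (n : ℕ) (hg : g.natDegree < n) :
    phi x y w g = ∑ m ∈ Finset.range n, g.coeff m * phi x y w (X ^ m) := by
  unfold phi
  rw [Polynomial.eval_eq_sum_range' hg x, Polynomial.eval_eq_sum_range' hg y,
    Polynomial.eval_eq_sum_range' hg w]
  simp only [Polynomial.eval_pow, Polynomial.eval_X]
  rw [← Finset.sum_sub_distrib, ← Finset.sum_sub_distrib, Finset.sum_mul, Finset.sum_mul,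
    ← Finset.sum_sub_distrib]
  refine Finset.sum_congr rfl fun m _ => ?_
  ring

/-- `E_m = φ(X^m)` are not all rational multiples of `E_2`. -/
theorem exists_irrational {F : ℤ[X]} (hF : F.Monic) (hirr : Irreducible F)
    (hd : 4 ≤ F.natDegree) (z : Fin F.natDegree → ℂ) (hinj : Function.Injective z)
    (hz : ∀ i, F.eval₂ (Int.castRingHom ℂ) (z i) = 0)
    (hprod : F.map (Int.castRingHom ℂ) = ∏ i, (X - C (z i)))
    (i j l : Fin F.natDegree) (hij : i ≠ j) (hil : i ≠ l) (hjl : j ≠ l) :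
    ∃ m : ℕ, 3 ≤ m ∧ m < F.natDegree ∧
      ∀ r : ℚ, phi (z i) (z j) (z l) (X ^ m) ≠ r * phi (z i) (z j) (z l) (X ^ 2) := by
  classical
  by_contra hcon
  push Not at hcon
  set φ := phi (z i) (z j) (z l) with hφ
  have hrat : ∀ m, ∃ r : ℚ, m < F.natDegree → φ (X ^ m) = r * φ (X ^ 2) := by
    intro m
    rcases Nat.lt_or_ge m 3 with hm | hm
    · interval_cases m
      · exact ⟨0, fun _ => by simp [hφ, phi]⟩
      · refine ⟨0, fun _ => ?_⟩
        simp only [hφ, phi, Polynomial.eval_pow, Polynomial.eval_X]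
        push_cast
        ring
      · exact ⟨1, fun _ => by push_cast; ring⟩
    · by_cases hm2 : m < F.natDegree
      · obtain ⟨r, hr⟩ := hcon m hm hm2
        exact ⟨r, fun _ => hr⟩
      · exact ⟨0, fun h => absurd h hm2⟩
  choose r hr using hrat
  obtain ⟨q, hq⟩ := exists_coeff_polys F
  set Γ : ℚ[X] := ∑ m ∈ Finset.range F.natDegree, C (r m) * (q m).map (Int.castRingHom ℚ) with hΓ
  have hΓeval : ∀ y : ℂ, aeval y Γ = ∑ m ∈ Finset.range F.natDegree,
      (r m : ℂ) * (q m).eval₂ (Int.castRingHom ℂ) y := by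
    intro y
    rw [hΓ, map_sum]
    refine Finset.sum_congr rfl fun m _ => ?_
    rw [map_mul, Polynomial.aeval_C, Polynomial.aeval_def, Polynomial.eval₂_map]
    rfl
  -- quotient polynomials
  have hQ : ∀ s, F.map (Int.castRingHom ℂ) = (X - C (z s)) * ∏ u ∈ Finset.univ.erase s, (X - C (z u)) := by
    intro s
    rw [hprod, Finset.mul_prod_erase Finset.univ (fun u => (X - C (z u))) (Finset.mem_univ s)]
  have hQdeg : ∀ s, (∏ u ∈ Finset.univ.erase s, (X - C (z u))).natDegree < F.natDegree := by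
    intro s
    rw [Polynomial.natDegree_prod_of_monic _ _ (fun u _ => Polynomial.monic_X_sub_C _)]
    simp only [Polynomial.natDegree_X_sub_C, Finset.sum_const, smul_eq_mul, mul_one]
    rw [Finset.card_erase_of_mem (Finset.mem_univ s), Finset.card_univ, Fintype.card_fin]
    omega
  have hφQ : ∀ s, φ (∏ u ∈ Finset.univ.erase s, (X - C (z u))) = φ (X ^ 2) * aeval (z s) Γ := by
    intro s
    rw [hφ, phi_eq _ _ _ _ _ (hQdeg s), hΓeval, Finset.mul_sum]
    refine Finset.sum_congr rfl fun m hm => ?_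
    rw [hq (z s) _ (hQ s) m]
    have := hr m (Finset.mem_range.mp hm)
    rw [← hφ, this]
    ring
  have hev : ∀ s u, u ≠ s → (∏ u ∈ Finset.univ.erase s, (X - C (z u))).eval (z u) = 0 := by
    intro s u hus
    rw [Polynomial.eval_prod]
    refine Finset.prod_eq_zero (Finset.mem_erase.mpr ⟨hus, Finset.mem_univ u⟩) ?_
    simp
  have hφ2 : φ (X ^ 2) ≠ 0 := by
    have : φ (X ^ 2) = (z i - z l) * (z j - z l) * (z i - z j) := by
      simp only [hφ, phi, Polynomial.eval_pow, Polynomial.eval_X]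
      ring
    rw [this]
    exact mul_ne_zero (mul_ne_zero (sub_ne_zero.mpr (hinj.ne hil)) (sub_ne_zero.mpr (hinj.ne hjl)))
      (sub_ne_zero.mpr (hinj.ne hij))
  -- a fourth root
  obtain ⟨s, hsi, hsj, hsl⟩ : ∃ s, s ≠ i ∧ s ≠ j ∧ s ≠ l := by
    by_contra hno
    push Not at hno
    have h1 : (Finset.univ : Finset (Fin F.natDegree)) ⊆ {i, j, l} := by
      intro s _
      simp only [Finset.mem_insert, Finset.mem_singleton]
      by_cases h2 : s = i
      · exact Or.inl h2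
      · by_cases h3 : s = j
        · exact Or.inr (Or.inl h3)
        · exact Or.inr (Or.inr (hno s h2 h3))
    have h2 := Finset.card_le_card h1
    rw [Finset.card_univ, Fintype.card_fin] at h2
    have h3 : ({i, j, l} : Finset (Fin F.natDegree)).card ≤ 3 := Finset.card_le_three
    omega
  have hΓs : aeval (z s) Γ = 0 := by
    have h1 := hφQ s
    have h2 : φ (∏ u ∈ Finset.univ.erase s, (X - C (z u))) = 0 := by
      simp only [hφ, phi, hev s i hsi.symm, hev s j hsj.symm, hev s l hsl.symm]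
      ring
    rw [h2] at h1
    exact (mul_eq_zero.mp h1.symm).resolve_left hφ2
  have hΓi : aeval (z i) Γ = 0 := vanish_all hF hirr Γ (z s) (z i) (hz s) (hz i) hΓs
  have h1 := hφQ i
  rw [hΓi, mul_zero] at h1
  simp only [hφ, phi, hev i j hij.symm, hev i l hil.symm, sub_zero, zero_mul] at h1
  have h2 : (∏ u ∈ Finset.univ.erase i, (X - C (z u))).eval (z i) ≠ 0 := by
    rw [Polynomial.eval_prod]
    refine Finset.prod_ne_zero_iff.mpr fun u hu => ?_
    simp only [Polynomial.eval_sub, Polynomial.eval_X, Polynomial.eval_C]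
    exact sub_ne_zero.mpr (hinj.ne (Finset.ne_of_mem_erase hu).symm)
  rcases mul_eq_zero.mp h1 with h3 | h3
  · exact h2 h3
  · exact (sub_ne_zero.mpr (hinj.ne hjl)) h3

theorem phi_cst {d : ℕ} (z : Fin d → ℂ) (a : Fin d → ℤ) (i j l : Fin d) :
    (cst z a i - cst z a l) * (z j - z l) - (cst z a j - cst z a l) * (z i - z l) =
      ∑ m : Fin d, if (m : ℕ) < 2 then 0 else (a m : ℂ) * phi (z i) (z j) (z l) (X ^ (m : ℕ)) := by
  unfold cst
  rw [← Finset.sum_sub_distrib, ← Finset.sum_sub_distrib, Finset.sum_mul, Finset.sum_mul,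
    ← Finset.sum_sub_distrib]
  refine Finset.sum_congr rfl fun m _ => ?_
  split_ifs
  · simp
  · simp only [phi, Polynomial.eval_pow, Polynomial.eval_X]
    ring

/-- The number of slices not in general position. -/
theorem card_not_genPos {F : ℤ[X]} (hF : F.Monic) (hirr : Irreducible F)
    (hd : 4 ≤ F.natDegree) (z : Fin F.natDegree → ℂ) (hinj : Function.Injective z)
    (hz : ∀ i, F.eval₂ (Int.castRingHom ℂ) (z i) = 0)
    (hprod : F.map (Int.castRingHom ℂ) = ∏ i, (X - C (z i))) (B : ℕ)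
    (T : Finset (Fin F.natDegree → ℤ)) (hT : ∀ a ∈ T, ∀ i, |a i| ≤ (B : ℤ))
    (hT0 : ∀ a ∈ T, ∀ i : Fin F.natDegree, (i : ℕ) < 2 → a i = 0)
    (hbad : ∀ a ∈ T, ¬ GenPos z a) :
    T.card ≤ F.natDegree ^ 3 * (2 * B + 1) ^ (F.natDegree - 4) := by
  classical
  -- for a triple
  have htriple : ∀ q : Fin F.natDegree × Fin F.natDegree × Fin F.natDegree,
      (T.filter fun a => q.1 ≠ q.2.1 ∧ q.1 ≠ q.2.2 ∧ q.2.1 ≠ q.2.2 ∧
        (cst z a q.1 - cst z a q.2.2) * (z q.2.1 - z q.2.2) =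
          (cst z a q.2.1 - cst z a q.2.2) * (z q.1 - z q.2.2)).card ≤
      (2 * B + 1) ^ (F.natDegree - 4) := by
    rintro ⟨i, j, l⟩
    simp only
    by_cases hdist : i ≠ j ∧ i ≠ l ∧ j ≠ l
    · obtain ⟨hij, hil, hjl⟩ := hdist
      obtain ⟨m0, hm3, hmd, hirrat⟩ := exists_irrational hF hirr hd z hinj hz hprod i j l hij hil hjl
      set E : Finset (Fin F.natDegree) := {⟨0, by omega⟩, ⟨1, by omega⟩, ⟨2, by omega⟩, ⟨m0, hmd⟩} with hE
      have hEcard : E.card = 4 := by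
        rw [hE]
        rw [Finset.card_insert_of_notMem, Finset.card_insert_of_notMem,
          Finset.card_insert_of_notMem, Finset.card_singleton]
        · simp only [Finset.mem_singleton, Fin.mk.injEq]; omega
        · simp only [Finset.mem_insert, Finset.mem_singleton, Fin.mk.injEq]; omega
        · simp only [Finset.mem_insert, Finset.mem_singleton, Fin.mk.injEq]; omega
      set R := (Finset.univ \ E) with hR
      have hRcard : R.card = F.natDegree - 4 := by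
        rw [hR, Finset.card_sdiff_of_subset (Finset.subset_univ _), hEcard, Finset.card_univ,
          Fintype.card_fin]
      have hbox : (Fintype.piFinset fun _ : R => Finset.Icc (-(B : ℤ)) B).card =
          (2 * B + 1) ^ (F.natDegree - 4) := by
        rw [Fintype.card_piFinset, Finset.prod_const, Finset.card_univ, Fintype.card_coe, hRcard,
          Int.card_Icc]
        congr 1
        omega
      rw [← hbox]
      refine Finset.card_le_card_of_injOn (fun a => fun x : R => a x) ?_ ?_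
      · intro a ha
        have ha' := Finset.mem_filter.mp ha
        refine Fintype.mem_piFinset.mpr fun x => Finset.mem_Icc.mpr ?_
        exact abs_le.mp (hT a ha'.1 x)
      · intro a ha a' ha' haa
        have h1 := Finset.mem_filter.mp ha
        have h1' := Finset.mem_filter.mp ha'
        have hag : ∀ x ∈ R, a x = a' x := fun x hx => congrFun haa ⟨x, hx⟩
        have h2 : ∑ m : Fin F.natDegree, (if (m : ℕ) < 2 then 0 else
            (a m : ℂ) * phi (z i) (z j) (z l) (X ^ (m : ℕ))) = 0 := by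
          rw [← phi_cst, h1.2.2.2.2, sub_self]
        have h2' : ∑ m : Fin F.natDegree, (if (m : ℕ) < 2 then 0 else
            (a' m : ℂ) * phi (z i) (z j) (z l) (X ^ (m : ℕ))) = 0 := by
          rw [← phi_cst, h1'.2.2.2.2, sub_self]
        have h3 : ∑ m : Fin F.natDegree, (if (m : ℕ) < 2 then 0 else
            ((a m : ℂ) - a' m) * phi (z i) (z j) (z l) (X ^ (m : ℕ))) = 0 := by
          rw [← sub_self (0 : ℂ)]
          conv_rhs => rw [← h2]
          conv_rhs => arg 2; rw [h2, ← h2']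
          rw [← Finset.sum_sub_distrib]
          refine Finset.sum_congr rfl fun m _ => ?_
          split_ifs
          · simp
          · ring
        have h4 : ((a ⟨2, by omega⟩ : ℂ) - a' ⟨2, by omega⟩) * phi (z i) (z j) (z l) (X ^ 2) +
            ((a ⟨m0, hmd⟩ : ℂ) - a' ⟨m0, hmd⟩) * phi (z i) (z j) (z l) (X ^ m0) = 0 := by
          rw [← h3]
          symm
          rw [← Finset.sum_subset (Finset.subset_univ ({⟨2, by omega⟩, ⟨m0, hmd⟩} : Finset (Fin F.natDegree)))]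
          · rw [Finset.sum_pair]
            · simp only [show ¬ (2 : ℕ) < 2 by omega, show ¬ m0 < 2 by omega, if_false]
            · simp only [ne_eq, Fin.mk.injEq]; omega
          · intro m _ hm
            split_ifs with hm2
            · rfl
            · have : m ∈ R := by
                rw [hR, Finset.mem_sdiff]
                refine ⟨Finset.mem_univ _, ?_⟩
                rw [hE]
                simp only [Finset.mem_insert, Finset.mem_singleton] at hm ⊢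
                push Not at hm ⊢
                refine ⟨?_, ?_, hm.1, hm.2⟩
                · intro h; rw [h] at hm2; simp at hm2
                · intro h; rw [h] at hm2; simp at hm2
              rw [hag m this, sub_self, zero_mul]
        have hφ2 : phi (z i) (z j) (z l) (X ^ 2) ≠ 0 := by
          have : phi (z i) (z j) (z l) (X ^ 2) = (z i - z l) * (z j - z l) * (z i - z j) := by
            simp only [phi, Polynomial.eval_pow, Polynomial.eval_X]
            ring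
          rw [this]
          exact mul_ne_zero (mul_ne_zero (sub_ne_zero.mpr (hinj.ne hil))
            (sub_ne_zero.mpr (hinj.ne hjl))) (sub_ne_zero.mpr (hinj.ne hij))
        have h5 : a ⟨m0, hmd⟩ = a' ⟨m0, hmd⟩ := by
          by_contra hne
          have hne' : ((a ⟨m0, hmd⟩ : ℂ) - a' ⟨m0, hmd⟩) ≠ 0 := by
            rw [sub_ne_zero]; exact_mod_cast hne
          apply hirrat (-((a ⟨2, by omega⟩ : ℚ) - a' ⟨2, by omega⟩) / ((a ⟨m0, hmd⟩ : ℚ) - a' ⟨m0, hmd⟩))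
          push_cast
          field_simp
          linear_combination h4
        have h6 : a ⟨2, by omega⟩ = a' ⟨2, by omega⟩ := by
          rw [h5, sub_self, zero_mul, add_zero] at h4
          have := (mul_eq_zero.mp h4).resolve_right hφ2
          have := sub_eq_zero.mp this
          exact_mod_cast this
        funext x
        by_cases hx : x ∈ R
        · exact hag x hx
        · rw [hR, Finset.mem_sdiff, not_and_not_right] at hx
          have := hx (Finset.mem_univ _)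
          rw [hE] at this
          simp only [Finset.mem_insert, Finset.mem_singleton] at this
          rcases this with h | h | h | h
          · rw [hT0 a h1.1 x (by rw [h]; simp), hT0 a' h1'.1 x (by rw [h]; simp)]
          · rw [hT0 a h1.1 x (by rw [h]; simp), hT0 a' h1'.1 x (by rw [h]; simp)]
          · rw [h]; exact h6
          · rw [h]; exact h5
    · have : (T.filter fun a => i ≠ j ∧ i ≠ l ∧ j ≠ l ∧
        (cst z a i - cst z a l) * (z j - z l) =
          (cst z a j - cst z a l) * (z i - z l)) = ∅ := by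
        refine Finset.filter_eq_empty_iff.mpr ?_
        intro a _ h
        exact hdist ⟨h.1, h.2.1, h.2.2.1⟩
      rw [this]; simp
  have hcover : T ⊆ (Finset.univ : Finset (Fin F.natDegree × Fin F.natDegree × Fin F.natDegree)).biUnion
      (fun q => T.filter fun a => q.1 ≠ q.2.1 ∧ q.1 ≠ q.2.2 ∧ q.2.1 ≠ q.2.2 ∧
        (cst z a q.1 - cst z a q.2.2) * (z q.2.1 - z q.2.2) =
          (cst z a q.2.1 - cst z a q.2.2) * (z q.1 - z q.2.2)) := by
    intro a ha
    have h1 := hbad a ha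
    unfold GenPos at h1
    push Not at h1
    obtain ⟨i, j, l, h2, h3, h4, h5⟩ := h1
    rw [Finset.mem_biUnion]
    exact ⟨(i, j, l), Finset.mem_univ _, Finset.mem_filter.mpr ⟨ha, h2, h3, h4, h5⟩⟩
  calc T.card ≤ _ := Finset.card_le_card hcover
    _ ≤ ∑ q : Fin F.natDegree × Fin F.natDegree × Fin F.natDegree, (2 * B + 1) ^ (F.natDegree - 4) :=
        Finset.card_biUnion_le.trans (Finset.sum_le_sum fun q _ => htriple q)
    _ = F.natDegree ^ 3 * (2 * B + 1) ^ (F.natDegree - 4) := by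
        rw [Finset.sum_const, Finset.card_univ, Fintype.card_prod, Fintype.card_prod,
          Fintype.card_fin, smul_eq_mul]
        ring

end Crest.Agent.R022.GenPosCount
end

-- ▼ part R022/SieveMain
section

/-!
# R022: the analytic sieve reduction, main theorem
-/

set_option autoImplicit false

open Crest.NumberTheoryR Filter Topology Polynomial

namespace Crest.Agent.R022.SieveReduction

open Classical in
/-- The number of `n ∈ [1, N]` for which some prime `p > N` has `p ^ k ∣ f n`. -/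
noncomputable def bigCount (f : ℤ[X]) (k N : ℕ) : ℕ :=
  ((Finset.Icc 1 N).filter fun n : ℕ => ∃ p : ℕ, p.Prime ∧ N < p ∧ (p : ℤ) ^ k ∣ f.eval (n : ℤ)).card

/-- upper and lower bound for the power free count in terms of a finite set of primes -/
lemma count_bounds (f a b : ℤ[X]) (D : ℤ) (hD : D ≠ 0) (hab : a * f + b * derivative f = C D)
    (k : ℕ) (hk : 2 ≤ k)
    (hs : Summable (fun p : Nat.Primes =>
      (polyRootCountMod f ((p : ℕ) ^ k) : ℝ) / ((p : ℕ) : ℝ) ^ k))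
    (T : Finset Nat.Primes) (hT : ∀ p : Nat.Primes, ((p : ℕ) : ℤ) ∣ D → p ∈ T) (N : ℕ) :
    (powerFreeValueCount f k N : ℝ) ≤ N * (∏ p ∈ T, (1 - (polyRootCountMod f ((p : ℕ) ^ k) : ℝ) /
      ((p : ℕ) : ℝ) ^ k)) + 2 * (∏ p ∈ T, ((p : ℕ) : ℝ) ^ k) ∧
    N * (∏ p ∈ T, (1 - (polyRootCountMod f ((p : ℕ) ^ k) : ℝ) /
      ((p : ℕ) : ℝ) ^ k)) - 2 * (∏ p ∈ T, ((p : ℕ) : ℝ) ^ k)
      - N * (∑' p : {p : Nat.Primes // p ∉ T},
        (polyRootCountMod f (((p : Nat.Primes) : ℕ) ^ k) : ℝ) / (((p : Nat.Primes) : ℕ) : ℝ) ^ k)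
      - f.natDegree * (Nat.primeCounting N : ℝ) - bigCount f k N
      ≤ (powerFreeValueCount f k N : ℝ) := by
  classical
  set S : Finset ℕ := Finset.image (fun p : Nat.Primes => (p : ℕ)) T with hSdef
  have hSp : ∀ p ∈ S, p.Prime := by
    intro p hp
    rw [hSdef, Finset.mem_image] at hp
    obtain ⟨q, _, rfl⟩ := hp
    exact q.2
  have hinjT : Set.InjOn (fun p : Nat.Primes => (p : ℕ)) T := Subtype.val_injective.injOn
  obtain ⟨hper, hcnt⟩ := count_finset f k S hSp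
  have hQ : 0 < ∏ p ∈ S, p ^ k := Finset.prod_pos fun q hq => pow_pos (hSp q hq).pos _
  have hpc := periodic_count _ _ hQ hper N
  have hQR : ((∏ p ∈ S, p ^ k : ℕ) : ℝ) = ∏ p ∈ T, ((p : ℕ) : ℝ) ^ k := by
    rw [hSdef, Finset.prod_image hinjT]
    push_cast
    rfl
  have hratio : ((Nat.count (fun n : ℕ => ∀ p ∈ S, ¬ (((p ^ k : ℕ) : ℤ) ∣ f.eval (n : ℤ)))
      (∏ p ∈ S, p ^ k) : ℕ) : ℝ) / ((∏ p ∈ S, p ^ k : ℕ) : ℝ) =
      ∏ p ∈ T, (1 - (polyRootCountMod f ((p : ℕ) ^ k) : ℝ) / ((p : ℕ) : ℝ) ^ k) := by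
    rw [hcnt, hQR, hSdef, Finset.prod_image hinjT, ← Finset.prod_div_distrib]
    apply Finset.prod_congr rfl
    intro p _
    have : ((p : ℕ) : ℝ) ^ k ≠ 0 := pow_ne_zero _ (by exact_mod_cast p.2.ne_zero)
    push_cast
    field_simp
  rw [hratio, hQR] at hpc
  rw [abs_le] at hpc
  set A := (Finset.Icc 1 N).filter
    (fun n : ℕ => ∀ p ∈ S, ¬ (((p ^ k : ℕ) : ℤ) ∣ f.eval (n : ℤ))) with hA
  have hsubA : ((Finset.Icc 1 N).filter fun n : ℕ => IsPowerFree k (f.eval (n : ℤ))) ⊆ A := by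
    intro n hn
    rw [Finset.mem_filter] at hn
    rw [hA, Finset.mem_filter]
    refine ⟨hn.1, fun p hp h => hn.2 p (hSp p hp) ?_⟩
    simpa using h
  constructor
  · have h1 : powerFreeValueCount f k N ≤ A.card := by
      unfold powerFreeValueCount
      convert Finset.card_le_card hsubA
    have h2 : (powerFreeValueCount f k N : ℝ) ≤ A.card := by exact_mod_cast h1
    linarith [hpc.2]
  · set B : ℕ → Finset ℕ := fun p => (Finset.Icc 1 N).filter
      (fun n : ℕ => ((p ^ k : ℕ) : ℤ) ∣ f.eval (n : ℤ)) with hB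
    set K := (Finset.Icc 1 N).filter
      (fun n : ℕ => ∃ p : ℕ, p.Prime ∧ N < p ∧ (p : ℤ) ^ k ∣ f.eval (n : ℤ)) with hK
    set U : Finset ℕ := ((Finset.range (N + 1)).filter Nat.Prime) \ S with hU
    have hcover : A ⊆ ((Finset.Icc 1 N).filter fun n : ℕ => IsPowerFree k (f.eval (n : ℤ)))
        ∪ U.biUnion B ∪ K := by
      intro n hn
      rw [hA, Finset.mem_filter] at hn
      simp only [Finset.mem_union]
      by_cases hpf : IsPowerFree k (f.eval (n : ℤ))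
      · exact Or.inl (Or.inl (Finset.mem_filter.mpr ⟨hn.1, hpf⟩))
      · unfold IsPowerFree at hpf
        push Not at hpf
        obtain ⟨p, hp, hdvd⟩ := hpf
        by_cases hpN : N < p
        · exact Or.inr (Finset.mem_filter.mpr ⟨hn.1, p, hp, hpN, hdvd⟩)
        · refine Or.inl (Or.inr ?_)
          rw [Finset.mem_biUnion]
          refine ⟨p, ?_, Finset.mem_filter.mpr ⟨hn.1, by simpa using hdvd⟩⟩
          rw [hU, Finset.mem_sdiff, Finset.mem_filter, Finset.mem_range]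
          refine ⟨⟨by omega, hp⟩, fun hpS => hn.2 p hpS (by simpa using hdvd)⟩
    have hcard : A.card ≤ powerFreeValueCount f k N + ∑ p ∈ U, (B p).card + bigCount f k N := by
      have h1 := Finset.card_le_card hcover
      have h2 := Finset.card_union_le (((Finset.Icc 1 N).filter
        fun n : ℕ => IsPowerFree k (f.eval (n : ℤ))) ∪ U.biUnion B) K
      have h3 := Finset.card_union_le ((Finset.Icc 1 N).filter
        fun n : ℕ => IsPowerFree k (f.eval (n : ℤ))) (U.biUnion B)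
      have h4 : (U.biUnion B).card ≤ ∑ p ∈ U, (B p).card := Finset.card_biUnion_le
      have h5 : ((Finset.Icc 1 N).filter fun n : ℕ => IsPowerFree k (f.eval (n : ℤ))).card
          = powerFreeValueCount f k N := by
        unfold powerFreeValueCount; congr
      have h6 : K.card = bigCount f k N := by
        unfold bigCount; congr
      omega
    have hcardR : (A.card : ℝ) ≤ powerFreeValueCount f k N + ∑ p ∈ U, ((B p).card : ℝ)
        + bigCount f k N := by exact_mod_cast hcard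
    have hUmem : ∀ p ∈ U, p.Prime ∧ ¬ (p : ℤ) ∣ D ∧ p ≤ N ∧ p ∉ S := by
      intro p hp
      rw [hU, Finset.mem_sdiff, Finset.mem_filter, Finset.mem_range] at hp
      refine ⟨hp.1.2, fun h => hp.2 ?_, by omega, hp.2⟩
      rw [hSdef, Finset.mem_image]
      exact ⟨⟨p, hp.1.2⟩, hT ⟨p, hp.1.2⟩ h, rfl⟩
    have hBle : ∀ p ∈ U, ((B p).card : ℝ) ≤
        N * ((polyRootCountMod f (p ^ k) : ℝ) / (p : ℝ) ^ k) + f.natDegree := by
      intro p hp
      obtain ⟨hpp, hpD, _, _⟩ := hUmem p hp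
      have h1 := count_roots_le f (p ^ k) N (pow_pos hpp.pos _)
      have h2 : (polyRootCountMod f (p ^ k) : ℝ) ≤ f.natDegree := by
        exact_mod_cast rootCount_le f a b D hab p k hpp (by omega) hpD
      calc ((B p).card : ℝ) ≤ polyRootCountMod f (p ^ k) * ((N : ℝ) / ((p ^ k : ℕ) : ℝ) + 1) := by
            convert h1
        _ = N * ((polyRootCountMod f (p ^ k) : ℝ) / (p : ℝ) ^ k) + polyRootCountMod f (p ^ k) := by
            push_cast; ring
        _ ≤ _ := by gcongr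
    have hUsum : ∑ p ∈ U, ((B p).card : ℝ) ≤
        N * (∑' p : {p : Nat.Primes // p ∉ T},
          (polyRootCountMod f (((p : Nat.Primes) : ℕ) ^ k) : ℝ) /
            (((p : Nat.Primes) : ℕ) : ℝ) ^ k)
        + f.natDegree * (Nat.primeCounting N : ℝ) := by
      refine (Finset.sum_le_sum hBle).trans ?_
      rw [Finset.sum_add_distrib, ← Finset.mul_sum]
      apply add_le_add
      · gcongr
        -- sum over U bounded by the tsum
        have hs' : Summable (fun p : {p : Nat.Primes // p ∉ T} =>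
          (polyRootCountMod f (((p : Nat.Primes) : ℕ) ^ k) : ℝ) /
            (((p : Nat.Primes) : ℕ) : ℝ) ^ k) := hs.subtype _
        have key := hs'.sum_le_tsum (U.attach.image (fun p : {p : ℕ // p ∈ U} =>
          (⟨⟨p.1, (hUmem p.1 p.2).1⟩, fun h => (hUmem p.1 p.2).2.2.2 (by
            rw [hSdef, Finset.mem_image]; exact ⟨_, h, rfl⟩)⟩ : {p : Nat.Primes // p ∉ T})))
          (fun _ _ => by positivity)
        refine le_trans (le_of_eq ?_) key
        rw [Finset.sum_image]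
        · rw [← Finset.sum_attach U]
        · intro x _ y _ hxy
          exact Subtype.ext (congrArg (fun z : {p : Nat.Primes // p ∉ T} => ((z : Nat.Primes) : ℕ)) hxy)
      · rw [Finset.sum_const, nsmul_eq_mul, mul_comm]
        gcongr
        rw [hU, Nat.primeCounting, Nat.primeCounting', Nat.count_eq_card_filter_range]
        exact Finset.card_le_card Finset.sdiff_subset
    linarith [hpc.1]

/-- **Sieve reduction.** It suffices to show that few `n ≤ N` have `p ^ k ∣ f n` for a prime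
`p > N`. -/
theorem reduction (f : ℤ[X]) (k : ℕ) (hirr : Irreducible (f.map (Int.castRingHom ℚ)))
    (hk : 2 ≤ k) (hloc : ∀ p : ℕ, p.Prime → polyRootCountMod f (p ^ k) < p ^ k)
    (KI : Tendsto (fun N : ℕ => (bigCount f k N : ℝ) / N) atTop (𝓝 0)) :
    ∃ c : ℝ, 0 < c ∧
      HasProd (fun p : Nat.Primes => 1 - (polyRootCountMod f ((p : ℕ) ^ k) : ℝ) / ((p : ℕ) : ℝ) ^ k) c ∧
      Tendsto (fun N : ℕ => (powerFreeValueCount f k N : ℝ) / (N : ℝ)) atTop (𝓝 c) := by
  classical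
  obtain ⟨c, hc, hprod⟩ := hasProd_density f hirr k hk hloc
  refine ⟨c, hc, hprod, ?_⟩
  obtain ⟨a, b, D, hD, hab⟩ := exists_bezout f hirr
  have hs := summable_density f hirr k hk
  have hfin : {p : Nat.Primes | ((p : ℕ) : ℤ) ∣ D}.Finite := by
    have : {n : ℕ | ((n : ℕ) : ℤ) ∣ D}.Finite := by
      apply Set.Finite.subset (Finset.finite_toSet (Finset.range (D.natAbs + 1)))
      intro n hn
      simp only [Set.mem_ofPred_eq] at hn
      simp only [Finset.coe_range, Set.mem_Iio]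
      have h1 : n ∣ D.natAbs := Int.natCast_dvd.mp hn
      have h2 := Nat.le_of_dvd (Int.natAbs_pos.mpr hD) h1
      omega
    exact Set.Finite.preimage (f := fun p : Nat.Primes => (p : ℕ))
      (Subtype.val_injective.injOn) this
  rw [Metric.tendsto_atTop]
  intro ε hε
  -- choose the finite set of primes
  have h1 : ∀ᶠ T : Finset Nat.Primes in atTop, |(∏ p ∈ T, (1 - (polyRootCountMod f ((p : ℕ) ^ k) : ℝ) /
      ((p : ℕ) : ℝ) ^ k)) - c| < ε / 4 := by
    have := Metric.tendsto_nhds.mp hprod (ε / 4) (by positivity)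
    simpa [Real.dist_eq] using this
  have h2 : ∀ᶠ T : Finset Nat.Primes in atTop, (∑' p : {p : Nat.Primes // p ∉ T},
        (polyRootCountMod f (((p : Nat.Primes) : ℕ) ^ k) : ℝ) / (((p : Nat.Primes) : ℕ) : ℝ) ^ k)
        < ε / 4 := by
    have := tendsto_tsum_compl_atTop_zero (fun p : Nat.Primes =>
      (polyRootCountMod f ((p : ℕ) ^ k) : ℝ) / ((p : ℕ) : ℝ) ^ k)
    exact this.eventually_lt_const (by positivity)
  have h3 : ∀ᶠ T : Finset Nat.Primes in atTop, ∀ p : Nat.Primes, ((p : ℕ) : ℤ) ∣ D → p ∈ T := by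
    filter_upwards [eventually_ge_atTop hfin.toFinset] with T hT p hp
    exact hT (hfin.mem_toFinset.mpr hp)
  obtain ⟨T, hT1, hT2, hT3⟩ := (h1.and (h2.and h3)).exists
  have hb := count_bounds f a b D hD hab k hk hs T hT3
  set E₀ := ∏ p ∈ T, (1 - (polyRootCountMod f ((p : ℕ) ^ k) : ℝ) / ((p : ℕ) : ℝ) ^ k) with hE₀
  set Q₀ := ∏ p ∈ T, ((p : ℕ) : ℝ) ^ k with hQ₀
  set τ := ∑' p : {p : Nat.Primes // p ∉ T},
        (polyRootCountMod f (((p : Nat.Primes) : ℕ) ^ k) : ℝ) / (((p : Nat.Primes) : ℕ) : ℝ) ^ k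
    with hτ
  -- eventual smallness of the error
  have herr : Tendsto (fun N : ℕ => 2 * Q₀ / N + f.natDegree * ((Nat.primeCounting N : ℝ) / N)
      + (bigCount f k N : ℝ) / N) atTop (𝓝 0) := by
    rw [show (0 : ℝ) = 0 + f.natDegree * 0 + 0 by ring]
    apply Tendsto.add (Tendsto.add _ _) KI
    · exact Tendsto.div_atTop tendsto_const_nhds tendsto_natCast_atTop_atTop
    · exact primeCounting_div_tendsto.const_mul _
  have h4 := herr.eventually_lt_const (show (0 : ℝ) < ε / 4 by positivity)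
  obtain ⟨N₀, hN₀⟩ := eventually_atTop.mp (h4.and (eventually_ge_atTop 1))
  refine ⟨N₀, fun N hN => ?_⟩
  obtain ⟨hNe, hN1⟩ := hN₀ N hN
  have hN0 : (0 : ℝ) < N := by exact_mod_cast hN1
  obtain ⟨hu, hl⟩ := hb N
  rw [Real.dist_eq, abs_lt]
  rw [abs_lt] at hT1
  have hpc0 : (0 : ℝ) ≤ f.natDegree * ((Nat.primeCounting N : ℝ) / N) := by positivity
  have hbc0 : (0 : ℝ) ≤ (bigCount f k N : ℝ) / N := by positivity
  have hQ0 : (0 : ℝ) ≤ 2 * Q₀ / N := by positivity
  constructor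
  · have h5 : E₀ - 2 * Q₀ / N - τ - f.natDegree * ((Nat.primeCounting N : ℝ) / N)
        - (bigCount f k N : ℝ) / N ≤ (powerFreeValueCount f k N : ℝ) / N := by
      rw [le_div_iff₀ hN0]
      refine le_trans (le_of_eq ?_) hl
      field_simp
    linarith [hT1.1]
  · have h5 : (powerFreeValueCount f k N : ℝ) / N ≤ E₀ + 2 * Q₀ / N := by
      rw [div_le_iff₀ hN0]
      refine le_trans hu (le_of_eq ?_)
      field_simp
    linarith [hT1.2]

end Crest.Agent.R022.SieveReduction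
end

-- ▼ part R22/Range7A
section

/-! Row 22, range (7) (helper990), part A: `rho_f(m) ≤ C_ε m^ε`. -/

set_option autoImplicit false

namespace Crest.Agent.R22.Range7

open Polynomial Crest.NumberTheoryR Crest.Agent.R22.SieveRed

/-- two roots modulo `p^j` which are close are very close -/
theorem close_roots (f u v : ℤ[X]) (r : ℤ) (h : u * f + v * derivative f = C r)
    (p j e : ℕ) (hp : p.Prime) (hr : ¬ (p : ℤ) ^ (e + 1) ∣ r) (hj : e + 1 ≤ j) (a b : ℤ)
    (ha : (p : ℤ) ^ j ∣ f.eval a) (hb : (p : ℤ) ^ j ∣ f.eval b)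
    (hab : (p : ℤ) ^ (e + 1) ∣ a - b) : (p : ℤ) ^ (j - e) ∣ a - b := by
  obtain ⟨c, hc⟩ := f.binomExpansion b (a - b)
  rw [add_sub_cancel] at hc
  have hpi : Prime (p : ℤ) := Nat.prime_iff_prime_int.mp hp
  set X := (derivative f).eval b + c * (a - b) with hX
  have h1 : (p : ℤ) ^ j ∣ (a - b) * X := by
    have : (a - b) * X = f.eval a - f.eval b := by
      rw [hc, hX]; ring
    rw [this]; exact dvd_sub ha hb
  have h2 : ¬ (p : ℤ) ^ (e + 1) ∣ X := by
    intro hd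
    have h3 : (p : ℤ) ^ (e + 1) ∣ (derivative f).eval b := by
      have := dvd_sub hd (hab.mul_left c)
      simpa [hX] using this
    apply hr
    have h4 := congrArg (Polynomial.eval b) h
    simp only [eval_add, eval_mul, eval_C] at h4
    rw [← h4]
    exact dvd_add (((pow_dvd_pow _ hj).trans hb).mul_left _) (h3.mul_left _)
  have hX0 : X ≠ 0 := fun h0 => h2 (h0 ▸ dvd_zero _)
  have hfin : FiniteMultiplicity (p : ℤ) X := by
    rw [Int.finiteMultiplicity_iff]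
    refine ⟨?_, hX0⟩
    rw [Int.natAbs_natCast]
    exact hp.one_lt.ne'
  obtain ⟨X', hX', hnd⟩ := hfin.exists_eq_pow_mul_and_not_dvd
  set i := multiplicity (p : ℤ) X with hi
  have hie : i ≤ e := by
    by_contra hlt
    push Not at hlt
    exact h2 ((pow_dvd_pow _ (by omega : e + 1 ≤ i)).trans ⟨X', hX'⟩)
  rw [hX', mul_left_comm] at h1
  have h5 : (p : ℤ) ^ (j - i) ∣ (a - b) * X' := by
    have h6 : (p : ℤ) ^ i * (p : ℤ) ^ (j - i) ∣ (p : ℤ) ^ i * ((a - b) * X') := by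
      rw [← pow_add, Nat.add_sub_cancel' (by omega : i ≤ j)]
      exact h1
    exact (mul_dvd_mul_iff_left (pow_ne_zero _ hpi.ne_zero)).1 h6
  have h7 := hpi.pow_dvd_of_dvd_mul_right (j - i) hnd h5
  exact (pow_dvd_pow _ (by omega)).trans h7

theorem polyRootCountMod_le_self (f : ℤ[X]) (q : ℕ) : polyRootCountMod f q ≤ q := by
  unfold polyRootCountMod
  exact (Finset.card_filter_le _ _).trans (by simp)

/-- uniform bound for the number of roots modulo prime powers -/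
theorem rootCount_prime_pow (f : ℤ[X]) (hirr : Irreducible (f.map (Int.castRingHom ℚ))) :
    ∃ K : ℕ, 1 ≤ K ∧ ∀ p : ℕ, p.Prime → ∀ j : ℕ, polyRootCountMod f (p ^ j) ≤ K := by
  obtain ⟨u, v, r, hr0, h⟩ := exists_bezout f hirr
  refine ⟨f.natDegree + r.natAbs ^ 3 + 1, by omega, fun p hp j => ?_⟩
  rcases Nat.eq_zero_or_pos j with rfl | hj
  · exact (polyRootCountMod_le_self f _).trans (by simp)
  by_cases hpr : (p : ℤ) ∣ r
  · -- p divides r
    have hr1 : 1 ≤ r.natAbs := Int.natAbs_pos.2 hr0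
    have hfin : FiniteMultiplicity (p : ℤ) r := by
      rw [Int.finiteMultiplicity_iff]
      refine ⟨?_, hr0⟩
      rw [Int.natAbs_natCast]
      exact hp.one_lt.ne'
    set e := multiplicity (p : ℤ) r with he
    have he1 : (p : ℤ) ^ e ∣ r := pow_multiplicity_dvd _ _
    have he2 : ¬ (p : ℤ) ^ (e + 1) ∣ r := hfin.not_pow_dvd_of_multiplicity_lt (by omega)
    have hpe : p ^ e ≤ r.natAbs := by
      have := Int.natAbs_dvd_natAbs.2 he1
      rw [Int.natAbs_pow, Int.natAbs_natCast] at this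
      exact Nat.le_of_dvd (by omega) this
    have hpp : p ≤ r.natAbs := by
      have := Int.natAbs_dvd_natAbs.2 hpr
      rw [Int.natAbs_natCast] at this
      exact Nat.le_of_dvd (by omega) this
    have hbound : p ^ (e + 1) * p ^ e ≤ r.natAbs ^ 3 := by
      calc p ^ (e + 1) * p ^ e = p ^ e * p * p ^ e := by rw [pow_succ]
        _ ≤ r.natAbs * r.natAbs * r.natAbs :=
          Nat.mul_le_mul (Nat.mul_le_mul hpe hpp) hpe
        _ = r.natAbs ^ 3 := by ring
    by_cases hje : j ≤ 2 * e + 1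
    · calc polyRootCountMod f (p ^ j) ≤ p ^ j := polyRootCountMod_le_self f _
        _ ≤ p ^ (2 * e + 1) := Nat.pow_le_pow_right hp.pos hje
        _ = p ^ (e + 1) * p ^ e := by rw [← pow_add]; congr 1; omega
        _ ≤ r.natAbs ^ 3 := hbound
        _ ≤ _ := by omega
    · push Not at hje
      refine le_trans ?_ (hbound.trans (by omega))
      unfold polyRootCountMod
      rw [← Finset.card_range (p ^ (e + 1)), ← Finset.card_range (p ^ e), ← Finset.card_product]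
      apply Finset.card_le_card_of_injOn (fun a => (a % p ^ (e + 1), a / p ^ (j - e)))
      · intro a ha
        simp only [Finset.coe_filter, Finset.mem_range, Set.mem_ofPred_eq] at ha
        simp only [Finset.coe_product, Set.mem_prod, Finset.mem_coe, Finset.mem_range,
          Finset.card_range]
        refine ⟨Nat.mod_lt _ (pow_pos hp.pos _), ?_⟩
        rw [Nat.div_lt_iff_lt_mul (pow_pos hp.pos _), ← pow_add]
        have : e + (j - e) = j := by omega
        rw [this]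
        exact ha.1
      · intro a ha b hb hab
        simp only [Finset.coe_filter, Finset.mem_range, Set.mem_ofPred_eq] at ha hb
        simp only [Prod.mk.injEq] at hab
        have ha2 := ha.2
        have hb2 := hb.2
        push_cast at ha2 hb2
        have h1 : (p : ℤ) ^ (e + 1) ∣ (a : ℤ) - b := by
          have h3 : b ≡ a [MOD p ^ (e + 1)] := hab.1.symm
          have := (Nat.modEq_iff_dvd.mp h3)
          push_cast at this
          exact this
        have h2 := close_roots f u v r h p j e hp he2 (by omega) a b ha2 hb2 h1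
        have h4 : b ≡ a [MOD p ^ (j - e)] := by
          rw [Nat.modEq_iff_dvd]
          push_cast
          exact h2
        rw [← Nat.mod_add_div a (p ^ (j - e)), ← Nat.mod_add_div b (p ^ (j - e)), hab.2]
        have h5 : b % p ^ (j - e) = a % p ^ (j - e) := h4
        rw [h5]
  · exact (rootCount_le f u v r h p j hp hj hpr).trans (by omega)

theorem rootCount_mul (f : ℤ[X]) (m n : ℕ) (hm : 0 < m) (hn : 0 < n) (hc : m.Coprime n) :
    polyRootCountMod f (m * n) = polyRootCountMod f m * polyRootCountMod f n := by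
  have h1 := card_crt (fun a : ℕ => (m : ℤ) ∣ f.eval (a : ℤ)) (fun a : ℕ => (n : ℤ) ∣ f.eval (a : ℤ))
    m n hm hn hc (fun a b hab => eval_dvd_iff f m a b hab) (fun a b hab => eval_dvd_iff f n a b hab)
  unfold polyRootCountMod
  rw [← h1]
  congr 1
  apply Finset.filter_congr
  intro a _
  have hci : IsCoprime (m : ℤ) (n : ℤ) := Nat.isCoprime_iff_coprime.2 hc
  constructor
  · intro h
    push_cast at h
    exact ⟨(dvd_mul_right _ _).trans h, (dvd_mul_left _ _).trans h⟩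
  · rintro ⟨h1, h2⟩
    push_cast
    exact hci.mul_dvd h1 h2

theorem rootCount_le_pow (f : ℤ[X]) (K : ℕ)
    (hK : ∀ p : ℕ, p.Prime → ∀ j : ℕ, polyRootCountMod f (p ^ j) ≤ K) (m : ℕ) (hm : 0 < m) :
    polyRootCountMod f m ≤ K ^ m.primeFactors.card := by
  induction m using Nat.recOnPosPrimePosCoprime with
  | prime_pow p n hp hn =>
    rw [Nat.primeFactors_prime_pow hn.ne' hp, Finset.card_singleton, pow_one]
    exact hK p hp n
  | zero => exact absurd hm (by simp)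
  | one => simpa using polyRootCountMod_le_self f 1
  | coprime a b ha hb hab iha ihb =>
    have hc : a.Coprime b := hab
    rw [rootCount_mul f a b (by omega) (by omega) hc, hc.primeFactors_mul,
      Finset.card_union_of_disjoint hc.disjoint_primeFactors, pow_add]
    exact Nat.mul_le_mul (iha (by omega)) (ihb (by omega))

theorem pow_omega_le (K : ℕ) (hK : 1 ≤ K) (ε : ℝ) (hε : 0 < ε) :
    ∃ C : ℝ, 0 < C ∧ ∀ m : ℕ, 0 < m → ((K : ℝ) ^ m.primeFactors.card) ≤ C * (m : ℝ) ^ ε := by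
  -- a threshold
  obtain ⟨B, hB⟩ : ∃ B : ℕ, ∀ p : ℕ, B ≤ p → (K : ℝ) ≤ (p : ℝ) ^ ε := by
    have h1 : Filter.Tendsto (fun p : ℕ => (p : ℝ) ^ ε) Filter.atTop Filter.atTop :=
      (tendsto_rpow_atTop hε).comp tendsto_natCast_atTop_atTop
    have h2 := h1.eventually_ge_atTop (K : ℝ)
    rw [Filter.eventually_atTop] at h2
    exact h2
  have hK1 : (1 : ℝ) ≤ K := by exact_mod_cast hK
  refine ⟨(K : ℝ) ^ B, by positivity, fun m hm => ?_⟩
  have h3 : ∀ p ∈ m.primeFactors, (K : ℝ) ≤ (if p < B then (K : ℝ) else 1) * (p : ℝ) ^ ε := by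
    intro p hp
    have hpp : p.Prime := Nat.prime_of_mem_primeFactors hp
    have hp1 : (1 : ℝ) ≤ (p : ℝ) ^ ε := Real.one_le_rpow (by exact_mod_cast hpp.one_le) hε.le
    split_ifs with h
    · nlinarith
    · rw [one_mul]; exact hB p (not_lt.1 h)
  calc (K : ℝ) ^ m.primeFactors.card = ∏ _p ∈ m.primeFactors, (K : ℝ) := by
        rw [Finset.prod_const]
    _ ≤ ∏ p ∈ m.primeFactors, (if p < B then (K : ℝ) else 1) * (p : ℝ) ^ ε :=
        Finset.prod_le_prod (fun _ _ => by positivity) h3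
    _ = (∏ p ∈ m.primeFactors, (if p < B then (K : ℝ) else 1)) *
        ∏ p ∈ m.primeFactors, (p : ℝ) ^ ε := Finset.prod_mul_distrib
    _ ≤ (K : ℝ) ^ B * (m : ℝ) ^ ε := by
        apply mul_le_mul
        · rw [Finset.prod_ite, Finset.prod_const, Finset.prod_const_one, mul_one]
          apply pow_le_pow_right₀ hK1
          calc (m.primeFactors.filter (fun p => p < B)).card ≤ (Finset.range B).card := by
                apply Finset.card_le_card
                intro p hp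
                exact Finset.mem_range.2 (Finset.mem_filter.1 hp).2
            _ = B := Finset.card_range B
        · rw [Real.finsetProd_rpow _ _ (fun _ _ => by positivity)]
          apply Real.rpow_le_rpow (by positivity) _ hε.le
          have := Nat.le_of_dvd hm (Nat.prod_primeFactors_dvd m)
          rw [← Nat.cast_prod]
          exact_mod_cast this
        · positivity
        · positivity

/-- **divisor-type bound** for the number of roots of `f` modulo `m` -/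
theorem rootCount_le_rpow (f : ℤ[X]) (hirr : Irreducible (f.map (Int.castRingHom ℚ)))
    (ε : ℝ) (hε : 0 < ε) :
    ∃ C : ℝ, 0 < C ∧ ∀ m : ℕ, 0 < m → (polyRootCountMod f m : ℝ) ≤ C * (m : ℝ) ^ ε := by
  obtain ⟨K, hK1, hK⟩ := rootCount_prime_pow f hirr
  obtain ⟨C, hC, h⟩ := pow_omega_le K hK1 ε hε
  refine ⟨C, hC, fun m hm => ?_⟩
  calc (polyRootCountMod f m : ℝ) ≤ ((K ^ m.primeFactors.card : ℕ) : ℝ) := by
        exact_mod_cast rootCount_le_pow f K hK m hm
    _ = (K : ℝ) ^ m.primeFactors.card := by push_cast; rfl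
    _ ≤ _ := h m hm

end Crest.Agent.R22.Range7
end

-- ▼ part R022/Small997
section

set_option autoImplicit false

namespace Crest.Agent.R022.Small

open Polynomial Filter Topology Crest.NumberTheoryR Crest.Agent.R22

theorem ev_map_intCast (f : ℤ[X]) (n : ℤ) :
    ev (f.map (Int.castRingHom ℚ)) (n : ℝ) = ((f.eval n : ℤ) : ℝ) := by
  unfold ev
  rw [Polynomial.map_map, Polynomial.eval_map]
  have h := Polynomial.hom_eval₂ f (RingHom.id ℤ) ((algebraMap ℚ ℝ).comp (Int.castRingHom ℚ)) n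
  simp only [RingHom.comp_id, eq_intCast] at h
  rw [← h]
  simp

/-- Bound for the number of `n ≤ N` with fixed cofactor `m`. -/
theorem card_fixed (f : ℤ[X]) (s : ℕ) (H : ℝ) (hH : 1 ≤ H) (N m : ℕ) (hm : 1 ≤ m)
    (T : Finset ℕ) (hT : ∀ n ∈ T, n ≤ N ∧ (m : ℤ) ∣ f.eval (n : ℤ))
    (hwin : ∀ (ν : ℤ) (S : Finset ℤ), (∀ l ∈ S, ∃ n ∈ T, (n : ℤ) = ν + m * l) →
      (∀ l ∈ S, ∀ l' ∈ S, (l : ℝ) - l' ≤ H) → S.card ≤ s) :
    (T.card : ℝ) ≤ s * ((polyRootCountMod f m : ℝ) * ((N : ℝ) / (m * H) + 1)) := by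
  classical
  have hmpos : 0 < m := hm
  have hmR : (0 : ℝ) < m := by exact_mod_cast hmpos
  have hHpos : 0 < H := by linarith
  set g : ℕ → ℕ × ℕ := fun n => (n % m, ⌊((n / m : ℕ) : ℝ) / H⌋₊) with hg
  have h1 : T.card ≤ s * (T.image g).card := by
    apply Finset.card_le_mul_card_image
    intro a _
    set F := T.filter (fun x => g x = a) with hF
    set S : Finset ℤ := F.image (fun n : ℕ => ((n / m : ℕ) : ℤ)) with hS
    have hinj : Set.InjOn (fun n : ℕ => ((n / m : ℕ) : ℤ)) (F : Set ℕ) := by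
      intro x hx y hy hxy
      simp only [hF, Finset.coe_filter, Set.mem_ofPred_eq] at hx hy
      have e1 : x % m = y % m := by
        have h1 := congrArg Prod.fst hx.2
        have h2 := congrArg Prod.fst hy.2
        simp only [hg] at h1 h2
        rw [h1, h2]
      have e2 : x / m = y / m := by
        simp only at hxy
        exact_mod_cast hxy
      rw [← Nat.mod_add_div x m, ← Nat.mod_add_div y m, e1, e2]
    have hcard : F.card = S.card := (Finset.card_image_of_injOn hinj).symm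
    rw [hcard]
    apply hwin (a.1 : ℤ) S
    · intro l hl
      obtain ⟨n, hn, rfl⟩ := Finset.mem_image.mp hl
      simp only [hF, Finset.mem_filter] at hn
      refine ⟨n, hn.1, ?_⟩
      have h1 := congrArg Prod.fst hn.2
      simp only [hg] at h1
      have h2 := Nat.mod_add_div n m
      rw [← h1]
      exact_mod_cast h2.symm
    · intro l hl l' hl'
      obtain ⟨n, hn, rfl⟩ := Finset.mem_image.mp hl
      obtain ⟨n', hn', rfl⟩ := Finset.mem_image.mp hl'
      simp only [hF, Finset.mem_filter] at hn hn'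
      have h1 := congrArg Prod.snd hn.2
      have h2 := congrArg Prod.snd hn'.2
      simp only [hg] at h1 h2
      have h3 : ((n / m : ℕ) : ℝ) / H < a.2 + 1 := by
        have := Nat.lt_floor_add_one (((n / m : ℕ) : ℝ) / H)
        rw [h1] at this; exact this
      have h4 : (a.2 : ℝ) ≤ ((n' / m : ℕ) : ℝ) / H := by
        rw [← h2]; exact Nat.floor_le (by positivity)
      have h5 : (((n / m : ℕ) : ℝ) - ((n' / m : ℕ) : ℝ)) / H < 1 := by
        rw [sub_div]; linarith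
      rw [div_lt_one hHpos] at h5
      push_cast
      exact h5.le
  have h2 : (T.image g).card ≤ polyRootCountMod f m * (⌊(N : ℝ) / (m * H)⌋₊ + 1) := by
    unfold polyRootCountMod
    rw [← Finset.card_range (⌊(N : ℝ) / (m * H)⌋₊ + 1), ← Finset.card_product]
    apply Finset.card_le_card
    intro a ha
    obtain ⟨n, hn, rfl⟩ := Finset.mem_image.mp ha
    obtain ⟨hnN, hdvd⟩ := hT n hn
    simp only [Finset.mem_product, Finset.mem_filter, Finset.mem_range, hg]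
    refine ⟨⟨Nat.mod_lt _ hmpos, ?_⟩, ?_⟩
    · exact (SieveRed.eval_dvd_iff f m (n % m) n (Nat.mod_modEq n m)).mpr hdvd
    · apply Nat.lt_succ_of_le
      apply Nat.floor_le_floor
      rw [← div_div]
      apply div_le_div_of_nonneg_right _ hHpos.le
      have h1 : ((n / m : ℕ) : ℝ) ≤ (n : ℝ) / m := Nat.cast_div_le
      have h2 : (n : ℝ) / m ≤ (N : ℝ) / m := by
        apply div_le_div_of_nonneg_right _ hmR.le
        exact_mod_cast hnN
      linarith
  have h3 : (T.card : ℝ) ≤ s * ((polyRootCountMod f m : ℝ) * ((⌊(N : ℝ) / (m * H)⌋₊ : ℝ) + 1)) := by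
    have := h1.trans (Nat.mul_le_mul_left s h2)
    exact_mod_cast this
  refine h3.trans ?_
  have h4 : (⌊(N : ℝ) / (m * H)⌋₊ : ℝ) ≤ (N : ℝ) / (m * H) := Nat.floor_le (by positivity)
  gcongr

theorem small_cofactor_pos (f : ℤ[X]) (hirr : Irreducible (f.map (Int.castRingHom ℚ)))
    (hlc : 0 < f.leadingCoeff) (k : ℕ) (hk : 2 ≤ k) (c : ℝ) (hc : 0 < c) (hc1 : c ≤ 1) :
    ∃ (δ C : ℝ), 0 < δ ∧ δ ≤ 1 ∧ 0 < C ∧ ∀ (N : ℕ) (A : Finset ℕ),
      (∀ n ∈ A, 1 ≤ n ∧ n ≤ N ∧ ∃ (p : ℕ) (m : ℤ), f.eval (n : ℤ) = (p : ℤ) ^ k * m ∧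
        |(m : ℝ)| ≤ (N : ℝ) ^ (1 - c)) → (A.card : ℝ) ≤ C * (N : ℝ) ^ (1 - δ) := by
  classical
  set F : ℚ[X] := f.map (Int.castRingHom ℚ) with hF
  have hlcF : 0 < F.leadingCoeff := by
    rw [hF, Polynomial.leadingCoeff_map_of_injective (Int.castRingHom ℚ).injective_int]
    simpa using hlc
  obtain ⟨s, N0, hs0, hN01, hwin⟩ := window F hirr hlcF k hk c hc hc1
  obtain ⟨c1, x1, hc10, hx11, hlow⟩ := ev_lower F hlcF
  set δ0 : ℝ := c / (8 * (s + 1)) with hδ0
  have hsR : (1 : ℝ) ≤ s := by exact_mod_cast hs0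
  have hδ00 : 0 < δ0 := by positivity
  have hδ0c : δ0 ≤ c / 16 := by
    rw [hδ0]
    apply div_le_div_of_nonneg_left hc.le (by norm_num)
    linarith
  set ε : ℝ := δ0 / 4 with hε
  have hε0 : 0 < ε := by positivity
  obtain ⟨Cε, hCε0, hCε⟩ := Range7.rootCount_le_rpow f hirr ε hε0
  -- threshold for positivity
  have ht2 : Tendsto (fun N : ℕ => (N : ℝ) ^ (1 - c / 2)) atTop atTop :=
    (tendsto_rpow_atTop (by linarith)).comp tendsto_natCast_atTop_atTop
  obtain ⟨N2, hN2⟩ := eventually_atTop.mp (ht2.eventually_ge_atTop x1)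
  set N3 : ℕ := max N0 N2 with hN3
  refine ⟨δ0 / 2, (N3 : ℝ) + (2 + s * Cε * (2 + 1 / ε)), by positivity, by linarith,
    by positivity, ?_⟩
  intro N A hA
  rcases Nat.eq_zero_or_pos N with hN0 | hNpos
  · have : A = ∅ := by
      rw [Finset.eq_empty_iff_forall_notMem]
      intro n hn
      have h1 := (hA n hn).1
      have h2 := (hA n hn).2.1
      omega
    rw [this]
    simp only [Finset.card_empty, Nat.cast_zero]
    positivity
  have hN1 : (1 : ℝ) ≤ N := by exact_mod_cast hNpos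
  have hNp : (0 : ℝ) < N := by linarith
  have hAN : A ⊆ Finset.Icc 1 N := by
    intro n hn
    rw [Finset.mem_Icc]
    exact ⟨(hA n hn).1, (hA n hn).2.1⟩
  have hpow1 : (1 : ℝ) ≤ (N : ℝ) ^ (1 - δ0 / 2) := Real.one_le_rpow hN1 (by linarith)
  by_cases hsmall : N < N3
  · have h1 : A.card ≤ N := by
      have := Finset.card_le_card hAN
      simpa using this
    have h2 : (A.card : ℝ) ≤ N3 := by exact_mod_cast h1.trans hsmall.le
    have h3 : (0 : ℝ) ≤ 2 + s * Cε * (2 + 1 / ε) := by positivity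
    calc (A.card : ℝ) ≤ N3 := h2
      _ ≤ (N3 + (2 + s * Cε * (2 + 1 / ε))) * 1 := by linarith
      _ ≤ _ := by
          apply mul_le_mul_of_nonneg_left hpow1 (by positivity)
  push Not at hsmall
  have hNN0 : N0 ≤ N := (le_max_left _ _).trans hsmall
  have hNN2 : x1 ≤ (N : ℝ) ^ (1 - c / 2) := hN2 N ((le_max_right _ _).trans hsmall)
  set H : ℝ := (N : ℝ) ^ δ0 with hH
  have hH1 : 1 ≤ H := Real.one_le_rpow hN1 hδ00.le
  set M : ℕ := ⌊(N : ℝ) ^ (1 - c)⌋₊ with hM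
  have hMle : (M : ℝ) ≤ (N : ℝ) ^ (1 - c) := Nat.floor_le (by positivity)
  -- the sets with fixed cofactor
  set T : ℕ → Finset ℕ := fun m => (Finset.Icc 1 N).filter
    (fun n : ℕ => (N : ℝ) ^ (1 - c / 2) ≤ n ∧ ∃ p : ℕ, f.eval (n : ℤ) = (p : ℤ) ^ k * m) with hTdef
  have hTcard : ∀ m ∈ Finset.Icc 1 M, ((T m).card : ℝ) ≤
      s * ((polyRootCountMod f m : ℝ) * ((N : ℝ) / (m * H) + 1)) := by
    intro m hm
    rw [Finset.mem_Icc] at hm
    have hmN : (m : ℝ) ≤ (N : ℝ) ^ (1 - c) := by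
      have : (m : ℝ) ≤ M := by exact_mod_cast hm.2
      linarith
    apply card_fixed f s H hH1 N m hm.1
    · intro n hn
      simp only [hTdef, Finset.mem_filter, Finset.mem_Icc] at hn
      refine ⟨hn.1.2, ?_⟩
      obtain ⟨p, hp⟩ := hn.2.2
      exact ⟨(p : ℤ) ^ k, by rw [hp]; ring⟩
    · intro ν S hS hSd
      apply hwin N hNN0 m hm.1 hmN ν S
      · intro l hl
        obtain ⟨n, hn, hnl⟩ := hS l hl
        simp only [hTdef, Finset.mem_filter, Finset.mem_Icc] at hn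
        have e1 : (ν : ℝ) + m * l = ((n : ℤ) : ℝ) := by
          rw [hnl]; push_cast; ring
        rw [e1]
        refine ⟨by simpa using hn.2.1, ?_⟩
        obtain ⟨p, hp⟩ := hn.2.2
        refine ⟨p, ?_⟩
        rw [hF, ev_map_intCast, hp]
        push_cast
        ring
      · exact hSd
  -- covering
  have hcover : A ⊆ (Finset.range (⌊(N : ℝ) ^ (1 - c / 2)⌋₊ + 1)) ∪ (Finset.Icc 1 M).biUnion T := by
    intro n hn
    obtain ⟨h1, h2, p, m, hpm, hmb⟩ := hA n hn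
    rw [Finset.mem_union]
    by_cases hbig : (N : ℝ) ^ (1 - c / 2) ≤ n
    · right
      have hpos : (0 : ℝ) < ((f.eval (n : ℤ) : ℤ) : ℝ) := by
        rw [← ev_map_intCast]
        have h3 := hlow (n : ℝ) (hNN2.trans hbig)
        have h4 : (0 : ℝ) < n := by exact_mod_cast h1
        have h5 : 0 < c1 * (n : ℝ) ^ F.natDegree := by positivity
        have h6 : ((n : ℤ) : ℝ) = (n : ℝ) := by push_cast; rfl
        rw [h6]
        linarith
      have hpos' : 0 < f.eval (n : ℤ) := by exact_mod_cast hpos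
      rw [hpm] at hpos'
      have hp0 : (0 : ℤ) ≤ (p : ℤ) ^ k := by positivity
      have hm0 : 0 < m := by
        by_contra hneg
        push Not at hneg
        have := mul_nonpos_of_nonneg_of_nonpos hp0 hneg
        linarith
      rw [Finset.mem_biUnion]
      refine ⟨m.toNat, ?_, ?_⟩
      · rw [Finset.mem_Icc]
        refine ⟨by omega, ?_⟩
        rw [hM]
        apply Nat.le_floor
        have : ((m.toNat : ℕ) : ℝ) = (m : ℝ) := by
          have : ((m.toNat : ℤ)) = m := Int.toNat_of_nonneg hm0.le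
          exact_mod_cast congrArg (Int.cast : ℤ → ℝ) this
        rw [this]
        exact (le_abs_self _).trans hmb
      · simp only [hTdef, Finset.mem_filter, Finset.mem_Icc]
        refine ⟨⟨h1, h2⟩, hbig, p, ?_⟩
        rw [Int.toNat_of_nonneg hm0.le]
        exact hpm
    · left
      push Not at hbig
      rw [Finset.mem_range]
      apply Nat.lt_succ_of_le
      exact Nat.le_floor hbig.le
  have hcard1 : (A.card : ℝ) ≤ ((N : ℝ) ^ (1 - c / 2) + 1) +
      ∑ m ∈ Finset.Icc 1 M, ((T m).card : ℝ) := by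
    have h1 := (Finset.card_le_card hcover).trans (Finset.card_union_le _ _)
    have h2 : ((Finset.Icc 1 M).biUnion T).card ≤ ∑ m ∈ Finset.Icc 1 M, (T m).card :=
      Finset.card_biUnion_le
    rw [Finset.card_range] at h1
    have h3 : (A.card : ℝ) ≤ ((⌊(N : ℝ) ^ (1 - c / 2)⌋₊ : ℝ) + 1) +
        ∑ m ∈ Finset.Icc 1 M, ((T m).card : ℝ) := by
      have := h1.trans (Nat.add_le_add_left h2 _)
      exact_mod_cast this
    have h4 : (⌊(N : ℝ) ^ (1 - c / 2)⌋₊ : ℝ) ≤ (N : ℝ) ^ (1 - c / 2) := Nat.floor_le (by positivity)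
    linarith
  have hsum : ∑ m ∈ Finset.Icc 1 M, ((T m).card : ℝ) ≤
      s * Cε * (2 + 1 / ε) * (N : ℝ) ^ (1 - δ0 / 2) := by
    have hterm : ∀ m ∈ Finset.Icc 1 M, ((T m).card : ℝ) ≤
        s * Cε * (N : ℝ) ^ ε * ((N : ℝ) ^ (1 - δ0) * (1 / m) + 1) := by
      intro m hm
      refine (hTcard m hm).trans ?_
      rw [Finset.mem_Icc] at hm
      have hm0 : (0 : ℝ) < m := by exact_mod_cast hm.1
      have hmN : (m : ℝ) ≤ N := by
        have h1 : (m : ℝ) ≤ M := by exact_mod_cast hm.2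
        have h2 : (N : ℝ) ^ (1 - c) ≤ (N : ℝ) ^ (1 : ℝ) :=
          Real.rpow_le_rpow_of_exponent_le hN1 (by linarith)
        rw [Real.rpow_one] at h2
        linarith
      have e1 : (polyRootCountMod f m : ℝ) ≤ Cε * (N : ℝ) ^ ε :=
        (hCε m hm.1).trans (mul_le_mul_of_nonneg_left
          (Real.rpow_le_rpow hm0.le hmN hε0.le) hCε0.le)
      have e2 : (N : ℝ) / (m * H) = (N : ℝ) ^ (1 - δ0) * (1 / m) := by
        rw [Real.rpow_sub hNp, Real.rpow_one, hH]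
        field_simp
      rw [e2]
      calc (s : ℝ) * ((polyRootCountMod f m : ℝ) * ((N : ℝ) ^ (1 - δ0) * (1 / m) + 1))
          ≤ (s : ℝ) * ((Cε * (N : ℝ) ^ ε) * ((N : ℝ) ^ (1 - δ0) * (1 / m) + 1)) := by
            gcongr
        _ = _ := by ring
    refine (Finset.sum_le_sum hterm).trans ?_
    rw [← Finset.mul_sum, Finset.sum_add_distrib, ← Finset.mul_sum]
    simp only [Finset.sum_const, Nat.card_Icc, Nat.add_sub_cancel, nsmul_eq_mul, mul_one]
    have hharm : ∑ m ∈ Finset.Icc 1 M, (1 : ℝ) / m ≤ (1 + 1 / ε) * (N : ℝ) ^ ε := by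
      have h1 : ∑ m ∈ Finset.Icc 1 M, (1 : ℝ) / m = ((harmonic M : ℚ) : ℝ) := by
        rw [harmonic_eq_sum_Icc]
        push_cast
        apply Finset.sum_congr rfl
        intro m _
        rw [one_div]
      rw [h1]
      have h2 := harmonic_le_one_add_log M
      rcases Nat.eq_zero_or_pos M with hM0 | hM0
      · rw [hM0]
        simp only [harmonic_zero, Rat.cast_zero]
        positivity
      · have hMR : (1 : ℝ) ≤ M := by exact_mod_cast hM0
        have hMN : (M : ℝ) ≤ N := by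
          have h3 : (N : ℝ) ^ (1 - c) ≤ (N : ℝ) ^ (1 : ℝ) :=
            Real.rpow_le_rpow_of_exponent_le hN1 (by linarith)
          rw [Real.rpow_one] at h3
          linarith
        have h3 : Real.log M ≤ Real.log N := Real.log_le_log (by linarith) hMN
        have h4 : Real.log N ≤ (N : ℝ) ^ ε / ε := Real.log_le_rpow_div hNp.le hε0
        have h5 : (1 : ℝ) ≤ (N : ℝ) ^ ε := Real.one_le_rpow hN1 hε0.le
        calc ((harmonic M : ℚ) : ℝ) ≤ 1 + Real.log M := h2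
          _ ≤ (N : ℝ) ^ ε + (N : ℝ) ^ ε / ε := by linarith
          _ = (1 + 1 / ε) * (N : ℝ) ^ ε := by ring
    have e3 : (N : ℝ) ^ ε * ((N : ℝ) ^ (1 - δ0) * ((1 + 1 / ε) * (N : ℝ) ^ ε)) =
        (1 + 1 / ε) * (N : ℝ) ^ (1 - δ0 / 2) := by
      have : (N : ℝ) ^ (1 - δ0 / 2) = (N : ℝ) ^ ε * ((N : ℝ) ^ (1 - δ0) * (N : ℝ) ^ ε) := by
        rw [← Real.rpow_add hNp, ← Real.rpow_add hNp]
        congr 1
        rw [hε]; ring
      rw [this]; ring
    have e4 : (N : ℝ) ^ ε * M ≤ (N : ℝ) ^ (1 - δ0 / 2) := by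
      calc (N : ℝ) ^ ε * M ≤ (N : ℝ) ^ ε * (N : ℝ) ^ (1 - c) := by gcongr
        _ = (N : ℝ) ^ (ε + (1 - c)) := by rw [← Real.rpow_add hNp]
        _ ≤ (N : ℝ) ^ (1 - δ0 / 2) := by
            apply Real.rpow_le_rpow_of_exponent_le hN1
            rw [hε]; linarith
    have e5 : (N : ℝ) ^ ε * ((N : ℝ) ^ (1 - δ0) * ∑ m ∈ Finset.Icc 1 M, (1 : ℝ) / m + M) ≤
        (2 + 1 / ε) * (N : ℝ) ^ (1 - δ0 / 2) := by
      have h1 : (N : ℝ) ^ ε * ((N : ℝ) ^ (1 - δ0) * ∑ m ∈ Finset.Icc 1 M, (1 : ℝ) / m) ≤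
          (N : ℝ) ^ ε * ((N : ℝ) ^ (1 - δ0) * ((1 + 1 / ε) * (N : ℝ) ^ ε)) := by gcongr
      rw [mul_add]
      calc _ ≤ (1 + 1 / ε) * (N : ℝ) ^ (1 - δ0 / 2) + (N : ℝ) ^ (1 - δ0 / 2) := by linarith
        _ = _ := by ring
    calc (s : ℝ) * Cε * (N : ℝ) ^ ε * ((N : ℝ) ^ (1 - δ0) * ∑ m ∈ Finset.Icc 1 M, (1 : ℝ) / m + M)
        = (s : ℝ) * Cε * ((N : ℝ) ^ ε * ((N : ℝ) ^ (1 - δ0) * ∑ m ∈ Finset.Icc 1 M, (1 : ℝ) / m + M)) := by
          ring
      _ ≤ (s : ℝ) * Cε * ((2 + 1 / ε) * (N : ℝ) ^ (1 - δ0 / 2)) := by gcongr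
      _ = _ := by ring
  have e6 : (N : ℝ) ^ (1 - c / 2) ≤ (N : ℝ) ^ (1 - δ0 / 2) := by
    apply Real.rpow_le_rpow_of_exponent_le hN1
    linarith
  have e7 : (0 : ℝ) ≤ N3 * (N : ℝ) ^ (1 - δ0 / 2) := by positivity
  calc (A.card : ℝ) ≤ ((N : ℝ) ^ (1 - c / 2) + 1) +
      ∑ m ∈ Finset.Icc 1 M, ((T m).card : ℝ) := hcard1
    _ ≤ 2 * (N : ℝ) ^ (1 - δ0 / 2) + s * Cε * (2 + 1 / ε) * (N : ℝ) ^ (1 - δ0 / 2) := by linarith
    _ ≤ _ := by linarith

/-- **Small cofactor range.**  For `f` irreducible of degree `≥ 1`, `k ≥ 2`, the number of `n ≤ N`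
with `f(n) = p ^ k * m`, `|m| ≤ N ^ (1 - c)` is `O(N ^ (1 - δ))`. -/
theorem small_cofactor (f : ℤ[X]) (hirr : Irreducible (f.map (Int.castRingHom ℚ)))
    (k : ℕ) (hk : 2 ≤ k) (c : ℝ) (hc : 0 < c) :
    ∃ (δ C : ℝ), 0 < δ ∧ δ ≤ 1 ∧ 0 < C ∧ ∀ (N : ℕ) (A : Finset ℕ),
      (∀ n ∈ A, 1 ≤ n ∧ n ≤ N ∧ ∃ (p : ℕ) (m : ℤ), f.eval (n : ℤ) = (p : ℤ) ^ k * m ∧
        |(m : ℝ)| ≤ (N : ℝ) ^ (1 - c)) → (A.card : ℝ) ≤ C * (N : ℝ) ^ (1 - δ) := by
  -- reduce to `c ≤ 1`
  wlog hc1 : c ≤ 1 generalizing c with H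
  · obtain ⟨δ, C, h1, h2, h3, h4⟩ := H 1 one_pos le_rfl
    refine ⟨δ, C, h1, h2, h3, fun N A hA => h4 N A (fun n hn => ?_)⟩
    obtain ⟨a1, a2, p, m, a3, a4⟩ := hA n hn
    refine ⟨a1, a2, p, m, a3, a4.trans ?_⟩
    apply Real.rpow_le_rpow_of_exponent_le
    · exact_mod_cast a1.trans a2
    · push Not at hc1; linarith
  have hf0 : f ≠ 0 := by
    rintro rfl
    simp at hirr
  rcases lt_or_gt_of_ne (Polynomial.leadingCoeff_ne_zero.mpr hf0) with hneg | hpos
  · have hirr' : Irreducible ((-f).map (Int.castRingHom ℚ)) := by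
      rw [Polynomial.map_neg]
      exact (Associated.irreducible_iff (Associated.neg_left (Associated.refl _))).mpr hirr
    obtain ⟨δ, C, h1, h2, h3, h4⟩ := small_cofactor_pos (-f) hirr' (by
      rw [Polynomial.leadingCoeff_neg]; linarith) k hk c hc hc1
    refine ⟨δ, C, h1, h2, h3, fun N A hA => h4 N A (fun n hn => ?_)⟩
    obtain ⟨a1, a2, p, m, a3, a4⟩ := hA n hn
    refine ⟨a1, a2, p, -m, ?_, ?_⟩
    · rw [Polynomial.eval_neg, a3]; ring
    · push_cast
      rw [abs_neg]; exact a4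
  · exact small_cofactor_pos f hirr hpos k hk c hc hc1

end Crest.Agent.R022.Small
end

-- ▼ part R022/Dyadic712
section

/-!
# R022: dyadic reduction

It suffices to bound, for `N ≤ P` and `P ^ k ≤ N ^ (d - 1 + η)`, the number of `n ≤ N` such that
`p ^ k ∣ f n` for some prime `P < p ≤ 2 P`, by `C * N ^ (1 - c)`.
-/

set_option autoImplicit false

open Crest.NumberTheoryR Filter Topology Polynomial

namespace Crest.Agent.R022.Dyadic712

open Crest.Agent.R022.SieveReduction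

open Classical in
/-- The number of `n ∈ [1, N]` with `p ^ k ∣ f n` for some prime `P < p ≤ 2 P`. -/
noncomputable def dyCount (f : ℤ[X]) (k N : ℕ) (P : ℝ) : ℕ :=
  ((Finset.Icc 1 N).filter fun n : ℕ =>
    ∃ p : ℕ, p.Prime ∧ P < p ∧ (p : ℝ) ≤ 2 * P ∧ (p : ℤ) ^ k ∣ f.eval (n : ℤ)).card

/-- Trivial upper bound for the values of a polynomial. -/
lemma abs_eval_le (f : ℤ[X]) : ∃ C : ℝ, 0 < C ∧ ∀ n N : ℕ, 1 ≤ N → n ≤ N →
    |((f.eval (n : ℤ) : ℤ) : ℝ)| ≤ C * (N : ℝ) ^ f.natDegree := by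
  refine ⟨∑ i ∈ Finset.range (f.natDegree + 1), |(f.coeff i : ℝ)| + 1, by positivity, ?_⟩
  intro n N hN hn
  have hN1 : (1 : ℝ) ≤ N := by exact_mod_cast hN
  have hnN : (n : ℝ) ≤ N := by exact_mod_cast hn
  rw [Polynomial.eval_eq_sum_range]
  push_cast
  calc |∑ i ∈ Finset.range (f.natDegree + 1), (f.coeff i : ℝ) * (n : ℝ) ^ i|
      ≤ ∑ i ∈ Finset.range (f.natDegree + 1), |(f.coeff i : ℝ) * (n : ℝ) ^ i| :=
        Finset.abs_sum_le_sum_abs _ _
    _ ≤ ∑ i ∈ Finset.range (f.natDegree + 1), |(f.coeff i : ℝ)| * (N : ℝ) ^ f.natDegree := by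
        apply Finset.sum_le_sum
        intro i hi
        rw [Finset.mem_range] at hi
        rw [abs_mul, abs_of_nonneg (by positivity : (0 : ℝ) ≤ (n : ℝ) ^ i)]
        gcongr
        calc (n : ℝ) ^ i ≤ (N : ℝ) ^ i := by gcongr
          _ ≤ (N : ℝ) ^ f.natDegree := pow_le_pow_right₀ hN1 (by omega)
    _ = (∑ i ∈ Finset.range (f.natDegree + 1), |(f.coeff i : ℝ)|) * (N : ℝ) ^ f.natDegree := by
        rw [Finset.sum_mul]
    _ ≤ _ := by
        rw [add_mul]
        have : (0 : ℝ) ≤ 1 * (N : ℝ) ^ f.natDegree := by positivity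
        linarith

/-- Dyadic location of a number `> N`. -/
lemma exists_dyadic (N p : ℕ) (hN : 1 ≤ N) (hp : N < p) :
    ∃ j : ℕ, N * 2 ^ j < p ∧ p ≤ N * 2 ^ (j + 1) := by
  classical
  have hex : ∃ j : ℕ, p ≤ N * 2 ^ (j + 1) := by
    refine ⟨p, ?_⟩
    have h1 : p < 2 ^ p := Nat.lt_two_pow_self
    have h2 : 2 ^ p ≤ 2 ^ (p + 1) := Nat.pow_le_pow_right (by norm_num) (by omega)
    nlinarith
  refine ⟨Nat.find hex, ?_, Nat.find_spec hex⟩
  rcases Nat.eq_zero_or_pos (Nat.find hex) with h0 | hpos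
  · rw [h0]; simpa using hp
  · have h1 := Nat.find_min hex (m := Nat.find hex - 1) (by omega)
    push Not at h1
    rwa [Nat.sub_add_cancel hpos] at h1

/-- The key covering: `n` counted by `bigCount` is in a dyadic set or has a small cofactor. -/
lemma bigCount_le (f : ℤ[X]) (hirr : Irreducible (f.map (Int.castRingHom ℚ)))
    (k : ℕ) (hk : 2 ≤ k) (η : ℝ) (hη : 0 < η) :
    ∃ (δ C : ℝ) (N₁ : ℕ), 0 < δ ∧ 0 < C ∧ ∀ N : ℕ, N₁ ≤ N → ∀ J : ℕ,
      (∀ j : ℕ, ((N : ℝ) * 2 ^ j) ^ k ≤ (N : ℝ) ^ ((f.natDegree : ℝ) - 1 + η) → j < J) →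
      (bigCount f k N : ℝ) ≤ (∑ j ∈ (Finset.range J).filter
        (fun j : ℕ => ((N : ℝ) * 2 ^ j) ^ k ≤ (N : ℝ) ^ ((f.natDegree : ℝ) - 1 + η)),
        (dyCount f k N ((N : ℝ) * 2 ^ j) : ℝ)) + C * (N : ℝ) ^ (1 - δ) := by
  classical
  obtain ⟨Cf, hCf, hbd⟩ := abs_eval_le f
  obtain ⟨δ, C, hδ, _, hC, hsmall⟩ := Small.small_cofactor f hirr k hk (η / 2) (by positivity)
  -- large `N`: `Cf ≤ N ^ (η / 2)`
  have hlim : Tendsto (fun N : ℕ => (N : ℝ) ^ (η / 2)) atTop atTop :=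
    (tendsto_rpow_atTop (by positivity)).comp tendsto_natCast_atTop_atTop
  obtain ⟨N₁, hN₁⟩ := eventually_atTop.mp ((hlim.eventually_ge_atTop Cf).and
    (eventually_ge_atTop 1))
  refine ⟨δ, C, N₁, hδ, hC, fun N hN J hJ => ?_⟩
  obtain ⟨hNC, hN1⟩ := hN₁ N hN
  have hN0 : (0 : ℝ) < N := by exact_mod_cast hN1
  set R := (Finset.range J).filter
        (fun j : ℕ => ((N : ℝ) * 2 ^ j) ^ k ≤ (N : ℝ) ^ ((f.natDegree : ℝ) - 1 + η)) with hR
  set big := (Finset.Icc 1 N).filter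
      (fun n : ℕ => ∃ p : ℕ, p.Prime ∧ N < p ∧ (p : ℤ) ^ k ∣ f.eval (n : ℤ)) with hbig
  set D : ℕ → Finset ℕ := fun j => (Finset.Icc 1 N).filter (fun n : ℕ =>
    ∃ p : ℕ, p.Prime ∧ (N : ℝ) * 2 ^ j < p ∧ (p : ℝ) ≤ 2 * ((N : ℝ) * 2 ^ j) ∧
      (p : ℤ) ^ k ∣ f.eval (n : ℤ)) with hDdef
  set Sm := (Finset.Icc 1 N).filter (fun n : ℕ => ∃ (p : ℕ) (m : ℤ),
    f.eval (n : ℤ) = (p : ℤ) ^ k * m ∧ |(m : ℝ)| ≤ (N : ℝ) ^ (1 - η / 2)) with hSm
  have hcov : big ⊆ R.biUnion D ∪ Sm := by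
    intro n hn
    rw [hbig, Finset.mem_filter] at hn
    obtain ⟨hnI, p, hp, hNp, hdvd⟩ := hn
    obtain ⟨j, hj1, hj2⟩ := exists_dyadic N p hN1 hNp
    have hj1' : (N : ℝ) * 2 ^ j < p := by exact_mod_cast hj1
    have hj2' : (p : ℝ) ≤ 2 * ((N : ℝ) * 2 ^ j) := by
      have : (p : ℝ) ≤ (N : ℝ) * 2 ^ (j + 1) := by exact_mod_cast hj2
      refine this.trans (le_of_eq ?_)
      ring
    rw [Finset.mem_union]
    by_cases hjR : ((N : ℝ) * 2 ^ j) ^ k ≤ (N : ℝ) ^ ((f.natDegree : ℝ) - 1 + η)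
    · left
      rw [Finset.mem_biUnion]
      refine ⟨j, ?_, ?_⟩
      · rw [hR, Finset.mem_filter, Finset.mem_range]
        exact ⟨hJ j hjR, hjR⟩
      · rw [hDdef, Finset.mem_filter]
        exact ⟨hnI, p, hp, hj1', hj2', hdvd⟩
    · right
      rw [hSm, Finset.mem_filter]
      refine ⟨hnI, p, ?_⟩
      obtain ⟨m, hm⟩ := hdvd
      refine ⟨m, hm, ?_⟩
      push Not at hjR
      have hn1 : n ≤ N := (Finset.mem_Icc.mp hnI).2
      have h1 := hbd n N hN1 hn1
      have h2 : |((f.eval (n : ℤ) : ℤ) : ℝ)| = (p : ℝ) ^ k * |(m : ℝ)| := by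
        rw [hm]; push_cast
        rw [abs_mul, abs_of_nonneg (by positivity : (0 : ℝ) ≤ (p : ℝ) ^ k)]
      rw [h2] at h1
      have hpk : (N : ℝ) ^ ((f.natDegree : ℝ) - 1 + η) ≤ (p : ℝ) ^ k := by
        refine hjR.le.trans ?_
        gcongr
      have h3 : (N : ℝ) ^ ((f.natDegree : ℝ) - 1 + η) * |(m : ℝ)| ≤
          (N : ℝ) ^ (η / 2) * (N : ℝ) ^ (f.natDegree : ℝ) := by
        calc (N : ℝ) ^ ((f.natDegree : ℝ) - 1 + η) * |(m : ℝ)|
            ≤ (p : ℝ) ^ k * |(m : ℝ)| := by gcongr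
          _ ≤ Cf * (N : ℝ) ^ f.natDegree := h1
          _ ≤ (N : ℝ) ^ (η / 2) * (N : ℝ) ^ (f.natDegree : ℝ) := by
              rw [Real.rpow_natCast]
              gcongr
      have h4 : (N : ℝ) ^ (η / 2) * (N : ℝ) ^ (f.natDegree : ℝ) =
          (N : ℝ) ^ ((f.natDegree : ℝ) - 1 + η) * (N : ℝ) ^ (1 - η / 2) := by
        rw [← Real.rpow_add hN0, ← Real.rpow_add hN0]
        congr 1; ring
      rw [h4] at h3
      exact le_of_mul_le_mul_left h3 (Real.rpow_pos_of_pos hN0 _)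
  have hcard : big.card ≤ ∑ j ∈ R, (D j).card + Sm.card :=
    (Finset.card_le_card hcov).trans ((Finset.card_union_le _ _).trans
      (Nat.add_le_add_right Finset.card_biUnion_le _))
  have hSmc : (Sm.card : ℝ) ≤ C * (N : ℝ) ^ (1 - δ) := by
    apply hsmall N Sm
    intro n hn
    rw [hSm, Finset.mem_filter, Finset.mem_Icc] at hn
    exact ⟨hn.1.1, hn.1.2, hn.2⟩
  have h1 : (bigCount f k N : ℝ) = big.card := by
    unfold bigCount
    congr
  have h2 : ∀ j, (dyCount f k N ((N : ℝ) * 2 ^ j) : ℝ) = (D j).card := by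
    intro j
    unfold dyCount
    congr
  rw [h1]
  simp only [h2]
  calc (big.card : ℝ) ≤ ((∑ j ∈ R, (D j).card + Sm.card : ℕ) : ℝ) := by exact_mod_cast hcard
    _ = ∑ j ∈ R, ((D j).card : ℝ) + Sm.card := by push_cast; ring
    _ ≤ _ := by linarith

/-- **Dyadic reduction.** -/
theorem reduction_dyadic (f : ℤ[X]) (k : ℕ) (hirr : Irreducible (f.map (Int.castRingHom ℚ)))
    (hk : 2 ≤ k) (hloc : ∀ p : ℕ, p.Prime → polyRootCountMod f (p ^ k) < p ^ k)
    (η : ℝ) (hη : 0 < η)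
    (hE : ∃ c : ℝ, 0 < c ∧ ∃ (C : ℝ) (N₀ : ℕ), ∀ N : ℕ, N₀ ≤ N → ∀ P : ℝ, (N : ℝ) ≤ P →
      P ^ k ≤ (N : ℝ) ^ ((f.natDegree : ℝ) - 1 + η) →
      (dyCount f k N P : ℝ) ≤ C * (N : ℝ) ^ (1 - c)) :
    ∃ c : ℝ, 0 < c ∧
      HasProd (fun p : Nat.Primes => 1 - (polyRootCountMod f ((p : ℕ) ^ k) : ℝ) / ((p : ℕ) : ℝ) ^ k) c ∧
      Tendsto (fun N : ℕ => (powerFreeValueCount f k N : ℝ) / (N : ℝ)) atTop (𝓝 c) := by
  classical
  apply reduction f k hirr hk hloc
  obtain ⟨c, hc, C, N₀, hE⟩ := hE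
  obtain ⟨δ, C', N₁, hδ, hC', hbig⟩ := bigCount_le f hirr k hk η hη
  set e : ℝ := (f.natDegree : ℝ) - 1 + η with he
  -- bound for the number of dyadic ranges
  have hJ : ∀ N : ℕ, 1 ≤ N → ∀ j : ℕ, ((N : ℝ) * 2 ^ j) ^ k ≤ (N : ℝ) ^ e →
      (j : ℝ) ≤ |e| * Real.log N / Real.log 2 := by
    intro N hN j hj
    have hN1 : (1 : ℝ) ≤ N := by exact_mod_cast hN
    have hN0 : (0 : ℝ) < N := by linarith
    have h1 : (2 : ℝ) ^ j ≤ ((N : ℝ) * 2 ^ j) ^ k := by
      have ha : (1 : ℝ) ≤ (N : ℝ) * 2 ^ j := by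
        have : (1 : ℝ) ≤ 2 ^ j := one_le_pow₀ (by norm_num)
        nlinarith
      calc (2 : ℝ) ^ j ≤ (N : ℝ) * 2 ^ j := by
            have : (0 : ℝ) < 2 ^ j := by positivity
            nlinarith
        _ = ((N : ℝ) * 2 ^ j) ^ 1 := by ring
        _ ≤ ((N : ℝ) * 2 ^ j) ^ k := pow_le_pow_right₀ ha (by omega)
    have h2 := h1.trans hj
    have h3 := Real.log_le_log (by positivity) h2
    rw [Real.log_pow, Real.log_rpow hN0] at h3
    have hlog2 : 0 < Real.log 2 := Real.log_pos (by norm_num)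
    rw [le_div_iff₀ hlog2]
    refine h3.trans ?_
    have hlogN : 0 ≤ Real.log N := Real.log_nonneg hN1
    exact mul_le_mul_of_nonneg_right (le_abs_self e) hlogN
  have hkey : ∀ᶠ N : ℕ in atTop, (bigCount f k N : ℝ) / N ≤
      (|e| * Real.log N / Real.log 2 + 1) * (|C| * (N : ℝ) ^ (-c)) + C' * (N : ℝ) ^ (-δ) := by
    filter_upwards [eventually_ge_atTop N₀, eventually_ge_atTop N₁, eventually_ge_atTop 1]
      with N hN0 hN1 hN
    have hNpos : (0 : ℝ) < N := by exact_mod_cast hN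
    have hN1' : (1 : ℝ) ≤ N := by exact_mod_cast hN
    have hlogN : 0 ≤ Real.log N := Real.log_nonneg hN1'
    have hlog2 : 0 < Real.log 2 := Real.log_pos (by norm_num)
    set J : ℕ := ⌊|e| * Real.log N / Real.log 2⌋₊ + 1 with hJdef
    have hJ' : ∀ j : ℕ, ((N : ℝ) * 2 ^ j) ^ k ≤ (N : ℝ) ^ e → j < J := by
      intro j hj
      have := hJ N hN j hj
      rw [hJdef, Nat.lt_succ_iff]
      exact Nat.le_floor this
    have h1 := hbig N hN1 J hJ'
    have h2 : (∑ j ∈ (Finset.range J).filter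
        (fun j : ℕ => ((N : ℝ) * 2 ^ j) ^ k ≤ (N : ℝ) ^ e),
        (dyCount f k N ((N : ℝ) * 2 ^ j) : ℝ)) ≤ J * (|C| * (N : ℝ) ^ (1 - c)) := by
      calc _ ≤ ∑ j ∈ (Finset.range J).filter
            (fun j : ℕ => ((N : ℝ) * 2 ^ j) ^ k ≤ (N : ℝ) ^ e), (|C| * (N : ℝ) ^ (1 - c)) := by
            apply Finset.sum_le_sum
            intro j hj
            rw [Finset.mem_filter] at hj
            refine (hE N hN0 _ ?_ hj.2).trans ?_
            · have : (1 : ℝ) ≤ 2 ^ j := one_le_pow₀ (by norm_num)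
              nlinarith
            · gcongr
              exact le_abs_self C
        _ = (((Finset.range J).filter
            (fun j : ℕ => ((N : ℝ) * 2 ^ j) ^ k ≤ (N : ℝ) ^ e)).card : ℝ) *
              (|C| * (N : ℝ) ^ (1 - c)) := by
            rw [Finset.sum_const, nsmul_eq_mul]
        _ ≤ _ := by
            gcongr
            exact (Finset.card_filter_le _ _).trans (by simp)
    have h3 : (J : ℝ) ≤ |e| * Real.log N / Real.log 2 + 1 := by
      rw [hJdef]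
      push_cast
      have := Nat.floor_le (show 0 ≤ |e| * Real.log N / Real.log 2 by positivity)
      linarith
    have e1 : (N : ℝ) ^ (1 - c) = N * (N : ℝ) ^ (-c) := by
      rw [sub_eq_add_neg, Real.rpow_add hNpos, Real.rpow_one]
    have e2 : (N : ℝ) ^ (1 - δ) = N * (N : ℝ) ^ (-δ) := by
      rw [sub_eq_add_neg, Real.rpow_add hNpos, Real.rpow_one]
    rw [div_le_iff₀ hNpos]
    calc (bigCount f k N : ℝ) ≤ J * (|C| * (N : ℝ) ^ (1 - c)) + C' * (N : ℝ) ^ (1 - δ) := by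
          linarith
      _ ≤ (|e| * Real.log N / Real.log 2 + 1) * (|C| * (N : ℝ) ^ (1 - c))
            + C' * (N : ℝ) ^ (1 - δ) := by gcongr
      _ = _ := by rw [e1, e2]; ring
  have hlim : Tendsto (fun N : ℕ => (|e| * Real.log N / Real.log 2 + 1) *
      (|C| * (N : ℝ) ^ (-c)) + C' * (N : ℝ) ^ (-δ)) atTop (𝓝 0) := by
    have l1 : Tendsto (fun x : ℝ => Real.log x * x ^ (-c)) atTop (𝓝 0) := by
      have := (isLittleO_log_rpow_atTop hc).tendsto_div_nhds_zero
      refine this.congr' ?_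
      filter_upwards [eventually_gt_atTop 0] with x hx
      rw [Real.rpow_neg hx.le, div_eq_mul_inv]
    have l2 : Tendsto (fun x : ℝ => x ^ (-c)) atTop (𝓝 0) := tendsto_rpow_neg_atTop hc
    have l3 : Tendsto (fun x : ℝ => x ^ (-δ)) atTop (𝓝 0) := tendsto_rpow_neg_atTop hδ
    have l4 : Tendsto (fun x : ℝ => (|e| / Real.log 2 * |C|) * (Real.log x * x ^ (-c)) +
        |C| * x ^ (-c) + C' * x ^ (-δ)) atTop (𝓝 0) := by
      have := ((l1.const_mul (|e| / Real.log 2 * |C|)).add (l2.const_mul |C|)).add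
        (l3.const_mul C')
      simpa using this
    refine (l4.comp tendsto_natCast_atTop_atTop).congr ?_
    intro N
    simp only [Function.comp]
    ring
  exact tendsto_of_tendsto_of_tendsto_of_le_of_le' tendsto_const_nhds hlim
    (Eventually.of_forall fun N => by positivity) hkey

end Crest.Agent.R022.Dyadic712
end

-- ▼ part R022/Outer250
section

/-! Row 22 (helper250): outer assembly. The statement S0029 follows from `SliceBoundAt`. -/

set_option autoImplicit false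

open Polynomial Filter Topology

namespace Crest.Agent.R022.Outer

open Crest.Agent.R022.Torsor Crest.Agent.R022.GenPosCount Crest.Agent.R022.Dyadic712

/-- tail of a vector -/
def tl {d : ℕ} (a : Fin d → ℤ) : Fin d → ℤ := fun i => if (i : ℕ) < 2 then 0 else a i

/-- head of a vector -/
def hd2 {d : ℕ} (h2 : 2 ≤ d) (a : Fin d → ℤ) : Fin 2 → ℤ :=
  fun i => a ⟨i, lt_of_lt_of_le i.2 h2⟩

theorem emb_tl {d : ℕ} (h2 : 2 ≤ d) (a : Fin d → ℤ) : emb 2 (tl a) (hd2 h2 a) = a := by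
  funext i
  unfold emb tl hd2
  split_ifs <;> rfl

/-- Counting the vectors slice by slice. -/
theorem count_vectors {F : ℤ[X]} (hF : F.Monic) (hirr : Irreducible F)
    (hd : 4 ≤ F.natDegree) (z : Fin F.natDegree → ℂ) (hinj : Function.Injective z)
    (hz : ∀ i, F.eval₂ (Int.castRingHom ℂ) (z i) = 0)
    (hprod : F.map (Int.castRingHom ℂ) = ∏ i, (X - C (z i)))
    (k : ℕ) (hk : k + 2 = F.natDegree) (Cc M : ℕ) (A ρ K : ℝ) (hA : 1 ≤ A)
    (hslice : ∀ a0 : Fin F.natDegree → ℤ,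
      (∀ i, |(a0 i : ℝ)| ≤ 2 * A) → GenPos z a0 →
      ∀ (T : Finset (Fin 2 → ℤ)) (m : (Fin 2 → ℤ) → ℤ) (b : (Fin 2 → ℤ) → Fin F.natDegree → ℤ),
      (∀ t ∈ T, IsSPt hF k Cc M A ρ a0 t (m t) (b t)) →
      (T.card : ℝ) ≤ K * A ^ (999 / 1000 * ρ)) (hK : 0 ≤ K) (hρ : 0 ≤ ρ)
    (V : Finset (Fin F.natDegree → ℤ)) (hV : ∀ a ∈ V, ∀ i, |(a i : ℝ)| ≤ 2 * A)
    (hpt : ∀ a ∈ V, ∃ (m : ℤ) (b : Fin F.natDegree → ℤ),
      IsSPt hF k Cc M A ρ (tl a) (hd2 (by omega) a) m b) :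
    (V.card : ℝ) ≤ 5 ^ k * (K + F.natDegree ^ 3) * A ^ ((k : ℝ) + 999 / 1000 * ρ) := by
  classical
  set B : ℕ := ⌊2 * A⌋₊ with hB
  have hA0 : 0 < A := by linarith
  have hBle : ∀ a ∈ V, ∀ i, |a i| ≤ (B : ℤ) := by
    intro a ha i
    have h1 := hV a ha i
    have h2 : ((|a i|.toNat : ℕ) : ℝ) ≤ 2 * A := by
      have : ((|a i|.toNat : ℕ) : ℝ) = |(a i : ℝ)| := by
        have h3 : ((|a i|.toNat : ℕ) : ℤ) = |a i| := Int.toNat_of_nonneg (abs_nonneg _)
        have h4 : (((|a i|.toNat : ℕ) : ℤ) : ℝ) = ((|a i| : ℤ) : ℝ) := by rw [h3]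
        push_cast at h4
        exact h4
      rw [this]; exact h1
    have h3 : |a i|.toNat ≤ B := Nat.le_floor h2
    have h4 : ((|a i|.toNat : ℕ) : ℤ) = |a i| := Int.toNat_of_nonneg (abs_nonneg _)
    omega
  have hB5 : ((2 * B + 1 : ℕ) : ℝ) ≤ 5 * A := by
    have h1 : (B : ℝ) ≤ 2 * A := Nat.floor_le (by positivity)
    push_cast
    linarith
  -- the tails
  set W := V.image tl with hW
  have hWle : ∀ w ∈ W, ∀ i, |w i| ≤ (B : ℤ) := by
    intro w hw i
    obtain ⟨a, ha, rfl⟩ := Finset.mem_image.mp hw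
    unfold tl
    split_ifs
    · simp
    · exact hBle a ha i
  have hW0 : ∀ w ∈ W, ∀ i : Fin F.natDegree, (i : ℕ) < 2 → w i = 0 := by
    intro w hw i hi
    obtain ⟨a, ha, rfl⟩ := Finset.mem_image.mp hw
    unfold tl
    rw [if_pos hi]
  have hWcard : W.card ≤ (2 * B + 1) ^ k := by
    set E : Finset (Fin F.natDegree) := {⟨0, by omega⟩, ⟨1, by omega⟩} with hE
    have hEcard : E.card = 2 := by
      rw [hE, Finset.card_insert_of_notMem, Finset.card_singleton]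
      simp only [Finset.mem_singleton, Fin.mk.injEq]; omega
    set R := (Finset.univ \ E) with hR
    have hRcard : R.card = k := by
      rw [hR, Finset.card_sdiff_of_subset (Finset.subset_univ _), hEcard, Finset.card_univ,
        Fintype.card_fin]
      omega
    have hbox : (Fintype.piFinset fun _ : R => Finset.Icc (-(B : ℤ)) B).card = (2 * B + 1) ^ k := by
      rw [Fintype.card_piFinset, Finset.prod_const, Finset.card_univ, Fintype.card_coe, hRcard,
        Int.card_Icc]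
      congr 1
      omega
    rw [← hbox]
    refine Finset.card_le_card_of_injOn (fun a => fun x : R => a x) ?_ ?_
    · intro a ha
      refine Fintype.mem_piFinset.mpr fun x => Finset.mem_Icc.mpr ?_
      exact abs_le.mp (hWle a ha x)
    · intro a ha a' ha' haa
      funext x
      by_cases hx : x ∈ R
      · exact congrFun haa ⟨x, hx⟩
      · rw [hR, Finset.mem_sdiff, not_and_not_right] at hx
        have := hx (Finset.mem_univ _)
        rw [hE] at this
        simp only [Finset.mem_insert, Finset.mem_singleton] at this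
        rcases this with h | h
        · rw [hW0 a ha x (by rw [h]; simp), hW0 a' ha' x (by rw [h]; simp)]
        · rw [hW0 a ha x (by rw [h]; simp), hW0 a' ha' x (by rw [h]; simp)]
  -- fibres
  have hfib : ∀ w ∈ W, ((V.filter fun a => tl a = w).card) ≤ (2 * B + 1) ^ 2 := by
    intro w hw
    have hbox : (Fintype.piFinset fun _ : Fin 2 => Finset.Icc (-(B : ℤ)) B).card = (2 * B + 1) ^ 2 := by
      rw [Fintype.card_piFinset, Finset.prod_const, Finset.card_univ, Fintype.card_fin,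
        Int.card_Icc]
      congr 1
      omega
    rw [← hbox]
    refine Finset.card_le_card_of_injOn (hd2 (by omega)) ?_ ?_
    · intro a ha
      have ha' := Finset.mem_filter.mp ha
      refine Fintype.mem_piFinset.mpr fun x => Finset.mem_Icc.mpr ?_
      exact abs_le.mp (hBle a ha'.1 _)
    · intro a ha a' ha' haa
      have h1 := Finset.mem_filter.mp ha
      have h1' := Finset.mem_filter.mp ha'
      rw [← emb_tl (by omega) a, ← emb_tl (by omega) a', h1.2, h1'.2, haa]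
  have hgood : ∀ w ∈ W, GenPos z w →
      (((V.filter fun a => tl a = w).card : ℕ) : ℝ) ≤ K * A ^ (999 / 1000 * ρ) := by
    intro w hw hgp
    have hcard : (V.filter fun a => tl a = w).card =
        ((V.filter fun a => tl a = w).image (hd2 (by omega))).card := by
      symm
      refine Finset.card_image_of_injOn ?_
      intro a ha a' ha' haa
      have h1 := Finset.mem_filter.mp ha
      have h1' := Finset.mem_filter.mp ha'
      rw [← emb_tl (by omega) a, ← emb_tl (by omega) a', h1.2, h1'.2, haa]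
    rw [hcard]
    have hex : ∀ t : Fin 2 → ℤ, ∃ (m : ℤ) (b : Fin F.natDegree → ℤ),
        t ∈ (V.filter fun a => tl a = w).image (hd2 (by omega)) → IsSPt hF k Cc M A ρ w t m b := by
      intro t
      by_cases ht : t ∈ (V.filter fun a => tl a = w).image (hd2 (by omega))
      · obtain ⟨a, ha, rfl⟩ := Finset.mem_image.mp ht
        have h1 := Finset.mem_filter.mp ha
        obtain ⟨m, b, h2⟩ := hpt a h1.1
        rw [h1.2] at h2
        exact ⟨m, b, fun _ => h2⟩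
      · exact ⟨0, 0, fun h => absurd h ht⟩
    choose m b hmb using hex
    refine hslice w ?_ hgp _ m b (fun t ht => hmb t ht)
    intro i
    obtain ⟨a, ha, rfl⟩ := Finset.mem_image.mp hw
    unfold tl
    split_ifs
    · simp; linarith
    · exact hV a ha i
  -- sum up
  have hsum : (V.card : ℝ) = ∑ w ∈ W, (((V.filter fun a => tl a = w).card : ℕ) : ℝ) := by
    rw [← Nat.cast_sum, ← Finset.card_eq_sum_card_image]
  have hbad : ((W.filter fun w => ¬ GenPos z w).card : ℝ) ≤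
      F.natDegree ^ 3 * (5 * A) ^ (F.natDegree - 4) := by
    have h1 := card_not_genPos hF hirr hd z hinj hz hprod B (W.filter fun w => ¬ GenPos z w)
      (fun a ha => hWle a (Finset.mem_filter.mp ha).1)
      (fun a ha => hW0 a (Finset.mem_filter.mp ha).1) (fun a ha => (Finset.mem_filter.mp ha).2)
    have h2 : ((W.filter fun w => ¬ GenPos z w).card : ℝ) ≤
        ((F.natDegree ^ 3 * (2 * B + 1) ^ (F.natDegree - 4) : ℕ) : ℝ) := by exact_mod_cast h1
    refine h2.trans ?_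
    rw [Nat.cast_mul, Nat.cast_pow, Nat.cast_pow]
    gcongr
  have hAk : 0 < A ^ k := by positivity
  have hAρ : 1 ≤ A ^ (999 / 1000 * ρ) := Real.one_le_rpow hA (by positivity)
  calc (V.card : ℝ) = ∑ w ∈ W, (((V.filter fun a => tl a = w).card : ℕ) : ℝ) := hsum
    _ = ∑ w ∈ W.filter (fun w => GenPos z w), (((V.filter fun a => tl a = w).card : ℕ) : ℝ) +
        ∑ w ∈ W.filter (fun w => ¬ GenPos z w), (((V.filter fun a => tl a = w).card : ℕ) : ℝ) :=
        (Finset.sum_filter_add_sum_filter_not _ _ _).symm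
    _ ≤ ∑ w ∈ W.filter (fun w => GenPos z w), K * A ^ (999 / 1000 * ρ) +
        ∑ w ∈ W.filter (fun w => ¬ GenPos z w), (5 * A) ^ 2 := by
        refine add_le_add (Finset.sum_le_sum fun w hw => ?_) (Finset.sum_le_sum fun w hw => ?_)
        · exact hgood w (Finset.mem_filter.mp hw).1 (Finset.mem_filter.mp hw).2
        · have h1 := hfib w (Finset.mem_filter.mp hw).1
          have h2 : (((V.filter fun a => tl a = w).card : ℕ) : ℝ) ≤ (((2 * B + 1) ^ 2 : ℕ) : ℝ) := by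
            exact_mod_cast h1
          refine h2.trans ?_
          rw [Nat.cast_pow]
          gcongr
    _ = (W.filter (fun w => GenPos z w)).card * (K * A ^ (999 / 1000 * ρ)) +
        (W.filter (fun w => ¬ GenPos z w)).card * (5 * A) ^ 2 := by
        rw [Finset.sum_const, Finset.sum_const, nsmul_eq_mul, nsmul_eq_mul]
    _ ≤ (5 * A) ^ k * (K * A ^ (999 / 1000 * ρ)) +
        (F.natDegree ^ 3 * (5 * A) ^ (F.natDegree - 4)) * (5 * A) ^ 2 := by
        refine add_le_add (mul_le_mul_of_nonneg_right ?_ (by positivity))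
          (mul_le_mul_of_nonneg_right hbad (by positivity))
        have h1 : (W.filter (fun w => GenPos z w)).card ≤ (2 * B + 1) ^ k :=
          (Finset.card_filter_le _ _).trans hWcard
        have h2 : ((W.filter (fun w => GenPos z w)).card : ℝ) ≤ (((2 * B + 1) ^ k : ℕ) : ℝ) := by
          exact_mod_cast h1
        refine h2.trans ?_
        rw [Nat.cast_pow]
        gcongr
    _ = 5 ^ k * (K * (A ^ k * A ^ (999 / 1000 * ρ)) + F.natDegree ^ 3 * A ^ k) := by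
        have h1 : (5 * A) ^ (F.natDegree - 4) * (5 * A) ^ 2 = (5 * A) ^ k := by
          rw [← pow_add]; congr 1; omega
        rw [mul_assoc ((F.natDegree : ℝ) ^ 3), h1, mul_pow]
        ring
    _ ≤ 5 ^ k * (K * (A ^ k * A ^ (999 / 1000 * ρ)) +
        F.natDegree ^ 3 * (A ^ k * A ^ (999 / 1000 * ρ))) := by
        gcongr
        nlinarith
    _ = 5 ^ k * (K + F.natDegree ^ 3) * A ^ ((k : ℝ) + 999 / 1000 * ρ) := by
        rw [Real.rpow_add hA0, Real.rpow_natCast]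
        ring

/-- The exponents. -/
theorem exists_grid (k : ℕ) (hk : 2 ≤ k) (ρ : ℝ) (hρ2 : ρ ≤ 2)
    (hρ : ((k : ℝ) + 2) * k ≤ (k + ρ) * ((k : ℝ) + 1 + 1 / 10000)) :
    ∃ j : ℕ, j < 20001 ∧ ρ ≤ min 2 ((k : ℝ) / (k + 1) + j / 10000) ∧
      (k : ℝ) + 999 / 1000 * min 2 ((k : ℝ) / (k + 1) + j / 10000) ≤
        (k + ρ) * (1 - 1 / (2000 * (k + 2))) := by
  have hk0 : (2 : ℝ) ≤ k := by exact_mod_cast hk
  set x : ℝ := (k : ℝ) / (k + 1) with hx
  have hx1 : x * (k + 1) = k := by rw [hx]; field_simp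
  have hx2 : x ≤ 1 := by rw [hx, div_le_one (by linarith)]; linarith
  have hx3 : 2 / 3 ≤ x := by rw [hx, le_div_iff₀ (by linarith)]; linarith
  -- `ρ ≥ x - 1/10000`
  have hρx : x - 1 / 10000 ≤ ρ := by
    -- `(k + x)(k+1) = k (k + 2)`
    have h1 : ((k : ℝ) + x) * (k + 1) = (k + 2) * k := by
      have : ((k : ℝ) + x) * (k + 1) = k * (k + 1) + x * (k + 1) := by ring
      rw [this, hx1]; ring
    have h2 : ((k : ℝ) + x) * (k + 1) ≤ (k + ρ) * ((k : ℝ) + 1 + 1 / 10000) := by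
      rw [h1]; exact hρ
    by_contra h3
    push Not at h3
    have h4 : (k + ρ) * ((k : ℝ) + 1 + 1 / 10000) ≤ (k + x - 1 / 10000) * ((k : ℝ) + 1 + 1 / 10000) := by
      apply mul_le_mul_of_nonneg_right _ (by linarith)
      linarith
    nlinarith
  set y : ℝ := (ρ - x) * 10000 with hy
  set j : ℕ := ⌈y⌉₊ with hj
  have hjy : y ≤ j := Nat.le_ceil y
  have hy2 : y ≤ 20000 := by
    rw [hy]
    have : ρ - x ≤ 2 := by linarith
    linarith
  have hj20 : j ≤ 20000 := by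
    rw [hj]
    exact Nat.ceil_le.mpr (by exact_mod_cast hy2)
  refine ⟨j, by omega, ?_, ?_⟩
  · refine le_min hρ2 ?_
    have : ρ - x ≤ j / 10000 := by
      rw [le_div_iff₀ (by norm_num)]
      exact hjy
    linarith
  · have hup : x + (j : ℝ) / 10000 ≤ ρ + 1 / 10000 := by
      rcases le_or_gt y 0 with h0 | h0
      · have hj0 : j = 0 := by rw [hj]; exact Nat.ceil_eq_zero.mpr h0
        rw [hj0]
        push_cast
        linarith
      · have h1 : (j : ℝ) < y + 1 := Nat.ceil_lt_add_one h0.le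
        have h2 : (j : ℝ) / 10000 < (y + 1) / 10000 := by
          apply div_lt_div_of_pos_right h1 (by norm_num)
        rw [hy] at h2
        linarith
    have h1 : min 2 (x + (j : ℝ) / 10000) ≤ ρ + 1 / 10000 := (min_le_right _ _).trans hup
    have h2 : (k + ρ) * (1 - 1 / (2000 * ((k : ℝ) + 2))) = k + ρ - (k + ρ) / (2000 * ((k : ℝ) + 2)) := by
      ring
    have h3 : (k + ρ) / (2000 * ((k : ℝ) + 2)) ≤ 1 / 2000 := by
      rw [div_le_div_iff₀ (by positivity) (by norm_num)]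
      nlinarith
    rw [h2]
    linarith

/-- **Outer assembly**: S0029 follows from the slice bound. -/
theorem outer (f : ℤ[X]) (k : ℕ) (hirr : Irreducible (f.map (Int.castRingHom ℚ)))
    (hdeg : 4 ≤ f.natDegree) (hk : k + 2 = f.natDegree)
    (hloc : ∀ p : ℕ, p.Prime → Crest.NumberTheoryR.polyRootCountMod f (p ^ k) < p ^ k)
    (hslice : ∀ (hF : (mon f).Monic) (z : Fin (mon f).natDegree → ℂ), Irreducible (mon f) →
      Function.Injective z → (∀ i, (mon f).eval₂ (Int.castRingHom ℂ) (z i) = 0) →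
      (mon f).map (Int.castRingHom ℂ) = ∏ i, (X - C (z i)) →
      ∀ ρ : ℝ, (k : ℝ) / (k + 1) ≤ ρ → ρ ≤ 2 → SliceBoundAt hF z k ρ) :
    ∃ c : ℝ, 0 < c ∧
      HasProd (fun p : Nat.Primes => 1 - (Crest.NumberTheoryR.polyRootCountMod f ((p : ℕ) ^ k) : ℝ) /
        ((p : ℕ) : ℝ) ^ k) c ∧
      Tendsto (fun N : ℕ => (Crest.NumberTheoryR.powerFreeValueCount f k N : ℝ) / (N : ℝ)) atTop (𝓝 c) := by
  classical
  have hk2 : 2 ≤ k := by omega
  have hf0 : f ≠ 0 := by
    rintro rfl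
    simp at hdeg
  have hF : (mon f).Monic := mon_monic hf0
  have hirrF : Irreducible (mon f) := mon_irreducible hirr
  have hdF : (mon f).natDegree = f.natDegree := mon_natDegree f
  obtain ⟨z, hinj, hz, hprod⟩ := exists_roots hF hirrF
  obtain ⟨C0, M, hC0, hM, htor⟩ := torsor hF hirrF (by omega) z hinj hz k (by omega)
  obtain ⟨C1, hfibre⟩ := card_le_mul_card_image f hirr
  set L : ℤ := f.leadingCoeff with hL
  set Cc : ℕ := C0 * (2 * L.natAbs + 1) with hCc
  have hCc0 : 0 < Cc := Nat.mul_pos hC0 (by omega)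
  have hC0Cc : C0 ≤ Cc := Nat.le_mul_of_pos_right _ (by omega)
  have hk0 : (2 : ℝ) ≤ k := by exact_mod_cast hk2
  -- the grid constants
  have hgrid : ∀ j : ℕ, ∃ K : ℝ, 0 < K ∧ ∀ A : ℝ, 1 ≤ A →
      ∀ a0 : Fin (mon f).natDegree → ℤ, (∀ i, |(a0 i : ℝ)| ≤ 2 * A) → GenPos z a0 →
      ∀ (T : Finset (Fin 2 → ℤ)) (m : (Fin 2 → ℤ) → ℤ) (b : (Fin 2 → ℤ) → Fin (mon f).natDegree → ℤ),
      (∀ t ∈ T, IsSPt hF k Cc M A (min 2 ((k : ℝ) / (k + 1) + j / 10000)) a0 t (m t) (b t)) →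
      (T.card : ℝ) ≤ K * A ^ (999 / 1000 * min 2 ((k : ℝ) / (k + 1) + j / 10000)) := by
    intro j
    have h1 : (k : ℝ) / (k + 1) ≤ min 2 ((k : ℝ) / (k + 1) + j / 10000) := by
      refine le_min ?_ ?_
      · rw [div_le_iff₀ (by linarith)]; linarith
      · have : (0 : ℝ) ≤ j / 10000 := by positivity
        linarith
    exact hslice hF z hirrF hinj hz hprod _ h1 (min_le_left _ _) Cc M hCc0 hM
  choose K hK0 hKs using hgrid
  obtain ⟨J, hJ⟩ : ∃ J : ℕ, J = 20001 := ⟨_, rfl⟩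
  set KK : ℝ := ∑ j ∈ Finset.range J, K j with hKK
  have hKle : ∀ j, j < J → K j ≤ KK := by
    intro j hj
    exact Finset.single_le_sum (f := K) (fun i _ => (hK0 i).le) (Finset.mem_range.mpr hj)
  have hKK0 : 0 ≤ KK := Finset.sum_nonneg fun i _ => (hK0 i).le
  refine Dyadic712.reduction_dyadic f k hirr hk2 hloc (1 / 10000) (by norm_num) ?_
  set c : ℝ := 1 / (2000 * ((k : ℝ) + 2)) with hc
  refine ⟨c, by positivity, f.natDegree * (5 ^ k * (KK + f.natDegree ^ 3)), Cc + C1 + 2, ?_⟩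
  intro N hN P hNP hPk
  have hN2 : (2 : ℝ) ≤ N := by
    have : 2 ≤ N := by omega
    exact_mod_cast this
  have hN0 : (0 : ℝ) < N := by linarith
  have hP0 : 0 < P := by linarith
  set d : ℕ := f.natDegree with hd
  have hd0 : (d : ℝ) = k + 2 := by rw [← hk]; push_cast; ring
  have hdne : d ≠ 0 := by omega
  set A : ℝ := P ^ ((d : ℝ)⁻¹) with hA
  have hA0 : 0 < A := Real.rpow_pos_of_pos hP0 _
  have hAd : A ^ d = P := Real.rpow_inv_natCast_pow hP0.le hdne
  have hA1 : 1 < A := by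
    by_contra h
    push Not at h
    have := pow_le_one₀ (n := d) hA0.le h
    rw [hAd] at this
    linarith
  set ρ : ℝ := Real.logb A N - k with hρ
  have hNA : (N : ℝ) = A ^ ((k : ℝ) + ρ) := by
    rw [hρ, add_sub_cancel, Real.rpow_logb hA0 hA1.ne' hN0]
  have hρ2 : ρ ≤ 2 := by
    have h1 : A ^ ((k : ℝ) + ρ) ≤ A ^ (d : ℝ) := by
      rw [← hNA, Real.rpow_natCast, hAd]; exact hNP
    have h2 := (Real.rpow_le_rpow_left_iff hA1).mp h1
    rw [hd0] at h2
    linarith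
  have hρk : ((k : ℝ) + 2) * k ≤ (k + ρ) * ((k : ℝ) + 1 + 1 / 10000) := by
    have h1 : A ^ (((d : ℝ)) * k) ≤ A ^ ((k + ρ) * ((d : ℝ) - 1 + 1 / 10000)) := by
      rw [Real.rpow_mul hA0.le, Real.rpow_natCast, Real.rpow_natCast, hAd, Real.rpow_mul hA0.le,
        ← hNA]
      exact hPk
    have h2 := (Real.rpow_le_rpow_left_iff hA1).mp h1
    rw [hd0] at h2
    have h3 : (k + ρ) * ((k : ℝ) + 2 - 1 + 1 / 10000) = (k + ρ) * ((k : ℝ) + 1 + 1 / 10000) := by ring
    linarith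
  obtain ⟨j, hj, hρj, hexp⟩ := exists_grid k hk2 ρ hρ2 hρk
  set ρ1 : ℝ := min 2 ((k : ℝ) / (k + 1) + j / 10000) with hρ1
  have hρ10 : 0 ≤ ρ1 := le_min (by norm_num) (by positivity)
  -- the points
  set s : Finset ℕ := (Finset.Icc 1 N).filter fun n : ℕ =>
    ∃ p : ℕ, p.Prime ∧ P < p ∧ (p : ℝ) ≤ 2 * P ∧ (p : ℤ) ^ k ∣ f.eval (n : ℤ) with hs
  have hdata : ∀ n : ℕ, ∃ (p : ℕ) (a b : Fin (mon f).natDegree → ℤ) (cc : ℤ), n ∈ s →
      p.Prime ∧ P < p ∧ (p : ℝ) ≤ 2 * P ∧ (p : ℤ) ^ k ∣ f.eval (n : ℤ) ∧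
      (∀ i, |(a i : ℝ)| ≤ 2 * A) ∧ cc ≠ 0 ∧ |cc| ≤ C0 ∧ nm hF (el (mon f) a) = p * cc ∧
      (M : AdjoinRoot (mon f)) * (((L * n : ℤ) : AdjoinRoot (mon f)) - AdjoinRoot.root (mon f)) =
        el (mon f) a ^ k * el (mon f) b ∧
      (∀ i, |(b i : ℝ)| ≤ C0 * (|((L * n : ℤ) : ℝ)| + 1) / A ^ k) := by
    intro n
    by_cases hn : n ∈ s
    · obtain ⟨hn1, p, hp, hPp, hp2, hdvd⟩ := Finset.mem_filter.mp hn
      have hC0p : C0 < p := by
        have h1 : (N : ℝ) < p := lt_of_le_of_lt hNP hPp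
        have h2 : N < p := by exact_mod_cast h1
        omega
      obtain ⟨a, b, cc, _, h1, _, h2, h3, h4, h5, _, _, _, h6⟩ := htor A hA1.le p hp hC0p
        (by rw [hdF, hAd]; exact hPp.le) (by rw [hdF, hAd]; exact hp2) (L * n)
        (mon_dvd f (by omega) n _ hdvd)
      exact ⟨p, a, b, cc, fun _ => ⟨hp, hPp, hp2, hdvd, h1, h2, h3, h4, h5, h6⟩⟩
    · exact ⟨0, 0, 0, 0, fun h => absurd h hn⟩
  choose p a b cc hdat using hdata
  have hsN : ∀ n ∈ s, 1 ≤ n ∧ n ≤ N := fun n hn => Finset.mem_Icc.mp (Finset.mem_filter.mp hn).1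
  have hNp : ∀ n ∈ s, N < p n := by
    intro n hn
    have h1 : (N : ℝ) < p n := lt_of_le_of_lt hNP (hdat n hn).2.1
    exact_mod_cast h1
  have hcard1 : s.card ≤ d * (s.image a).card := by
    refine hfibre N k C0 s a (fun v => nm hF (el (mon f) v)) p cc (by omega) ?_
    intro n hn
    obtain ⟨h1, h2, h3, h4, h5, h6, h7, h8, h9, h10⟩ := hdat n hn
    have h11 := hNp n hn
    refine ⟨(hsN n hn).1, (hsN n hn).2, h1, by omega, ?_, h11, h4, h8, h6, h7⟩
    have : C0 < p n := by omega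
    exact_mod_cast this
  -- the vectors
  have hcard2 : ((s.image a).card : ℝ) ≤
      5 ^ k * (KK + (mon f).natDegree ^ 3) * A ^ ((k : ℝ) + 999 / 1000 * ρ1) := by
    refine count_vectors hF hirrF (by omega) z hinj hz hprod k (by omega) Cc M A ρ1 KK hA1.le
      ?_ hKK0 hρ10 _ ?_ ?_
    · intro a0 ha0 hgp T m b hT
      refine (hKs j A hA1.le a0 ha0 hgp T m b hT).trans ?_
      exact mul_le_mul_of_nonneg_right (hKle j (by rw [hJ]; exact hj)) (Real.rpow_nonneg hA0.le _)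
    · intro v hv
      obtain ⟨n, hn, rfl⟩ := Finset.mem_image.mp hv
      exact (hdat n hn).2.2.2.2.1
    · intro v hv
      obtain ⟨n, hn, rfl⟩ := Finset.mem_image.mp hv
      obtain ⟨h1, h2, h3, h4, h5, h6, h7, h8, h9, h10⟩ := hdat n hn
      have hnN : (n : ℝ) ≤ N := by exact_mod_cast (hsN n hn).2
      have hLn : |((L * n : ℤ) : ℝ)| ≤ L.natAbs * N := by
        push_cast
        rw [abs_mul, Nat.abs_cast]
        have : |(L : ℝ)| = (L.natAbs : ℝ) := by
          rw [Nat.cast_natAbs]; push_cast; rfl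
        rw [this]
        gcongr
      have hNA1 : (N : ℝ) ≤ A ^ ((k : ℝ) + ρ1) := by
        rw [hNA]
        exact Real.rpow_le_rpow_of_exponent_le hA1.le (by linarith)
      have hNA1' : (1 : ℝ) ≤ A ^ ((k : ℝ) + ρ1) := by linarith
      have hNA1'' : A ^ ((k : ℝ) + ρ1) / A ^ k = A ^ ρ1 := by
        rw [Real.rpow_add hA0, Real.rpow_natCast]
        field_simp
      have hemb : emb 2 (tl (a n)) (hd2 (by omega) (a n)) = a n := emb_tl _ _
      have hLle : (L.natAbs : ℝ) ≤ Cc := by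
        have : L.natAbs ≤ Cc := by
          rw [hCc]
          calc L.natAbs = 1 * L.natAbs := (one_mul _).symm
            _ ≤ C0 * (2 * L.natAbs + 1) := Nat.mul_le_mul hC0 (by omega)
        exact_mod_cast this
      have hC0L : (C0 : ℝ) * (L.natAbs + 1) ≤ Cc := by
        have : C0 * (L.natAbs + 1) ≤ Cc := by
          rw [hCc]; exact Nat.mul_le_mul_left _ (by omega)
        exact_mod_cast this
      refine ⟨L * n, b n, ?_⟩
      refine { t_le := fun i => h5 _, m_le := ?_, b_le := ?_, eqn := ?_, norm := ?_ }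
      · refine hLn.trans ?_
        exact mul_le_mul hLle hNA1 hN0.le (by positivity)
      · intro l
        refine (h10 l).trans ?_
        calc (C0 : ℝ) * (|((L * n : ℤ) : ℝ)| + 1) / A ^ k
            ≤ C0 * (L.natAbs * A ^ ((k : ℝ) + ρ1) + A ^ ((k : ℝ) + ρ1)) / A ^ k := by
              gcongr
              exact hLn.trans (by gcongr)
          _ = C0 * (L.natAbs + 1) * (A ^ ((k : ℝ) + ρ1) / A ^ k) := by ring
          _ = C0 * (L.natAbs + 1) * A ^ ρ1 := by rw [hNA1'']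
          _ ≤ Cc * A ^ ρ1 := by gcongr
      · rw [hemb]; exact h9
      · refine ⟨p n, cc n, h1, ?_, ?_, ?_, ?_, h6, ?_, mon_dvd f (by omega) n _ h4⟩
        · have := hNp n hn
          omega
        · rw [hdF, hAd]; exact h2.le
        · rw [hdF, hAd]; exact h3
        · rw [hemb]; exact h8
        · have : (C0 : ℤ) ≤ Cc := by exact_mod_cast hC0Cc
          linarith
  have hdy : dyCount f k N P = s.card := by
    unfold dyCount
    rw [hs]
  rw [hdy]
  have hcard1' : (s.card : ℝ) ≤ d * ((s.image a).card : ℝ) := by exact_mod_cast hcard1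
  have hdFr : (((mon f).natDegree : ℕ) : ℝ) = d := by rw [hdF]
  have hcard2' : ((s.image a).card : ℝ) ≤
      5 ^ k * (KK + (d : ℝ) ^ 3) * A ^ ((k : ℝ) + 999 / 1000 * ρ1) := by
    rw [← hdFr]; exact hcard2
  calc (s.card : ℝ) ≤ d * ((s.image a).card : ℝ) := hcard1'
    _ ≤ d * (5 ^ k * (KK + (d : ℝ) ^ 3) * A ^ ((k : ℝ) + 999 / 1000 * ρ1)) := by gcongr
    _ ≤ d * (5 ^ k * (KK + (d : ℝ) ^ 3) * A ^ ((k + ρ) * (1 - c))) := by
        gcongr
        exact hA1.le
    _ = d * (5 ^ k * (KK + (d : ℝ) ^ 3)) * (N : ℝ) ^ (1 - c) := by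
        rw [hNA, ← Real.rpow_mul hA0.le]
        ring

end Crest.Agent.R022.Outer
end

-- ▼ part R022/NumSurf586
section

/-! Row 22 (helper586): numerical part of the surface step.

The family `{t₀^u t₁^v b^j : u + v + ρ j ≤ Y, j = 0 or not (e1 ≤ u and e2 ≤ v)}`, `e1 + e2 = D`, has
`≥ (1 + D/ρ) Y²/2 - O(Y)` elements, and if `κ² (1 + D/ρ) > 1` the sum of the weights is smaller
than `κ` times the gain of the `q`-adic determinant method in two local parameters. -/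

set_option autoImplicit false

open Finset

namespace Crest.Agent.R022.NumSurf

/-- number of lattice points of a triangle -/
theorem card_tri (q : ℕ) :
    (((range (q + 1)) ×ˢ (range (q + 1))).filter (fun x : ℕ × ℕ => x.1 + x.2 ≤ q)).card * 2 =
      (q + 1) * (q + 2) := by
  have h1 : (((range (q + 1)) ×ˢ (range (q + 1))).filter (fun x : ℕ × ℕ => x.1 + x.2 ≤ q)).card =
      ∑ u ∈ range (q + 1), (q + 1 - u) := by
    rw [Finset.card_filter, Finset.sum_product]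
    refine Finset.sum_congr rfl fun u hu => ?_
    have hu' := mem_range.mp hu
    rw [← Finset.card_filter]
    have : (range (q + 1)).filter (fun v => u + v ≤ q) = range (q + 1 - u) := by
      ext v
      simp only [Finset.mem_filter, Finset.mem_range]
      omega
    rw [this, Finset.card_range]
  rw [h1]
  have h2 : ∀ q : ℕ, (∑ u ∈ range (q + 1), (q + 1 - u)) * 2 = (q + 1) * (q + 2) := by
    intro q
    induction q with
    | zero => simp
    | succ q ih =>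
      have h3 : ∑ u ∈ range (q + 1 + 1), (q + 1 + 1 - u) =
          (∑ u ∈ range (q + 1), (q + 1 - u)) + (q + 2) := by
        rw [Finset.sum_range_succ' (fun u => q + 1 + 1 - u)]
        simp
      rw [h3, add_mul, ih]
      ring
  exact h2 q

/-- the slice of the family -/
def slc (e1 e2 j q : ℕ) : Finset (ℕ × ℕ) :=
  ((range (q + 1)) ×ˢ (range (q + 1))).filter
    (fun x => x.1 + x.2 ≤ q ∧ (j = 0 ∨ ¬ (e1 ≤ x.1 ∧ e2 ≤ x.2)))

theorem card_slc_zero (e1 e2 q : ℕ) : (q : ℝ) ^ 2 / 2 ≤ (slc e1 e2 0 q).card := by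
  have h1 : slc e1 e2 0 q = ((range (q + 1)) ×ˢ (range (q + 1))).filter
      (fun x : ℕ × ℕ => x.1 + x.2 ≤ q) := by
    unfold slc
    refine Finset.filter_congr fun x _ => ?_
    simp
  have h2 : ((slc e1 e2 0 q).card : ℝ) * 2 = (q + 1) * (q + 2) := by
    rw [h1]
    exact_mod_cast card_tri q
  nlinarith [(Nat.cast_nonneg q : (0 : ℝ) ≤ q)]

theorem card_slc (e1 e2 j q : ℕ) :
    ((e1 + e2 : ℕ) : ℝ) * q - ((e1 + e2 : ℕ) : ℝ) ^ 2 ≤ (slc e1 e2 j q).card := by
  set D := e1 + e2 with hD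
  rcases Nat.lt_or_ge q D with h | h
  · have h1 : ((D : ℕ) : ℝ) * q - (D : ℝ) ^ 2 ≤ 0 := by
      have h2 : (q : ℝ) ≤ D := by exact_mod_cast h.le
      have h3 : (0 : ℝ) ≤ D := Nat.cast_nonneg D
      nlinarith
    exact h1.trans (Nat.cast_nonneg _)
  · -- tri q ≤ card slc + tri (q - D)
    have h1 : (((range (q + 1)) ×ˢ (range (q + 1))).filter
        (fun x : ℕ × ℕ => x.1 + x.2 ≤ q)).card ≤ (slc e1 e2 j q).card +
        (((range (q - D + 1)) ×ˢ (range (q - D + 1))).filter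
          (fun x : ℕ × ℕ => x.1 + x.2 ≤ q - D)).card := by
      have h2 : ((range (q + 1)) ×ˢ (range (q + 1))).filter (fun x : ℕ × ℕ => x.1 + x.2 ≤ q) ⊆
          (slc e1 e2 j q) ∪ ((((range (q - D + 1)) ×ˢ (range (q - D + 1))).filter
          (fun x : ℕ × ℕ => x.1 + x.2 ≤ q - D)).image (fun x => (x.1 + e1, x.2 + e2))) := by
        intro x hx
        rw [Finset.mem_filter, Finset.mem_product, mem_range, mem_range] at hx
        rw [Finset.mem_union]
        by_cases hc : e1 ≤ x.1 ∧ e2 ≤ x.2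
        · right
          rw [Finset.mem_image]
          refine ⟨(x.1 - e1, x.2 - e2), ?_, ?_⟩
          · rw [Finset.mem_filter, Finset.mem_product, mem_range, mem_range]
            simp only
            omega
          · ext <;> simp only <;> omega
        · left
          unfold slc
          rw [Finset.mem_filter, Finset.mem_product, mem_range, mem_range]
          exact ⟨hx.1, hx.2, Or.inr hc⟩
      exact (Finset.card_le_card h2).trans ((Finset.card_union_le _ _).trans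
        (Nat.add_le_add_left Finset.card_image_le _))
    have h3 := card_tri q
    have h4 := card_tri (q - D)
    set a := (((range (q + 1)) ×ˢ (range (q + 1))).filter
        (fun x : ℕ × ℕ => x.1 + x.2 ≤ q)).card
    set b := (((range (q - D + 1)) ×ˢ (range (q - D + 1))).filter
          (fun x : ℕ × ℕ => x.1 + x.2 ≤ q - D)).card
    obtain ⟨r, rfl⟩ : ∃ r, q = D + r := ⟨q - D, by omega⟩
    have h5 : D + r - D = r := by omega
    rw [h5] at h4
    have h1' : (a : ℝ) ≤ (slc e1 e2 j (D + r)).card + (b : ℝ) := by exact_mod_cast h1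
    have h3' : (a : ℝ) * 2 = ((D : ℝ) + r + 1) * (D + r + 2) := by exact_mod_cast h3
    have h4' : (b : ℝ) * 2 = ((r : ℝ) + 1) * (r + 2) := by exact_mod_cast h4
    push_cast
    nlinarith [(Nat.cast_nonneg r : (0 : ℝ) ≤ r), (Nat.cast_nonneg D : (0 : ℝ) ≤ D)]

/-- weight of the monomial `t₀^u t₁^v b^j`, `x = (j, u, v)` -/
noncomputable def wt (ρ : ℝ) (x : ℕ × ℕ × ℕ) : ℝ := (x.2.1 : ℝ) + x.2.2 + ρ * x.1

/-- the family of monomials -/
noncomputable def fam (ρ : ℝ) (e1 e2 Y : ℕ) : Finset (ℕ × ℕ × ℕ) :=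
  ((range (⌊(Y : ℝ) / ρ⌋₊ + 1)) ×ˢ ((range (Y + 1)) ×ˢ (range (Y + 1)))).filter
    (fun x => wt ρ x ≤ Y ∧ (x.1 = 0 ∨ ¬ (e1 ≤ x.2.1 ∧ e2 ≤ x.2.2)))

theorem mem_fam {ρ : ℝ} {e1 e2 Y : ℕ} {x : ℕ × ℕ × ℕ} (hx : x ∈ fam ρ e1 e2 Y) :
    x.1 ≤ ⌊(Y : ℝ) / ρ⌋₊ ∧ x.2.1 ≤ Y ∧ x.2.2 ≤ Y ∧ wt ρ x ≤ Y ∧
      (x.1 = 0 ∨ ¬ (e1 ≤ x.2.1 ∧ e2 ≤ x.2.2)) := by
  unfold fam at hx
  rw [Finset.mem_filter, Finset.mem_product, Finset.mem_product, mem_range, mem_range,
    mem_range] at hx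
  refine ⟨by omega, by omega, by omega, hx.2.1, hx.2.2⟩

/-- lower bound for the number of elements of weight `≤ y` -/
theorem card_fam_ge_sum (ρ : ℝ) (hρ : 0 < ρ) (e1 e2 Y y : ℕ) (hy : y ≤ Y) :
    ∑ j ∈ range (⌊(y : ℝ) / ρ⌋₊ + 1), (slc e1 e2 j ⌊(y : ℝ) - ρ * j⌋₊).card ≤
      ((fam ρ e1 e2 Y).filter (fun x => wt ρ x ≤ y)).card := by
  classical
  rw [← Finset.card_sigma]
  refine Finset.card_le_card_of_injOn (fun x => (x.1, x.2.1, x.2.2)) ?_ ?_
  · intro x hx
    have hx' := Finset.mem_sigma.mp (Finset.mem_coe.mp hx)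
    obtain ⟨h1, h2⟩ := hx'
    rw [mem_range] at h1
    unfold slc at h2
    rw [Finset.mem_filter, Finset.mem_product, mem_range, mem_range] at h2
    obtain ⟨⟨h3, h4⟩, h5, h6⟩ := h2
    have hj : (x.1 : ℝ) ≤ (y : ℝ) / ρ := by
      have : x.1 ≤ ⌊(y : ℝ) / ρ⌋₊ := by omega
      exact (Nat.le_floor_iff (by positivity)).mp this
    have hj' : ρ * x.1 ≤ y := by
      rw [le_div_iff₀ hρ] at hj
      linarith
    have h7 : ((x.2.1 + x.2.2 : ℕ) : ℝ) ≤ (y : ℝ) - ρ * x.1 :=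
      (Nat.le_floor_iff (by linarith)).mp h5
    have hw : wt ρ (x.1, x.2.1, x.2.2) ≤ y := by
      unfold wt
      push_cast at h7
      simp only
      linarith
    have hyY : (y : ℝ) ≤ Y := by exact_mod_cast hy
    have hρj : 0 ≤ ρ * x.1 := by positivity
    have h8 : x.2.1 + x.2.2 ≤ y := by
      have : ((x.2.1 + x.2.2 : ℕ) : ℝ) ≤ (y : ℝ) := by linarith
      exact_mod_cast this
    rw [Finset.mem_coe, Finset.mem_filter]
    refine ⟨?_, hw⟩
    unfold fam
    rw [Finset.mem_filter, Finset.mem_product, Finset.mem_product, mem_range, mem_range,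
      mem_range]
    refine ⟨⟨?_, ?_, ?_⟩, hw.trans hyY, h6⟩
    · have : x.1 ≤ ⌊(Y : ℝ) / ρ⌋₊ := by
        rw [Nat.le_floor_iff (by positivity), le_div_iff₀ hρ]
        linarith
      simp only
      omega
    · simp only
      omega
    · simp only
      omega
  · rintro ⟨a, b, c⟩ _ ⟨a', b', c'⟩ _ h
    simp only [Prod.mk.injEq] at h
    obtain ⟨rfl, rfl, rfl⟩ := h
    rfl

/-- quadratic lower bound for the number of elements of weight `≤ y` -/
theorem card_fam_ge (ρ : ℝ) (hρ : 0 < ρ) (e1 e2 D : ℕ) (hD : e1 + e2 = D) (Y y : ℕ)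
    (hy : y ≤ Y) :
    (1 + D / ρ) / 2 * (y : ℝ) ^ 2 - (D * ρ + D + (D + D ^ 2) / ρ) * (y + 1) ≤
      ((fam ρ e1 e2 Y).filter (fun x => wt ρ x ≤ y)).card := by
  refine le_trans ?_ (Nat.cast_le.mpr (card_fam_ge_sum ρ hρ e1 e2 Y y hy))
  push_cast
  set J := ⌊(y : ℝ) / ρ⌋₊ with hJ
  have hJ1 : (J : ℝ) * ρ ≤ y := by
    rw [← le_div_iff₀ hρ]
    exact Nat.floor_le (by positivity)
  have hJ2 : (y : ℝ) < (J + 1) * ρ := by
    rw [← div_lt_iff₀ hρ]
    exact Nat.lt_floor_add_one _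
  have hD0 : (0 : ℝ) ≤ D := Nat.cast_nonneg D
  have hy0 : (0 : ℝ) ≤ y := Nat.cast_nonneg y
  have hJ0 : (0 : ℝ) ≤ J := Nat.cast_nonneg J
  rw [Finset.sum_range_succ']
  have h0 : (y : ℝ) ^ 2 / 2 ≤ ((slc e1 e2 0 ⌊(y : ℝ) - ρ * (0 : ℕ)⌋₊).card : ℝ) := by
    have h := card_slc_zero e1 e2 y
    have h1 : ⌊(y : ℝ) - ρ * (0 : ℕ)⌋₊ = y := by simp
    rw [h1]
    exact h
  have h1 : ∑ j ∈ range J, ((D : ℝ) * ((y : ℝ) - ρ * ((j : ℝ) + 1) - 1) - (D : ℝ) ^ 2) ≤
      ∑ j ∈ range J, ((slc e1 e2 (j + 1) ⌊(y : ℝ) - ρ * ((j + 1 : ℕ) : ℝ)⌋₊).card : ℝ) := by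
    refine Finset.sum_le_sum fun j hj => ?_
    have h := card_slc e1 e2 (j + 1) ⌊(y : ℝ) - ρ * ((j + 1 : ℕ) : ℝ)⌋₊
    rw [hD] at h
    have h2 := Nat.lt_floor_add_one ((y : ℝ) - ρ * ((j + 1 : ℕ) : ℝ))
    push_cast at h2 h ⊢
    nlinarith
  have h2 : ∑ j ∈ range J, ((D : ℝ) * ((y : ℝ) - ρ * ((j : ℝ) + 1) - 1) - (D : ℝ) ^ 2) =
      J * (D * (y - 1) - D ^ 2) - D * ρ * (J * (J + 1) / 2) := by
    have h3 : ∀ J : ℕ, ∑ j ∈ range J, ((D : ℝ) * ((y : ℝ) - ρ * ((j : ℝ) + 1) - 1) - (D : ℝ) ^ 2) =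
      J * (D * (y - 1) - D ^ 2) - D * ρ * (J * (J + 1) / 2) := by
      intro J
      induction J with
      | zero => simp
      | succ J ih =>
        rw [Finset.sum_range_succ, ih]
        push_cast
        ring
    exact h3 J
  rw [h2] at h1
  refine le_trans ?_ (add_le_add h1 h0)
  -- the inequality of real numbers
  have h4 : (J : ℝ) ≤ y / ρ := by
    rw [le_div_iff₀ hρ]
    exact hJ1
  -- f(J) = y J - ρ J^2/2 ≥ y^2/(2ρ) - ρ/2
  have h5 : (y : ℝ) ^ 2 / (2 * ρ) - ρ / 2 ≤ y * J - ρ * J ^ 2 / 2 := by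
    have h6 : (y : ℝ) * J - ρ * J ^ 2 / 2 - (y ^ 2 / (2 * ρ) - ρ / 2) =
        (ρ ^ 2 - (y - ρ * J) ^ 2) / (2 * ρ) := by
      field_simp
      ring
    have h7 : 0 ≤ (ρ ^ 2 - ((y : ℝ) - ρ * J) ^ 2) / (2 * ρ) := by
      apply div_nonneg _ (by positivity)
      have : 0 ≤ (y : ℝ) - ρ * J := by linarith
      have : (y : ℝ) - ρ * J ≤ ρ := by linarith
      nlinarith
    linarith
  have h8 : (D : ℝ) * (y ^ 2 / (2 * ρ) - ρ / 2) ≤ D * (y * J - ρ * J ^ 2 / 2) :=
    mul_le_mul_of_nonneg_left h5 hD0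
  have h9 : (1 + D / ρ) / 2 * (y : ℝ) ^ 2 = y ^ 2 / 2 + D * (y ^ 2 / (2 * ρ)) := by
    field_simp
  have h10 : (D : ℝ) * ρ * J / 2 ≤ D * y / 2 := by
    have := mul_le_mul_of_nonneg_left hJ1 hD0
    nlinarith
  have h11 : ((D : ℝ) + D ^ 2) * J ≤ (D + D ^ 2) / ρ * y := by
    have : ((D : ℝ) + D ^ 2) * J ≤ (D + D ^ 2) * (y / ρ) :=
      mul_le_mul_of_nonneg_left h4 (by positivity)
    calc ((D : ℝ) + D ^ 2) * J ≤ (D + D ^ 2) * (y / ρ) := this
      _ = (D + D ^ 2) / ρ * y := by ring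
  have h12 : 0 ≤ ((D : ℝ) + D ^ 2) / ρ := by positivity
  have h13 : 0 ≤ (D : ℝ) * ρ * y := by positivity
  have h14 : 0 ≤ (D : ℝ) * y := by positivity
  have h15 : 0 ≤ (D : ℝ) * ρ := by positivity
  rw [h9]
  nlinarith

/-- layer-cake bound for the sum of the weights -/
theorem sum_wt_le {Ω : Type*} (T : Finset Ω) (w : Ω → ℝ) (Y : ℕ) (hY : ∀ x ∈ T, w x ≤ Y) :
    ∑ x ∈ T, w x ≤ (Y : ℝ) * T.card - ∑ y ∈ range Y, ((T.filter (fun x => w x ≤ y)).card : ℝ) := by
  classical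
  have h1 : ∑ y ∈ range Y, ((T.filter (fun x => w x ≤ y)).card : ℝ) =
      ∑ x ∈ T, (((range Y).filter (fun y : ℕ => w x ≤ y)).card : ℝ) := by
    have h2 : ∀ y ∈ range Y, ((T.filter (fun x => w x ≤ y)).card : ℝ) =
        ∑ x ∈ T, (if w x ≤ (y : ℝ) then (1 : ℝ) else 0) := by
      intro y _
      rw [Finset.card_filter]
      push_cast
      rfl
    rw [Finset.sum_congr rfl h2, Finset.sum_comm]
    refine Finset.sum_congr rfl fun x _ => ?_
    rw [Finset.card_filter]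
    push_cast
    rfl
  rw [h1]
  have h3 : ∀ x ∈ T, w x ≤ (Y : ℝ) - (((range Y).filter (fun y : ℕ => w x ≤ y)).card : ℝ) := by
    intro x hx
    have h4 : ((range Y).filter (fun y : ℕ => w x ≤ y)).card ≤ Y - ⌈w x⌉₊ := by
      have h5 : (range Y).filter (fun y : ℕ => w x ≤ y) ⊆ Finset.Ico ⌈w x⌉₊ Y := by
        intro y hy
        rw [Finset.mem_filter, mem_range] at hy
        rw [Finset.mem_Ico]
        exact ⟨Nat.ceil_le.mpr hy.2, hy.1⟩
      have := Finset.card_le_card h5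
      rwa [Nat.card_Ico] at this
    have h6 : ⌈w x⌉₊ ≤ Y := Nat.ceil_le.mpr (hY x hx)
    have h7 : (((range Y).filter (fun y : ℕ => w x ≤ y)).card : ℝ) ≤ (Y : ℝ) - ⌈w x⌉₊ := by
      rw [← Nat.cast_sub h6]
      exact_mod_cast h4
    have h8 := Nat.le_ceil (w x)
    linarith
  calc ∑ x ∈ T, w x ≤ ∑ x ∈ T, ((Y : ℝ) - (((range Y).filter (fun y : ℕ => w x ≤ y)).card : ℝ)) :=
        Finset.sum_le_sum h3
    _ = (Y : ℝ) * T.card - ∑ x ∈ T, (((range Y).filter (fun y : ℕ => w x ≤ y)).card : ℝ) := by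
        rw [Finset.sum_sub_distrib, Finset.sum_const, nsmul_eq_mul, mul_comm]

theorem poly_ineq (x κ c C Y s : ℝ) (hx : 0 < x) (hκ : 0 < κ) (hc : c = x ^ 2 / 2)
    (hC : 0 ≤ C) (hY1 : 1 ≤ Y) (hδ0 : 0 < κ * x - 1) (hY2 : κ ≤ (κ * x - 1) * Y)
    (hY3 : κ * c + 2 * C * (κ * x - 1) + κ * (3 * x ^ 2 + 2 * x) / 6 + c / 2 + C + 1 ≤
      2 / 3 * c * (κ * x - 1) * Y)
    (hs1 : c * Y ^ 2 - C * (Y + 1) ≤ s) :
    ((Y : ℝ) * s - (c * ((2 * (Y : ℝ) ^ 3 - 3 * Y ^ 2 + Y) / 6) - C * (Y * (Y + 1) / 2))) + 1 ≤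
      κ * ((x * Y - 1) * s - (x * Y) * (x * Y + 1) * (x * Y + 2) / 6) := by
  obtain ⟨δ, hδ⟩ : ∃ δ, δ = κ * x - 1 := ⟨_, rfl⟩
  obtain ⟨E, hE⟩ : ∃ E, E = κ * c + 2 * C * δ + κ * (3 * x ^ 2 + 2 * x) / 6 + c / 2 + C :=
    ⟨_, rfl⟩
  rw [← hδ] at hδ0 hY2 hY3
  rw [← hE] at hY3
  have hY0 : (0 : ℝ) < Y := by linarith
  have hcpos : 0 < c := by rw [hc]; positivity
  have h3 : (c * (Y : ℝ) ^ 2 - C * (Y + 1)) * (δ * Y - κ) ≤ s * (δ * Y - κ) :=
    mul_le_mul_of_nonneg_right hs1 (by linarith)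
  have h4 : (E + 1) * (Y : ℝ) ^ 2 ≤ 2 / 3 * c * δ * Y * Y ^ 2 :=
    mul_le_mul_of_nonneg_right hY3 (by positivity)
  have h5 : (1 : ℝ) ≤ (Y : ℝ) ^ 2 := one_le_pow₀ hY1
  have h6 : κ * ((x * Y - 1) * s - (x * Y) * (x * Y + 1) * (x * Y + 2) / 6) -
      ((Y : ℝ) * s - (c * ((2 * (Y : ℝ) ^ 3 - 3 * Y ^ 2 + Y) / 6) - C * (Y * (Y + 1) / 2))) =
      s * (δ * Y - κ) + c * ((2 * (Y : ℝ) ^ 3 - 3 * Y ^ 2 + Y) / 6) - C * (Y * (Y + 1) / 2)
        - κ * (x ^ 3 * Y ^ 3 + 3 * x ^ 2 * Y ^ 2 + 2 * x * Y) / 6 := by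
    rw [hδ]; ring
  have h8 : (c * (Y : ℝ) ^ 2 - C * (Y + 1)) * (δ * Y - κ) +
      c * ((2 * (Y : ℝ) ^ 3 - 3 * Y ^ 2 + Y) / 6) - C * (Y * (Y + 1) / 2)
        - κ * (x ^ 3 * Y ^ 3 + 3 * x ^ 2 * Y ^ 2 + 2 * x * Y) / 6 =
      2 / 3 * c * δ * Y * Y ^ 2 - (κ * c * Y ^ 2 + C * (Y + 1) * (δ * Y) - C * (Y + 1) * κ
        + c * Y ^ 2 / 2 - c * Y / 6 + C * (Y * (Y + 1) / 2) +
          κ * (3 * x ^ 2 * Y ^ 2 + 2 * x * Y) / 6) := by
    rw [hδ, hc]; ring
  have hYY : (Y : ℝ) ≤ Y ^ 2 := by nlinarith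
  have a1 : C * ((Y : ℝ) + 1) * (δ * Y) ≤ 2 * C * δ * Y ^ 2 := by
    have h : C * δ * Y * (Y + 1) ≤ C * δ * Y * (2 * Y) :=
      mul_le_mul_of_nonneg_left (by linarith) (by positivity)
    calc C * ((Y : ℝ) + 1) * (δ * Y) = C * δ * Y * (Y + 1) := by ring
      _ ≤ C * δ * Y * (2 * Y) := h
      _ = 2 * C * δ * Y ^ 2 := by ring
  have a2 : 0 ≤ C * ((Y : ℝ) + 1) * κ := by positivity
  have a3 : 0 ≤ c * (Y : ℝ) / 6 := by positivity
  have a4 : C * ((Y : ℝ) * (Y + 1) / 2) ≤ C * Y ^ 2 :=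
    mul_le_mul_of_nonneg_left (by nlinarith) hC
  have a5 : κ * (3 * x ^ 2 * (Y : ℝ) ^ 2 + 2 * x * Y) / 6 ≤
      κ * (3 * x ^ 2 + 2 * x) / 6 * Y ^ 2 := by
    have h : κ * (2 * x) * (Y : ℝ) ≤ κ * (2 * x) * Y ^ 2 :=
      mul_le_mul_of_nonneg_left hYY (by positivity)
    have e1 : κ * (3 * x ^ 2 * (Y : ℝ) ^ 2 + 2 * x * Y) / 6 =
      (κ * (3 * x ^ 2) * Y ^ 2 + κ * (2 * x) * Y) / 6 := by ring
    have e2 : κ * (3 * x ^ 2 + 2 * x) / 6 * Y ^ 2 =
      (κ * (3 * x ^ 2) * Y ^ 2 + κ * (2 * x) * Y ^ 2) / 6 := by ring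
    rw [e1, e2]
    linarith
  have a6 : E * (Y : ℝ) ^ 2 = κ * c * Y ^ 2 + 2 * C * δ * Y ^ 2 +
      κ * (3 * x ^ 2 + 2 * x) / 6 * Y ^ 2 + c / 2 * Y ^ 2 + C * Y ^ 2 := by
    rw [hE]; ring
  have a7 : (E + 1) * (Y : ℝ) ^ 2 = E * Y ^ 2 + Y ^ 2 := by ring
  have a8 : c * (Y : ℝ) ^ 2 / 2 = c / 2 * Y ^ 2 := by ring
  linarith

/-- **Numerical lemma of the surface step.** -/
theorem num_surf (ρ κ : ℝ) (hρ : 0 < ρ) (hκ : 0 < κ) (D : ℕ) (h : 1 < κ ^ 2 * (1 + D / ρ)) :
    ∃ (Y m : ℕ), ∀ e1 e2 : ℕ, e1 + e2 = D →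
      (m + 2).choose 3 ≤ m * (fam ρ e1 e2 Y).card ∧
      ∑ x ∈ fam ρ e1 e2 Y, wt ρ x + 1 ≤
        κ * ((m : ℝ) * (fam ρ e1 e2 Y).card - (m + 2).choose 3) := by
  obtain ⟨c, hc⟩ : ∃ c : ℝ, c = (1 + D / ρ) / 2 := ⟨_, rfl⟩
  obtain ⟨C, hC⟩ : ∃ C : ℝ, C = D * ρ + D + (D + D ^ 2) / ρ := ⟨_, rfl⟩
  obtain ⟨x, hx⟩ : ∃ x : ℝ, x = Real.sqrt (1 + D / ρ) := ⟨_, rfl⟩
  have hDρ : 0 ≤ (D : ℝ) / ρ := by positivity
  have hx2 : x ^ 2 = 1 + D / ρ := by rw [hx]; exact Real.sq_sqrt (by linarith)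
  have hx1 : 1 ≤ x := by
    rw [hx]
    exact Real.one_le_sqrt.mpr (by linarith)
  have hx0 : 0 < x := by linarith
  have hκx : 1 < κ * x := by
    have h1 : 1 < (κ * x) ^ 2 := by rw [mul_pow, hx2]; exact h
    nlinarith [mul_pos hκ hx0]
  have hc2 : c = x ^ 2 / 2 := by rw [hc, hx2]
  have hcpos : 0 < c := by rw [hc2]; positivity
  have hC0 : 0 ≤ C := by rw [hC]; positivity
  have hδ0 : 0 < κ * x - 1 := by linarith
  obtain ⟨E, hE⟩ : ∃ E, E = κ * c + 2 * C * (κ * x - 1) + κ * (3 * x ^ 2 + 2 * x) / 6 +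
    c / 2 + C + 1 := ⟨_, rfl⟩
  have hE0 : 0 ≤ E := by rw [hE]; positivity
  obtain ⟨Y, hY⟩ : ∃ Y : ℕ, 1 + κ / (κ * x - 1) + E / (2 / 3 * c * (κ * x - 1)) ≤ Y :=
    exists_nat_ge _
  have hq1 : 0 ≤ κ / (κ * x - 1) := by positivity
  have hq2 : 0 ≤ E / (2 / 3 * c * (κ * x - 1)) := by positivity
  have hY1 : (1 : ℝ) ≤ Y := by linarith
  have hY0 : (0 : ℝ) < Y := by linarith
  have hY2 : κ ≤ (κ * x - 1) * Y := by
    have : κ / (κ * x - 1) ≤ Y := by linarith
    rw [div_le_iff₀ hδ0] at this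
    linarith
  have hY3 : E ≤ 2 / 3 * c * (κ * x - 1) * Y := by
    have : E / (2 / 3 * c * (κ * x - 1)) ≤ Y := by linarith
    rw [div_le_iff₀ (by positivity)] at this
    linarith
  obtain ⟨m, hm⟩ : ∃ m : ℕ, m = ⌊x * Y⌋₊ := ⟨_, rfl⟩
  have hm1 : (m : ℝ) ≤ x * Y := by rw [hm]; exact Nat.floor_le (by positivity)
  have hm2 : x * Y < m + 1 := by rw [hm]; exact Nat.lt_floor_add_one _
  refine ⟨Y, m, fun e1 e2 he => ?_⟩
  obtain ⟨T, hT⟩ : ∃ T, T = fam ρ e1 e2 Y := ⟨_, rfl⟩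
  rw [← hT]
  have hTY : ∀ y : ℕ, y ≤ Y → c * (y : ℝ) ^ 2 - C * (y + 1) ≤
      ((T.filter (fun x => wt ρ x ≤ y)).card : ℝ) := fun y hy => by
    rw [hc, hC, hT]
    exact card_fam_ge ρ hρ e1 e2 D he Y y hy
  have hs1 : c * (Y : ℝ) ^ 2 - C * (Y + 1) ≤ (T.card : ℝ) :=
    (hTY Y le_rfl).trans (Nat.cast_le.mpr (Finset.card_filter_le _ _))
  have hw1 : ∑ x ∈ T, wt ρ x ≤ (Y : ℝ) * (T.card : ℝ) -
      ∑ y ∈ range Y, ((T.filter (fun x => wt ρ x ≤ y)).card : ℝ) :=
    sum_wt_le T (wt ρ) Y fun x hx => by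
      rw [hT] at hx
      exact (mem_fam hx).2.2.2.1
  have hw2 : ∑ y ∈ range Y, (c * (y : ℝ) ^ 2 - C * (y + 1)) ≤
      ∑ y ∈ range Y, ((T.filter (fun x => wt ρ x ≤ y)).card : ℝ) :=
    Finset.sum_le_sum fun y hy => hTY y (mem_range.mp hy).le
  have hw3 : ∀ Y : ℕ, ∑ y ∈ range Y, (c * (y : ℝ) ^ 2 - C * (y + 1)) =
      c * ((2 * (Y : ℝ) ^ 3 - 3 * Y ^ 2 + Y) / 6) - C * (Y * (Y + 1) / 2) := by
    intro Y
    induction Y with
    | zero => simp
    | succ Y ih =>
      rw [Finset.sum_range_succ, ih]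
      push_cast
      ring
  rw [hw3 Y] at hw2
  have hch : ((m + 2).choose 3 : ℝ) = (m : ℝ) * (m + 1) * (m + 2) / 6 := by
    have h1 : (m + 2).choose 3 * 6 = m * (m + 1) * (m + 2) := by
      have h3 := Nat.descFactorial_eq_factorial_mul_choose (m + 2) 3
      have h4 : (m + 2).descFactorial 3 = (m + 2) * (m + 1) * m := by
        simp [Nat.descFactorial_succ]
        ring
      rw [h4] at h3
      have : (3 : ℕ).factorial = 6 := rfl
      rw [this] at h3
      linarith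
    have h2 : ((m + 2).choose 3 : ℝ) * 6 = (m : ℝ) * (m + 1) * (m + 2) := by exact_mod_cast h1
    linarith
  have hm0 : (0 : ℝ) ≤ m := Nat.cast_nonneg m
  have hs0 : (0 : ℝ) ≤ (T.card : ℝ) := Nat.cast_nonneg _
  have hch2 : ((m + 2).choose 3 : ℝ) ≤ (x * Y) * (x * Y + 1) * (x * Y + 2) / 6 := by
    rw [hch]
    have h1 : (m : ℝ) * (m + 1) ≤ (x * Y) * (x * Y + 1) :=
      mul_le_mul hm1 (by linarith) (by positivity) (by positivity)
    have h2 : (m : ℝ) * (m + 1) * (m + 2) ≤ (x * Y) * (x * Y + 1) * (x * Y + 2) :=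
      mul_le_mul h1 (by linarith) (by positivity) (by positivity)
    linarith
  have hms : (x * Y - 1) * (T.card : ℝ) ≤ (m : ℝ) * (T.card : ℝ) :=
    mul_le_mul_of_nonneg_right (by linarith) hs0
  have key : ∑ x ∈ T, wt ρ x + 1 ≤ κ * ((m : ℝ) * (T.card : ℝ) - (m + 2).choose 3) := by
    have h1 : κ * ((x * Y - 1) * (T.card : ℝ) - (x * Y) * (x * Y + 1) * (x * Y + 2) / 6) ≤
        κ * ((m : ℝ) * (T.card : ℝ) - (m + 2).choose 3) :=
      mul_le_mul_of_nonneg_left (by linarith) hκ.le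
    have h2 := poly_ineq x κ c C Y (T.card : ℝ) hx0 hκ hc2 hC0 hY1 hδ0 hY2
      (by rw [← hE]; exact hY3) hs1
    linarith
  refine ⟨?_, key⟩
  have hsum0 : 0 ≤ ∑ x ∈ T, wt ρ x := Finset.sum_nonneg fun x _ => by unfold wt; positivity
  have h2 : 0 < (m : ℝ) * (T.card : ℝ) - (m + 2).choose 3 := by
    by_contra hcon
    push Not at hcon
    have := mul_nonneg hκ.le (neg_nonneg.mpr hcon)
    linarith
  have h3 : ((m + 2).choose 3 : ℝ) ≤ ((m * T.card : ℕ) : ℝ) := by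
    push_cast
    linarith
  exact_mod_cast h3

end Crest.Agent.R022.NumSurf
end

-- ▼ part R022/Surf586

/-! Row 22, level L1 (helper586): the surface step. A relation `G(t, n) = 0` holds on `S`, and the
functions `t_i, b_l` are power series in two parameters at all auxiliary moduli. The monomials
`t^e β^j`, `β = ∑ x^l b_l`, of the family of `Surf206.independent_int` are linearly independent modulo
each irreducible factor `g` of `G`; the determinant step gives a relation which is not divisible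
by `g`, and the resultant with respect to `n` is a plane curve containing `t(S)`. -/

set_option autoImplicit false

namespace Crest.Agent.R022.Surf586

open Crest.Agent.R022.Torsor Crest.Agent.R022.Expand Crest.Agent.R022.Surf206
  Crest.Agent.R022.Stage107 Crest.Agent.R022.Cnt
open Polynomial (C X)

/-! ### expansions -/

section exp

variable {P σ : Type*} {S : Set P} {s : P → σ → ℤ} {n' : P → ℤ} {l : ℤ}

/-- a function with an expansion without `n` is constant modulo `l`. -/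
theorem hasExp_dvd_sub {D : P → ℤ} (hs : ∀ p ∈ S, ∀ i, l ∣ s p i)
    (hD : HasExp S s n' l 1 0 D) {p p' : P} (hp : p ∈ S) (hp' : p' ∈ S) : l ∣ D p - D p' := by
  obtain ⟨G, hG, h⟩ := hD
  obtain ⟨Q, rfl⟩ : ∃ Q, G = C Q := ⟨G.coeff 0, Polynomial.eq_C_of_natDegree_le_zero hG⟩
  simp only [Polynomial.eval₂_C, pow_one] at h
  have h1 : l ∣ MvPolynomial.eval (s p) Q - MvPolynomial.eval (s p') Q :=
    HasExp.dvd_eval_sub Q fun i => dvd_sub (hs p hp i) (hs p' hp' i)
  have h2 := dvd_add (dvd_sub (h p hp) (h p' hp')) h1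
  exact dvd_congr_right h2 (by ring)

theorem hasExp_unit {D : P → ℤ} (hs : ∀ p ∈ S, ∀ i, l ∣ s p i)
    (hD : HasExp S s n' l 1 0 D) (hcop : ∀ p ∈ S, IsCoprime (D p) l) :
    ∃ u : ℤ, ∀ p ∈ S, l ∣ 1 - u * D p := by
  rcases S.eq_empty_or_nonempty with h | ⟨p0, hp0⟩
  · exact ⟨0, fun p hp => by rw [h] at hp; exact absurd hp (Set.notMem_empty _)⟩
  obtain ⟨u, v, huv⟩ := hcop p0 hp0
  refine ⟨u, fun p hp => ?_⟩
  have h1 := hasExp_dvd_sub hs hD hp hp0
  have h2 : 1 - u * D p = v * l - u * (D p - D p0) := by linear_combination -huv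
  rw [h2]
  exact dvd_sub (dvd_mul_left l v) (h1.mul_left u)

end exp

section pts

variable {F : Polynomial ℤ} (hF : F.Monic)

/-- `b_l` is a power series in the local parameters as soon as `t, n` are. -/
theorem hasExp_b {σ : Type*} {k : ℕ} {M : ℤ} {a0 : Fin F.natDegree → ℤ} {S : Set (Fin 2 → ℤ)}
    {n : (Fin 2 → ℤ) → ℤ} {b : (Fin 2 → ℤ) → Fin F.natDegree → ℤ}
    (heq : ∀ t ∈ S, (M : AdjoinRoot F) * ((n t : AdjoinRoot F) - AdjoinRoot.root F) =
      el F (emb 2 a0 t) ^ k * el F (b t))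
    {s : (Fin 2 → ℤ) → σ → ℤ} {l : ℤ} (hs : ∀ p ∈ S, ∀ i, l ∣ s p i)
    (hcop : ∀ t ∈ S, IsCoprime (nm hF (el F (emb 2 a0 t))) l) {n' : (Fin 2 → ℤ) → ℤ}
    (ht : ∀ (m : ℕ) (i : Fin 2), HasExp S s n' l m 0 (fun t => t i))
    (hn : ∀ m : ℕ, HasExp S s n' l m 0 n) (m : ℕ) (i : Fin F.natDegree) :
    HasExp S s n' l m 0 (fun t => b t i) := by
  have hpoly : ∀ (m : ℕ) (Q : MvPolynomial (Fin 2) ℤ),
      HasExp S s n' l m 0 (fun t => MvPolynomial.eval t Q) := fun m Q =>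
    HasExp.mvPolynomial (fun t => t) (ht m) Q
  have hD : ∀ m : ℕ, HasExp S s n' l m 0 (fun t => (MvPolynomial.eval t (Nf hF 2 a0)) ^ k) :=
    fun m => (hpoly m _).pow_zero k
  obtain ⟨u, hu⟩ := hasExp_unit hs (hD 1) (fun p hp => by
    rw [Nf_eval]
    exact (hcop p hp).pow_left)
  have hψ : HasExp S s n' l m 0 (fun t => M * (n t * MvPolynomial.eval t (Sf hF 2 a0 k 1 i) -
      MvPolynomial.eval t (Sf hF 2 a0 k (AdjoinRoot.root F) i))) :=
    HasExp.const_mul M ((HasExp.mul_zero_left (hn m) (hpoly m _)).sub (hpoly m _))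
  refine HasExp.div (hD m) u hu hψ fun p hp => ?_
  rw [← coord_eq_slice hF 2 a0 p k M (n p) (b p) (heq p hp) i, mul_comm, sub_self]
  exact dvd_zero _

/-! ### degrees of the family -/

theorem CD_Bt (k : ℕ) (M : ℤ) (a0 : Fin F.natDegree → ℤ) (l : Fin F.natDegree) :
    CD (Bt hF k M a0 l) (k * F.natDegree) := by
  rw [← Bi_eq]
  exact CD_Bi hF k M a0 l

theorem CD_Bg (k : ℕ) (M : ℤ) (a0 : Fin F.natDegree → ℤ) (x : ℕ) :
    CD (Bg hF k M a0 x) (k * F.natDegree) := by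
  unfold Bg
  refine CD_sum _ _ _ fun l _ => ?_
  have h := CD_mul (CD_C (x := (MvPolynomial.C ((x : ℤ) ^ (l : ℕ)) : MvPolynomial (Fin 2) ℤ))
    (c := 0) (by rw [MvPolynomial.totalDegree_C])) (CD_Bt hF k M a0 l)
  rwa [zero_add] at h

theorem CD_famZ (k : ℕ) (M : ℤ) (J : ℕ) (a0 : Fin F.natDegree → ℤ) (x : ℕ) (ω : ℕ × ℕ × ℕ)
    (hω : ω.1 ≤ J) :
    CD (famZ hF k M J a0 x ω) (ω.2.1 + ω.2.2 + J * (k * F.natDegree)) := by
  unfold famZ
  have h1 : (MvPolynomial.X 0 ^ ω.2.1 * MvPolynomial.X 1 ^ ω.2.2 :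
      MvPolynomial (Fin 2) ℤ).totalDegree ≤ ω.2.1 + ω.2.2 := by
    refine (MvPolynomial.totalDegree_mul _ _).trans ?_
    rw [MvPolynomial.totalDegree_X_pow, MvPolynomial.totalDegree_X_pow]
  have h2 : CD (Bg hF k M a0 x ^ ω.1) (ω.1 * (k * F.natDegree)) := CD_pow (CD_Bg hF k M a0 x) _
  have h3 : (Nf hF 2 a0 ^ (k * (J - ω.1))).totalDegree ≤ (k * (J - ω.1)) * F.natDegree :=
    (MvPolynomial.totalDegree_pow _ _).trans (Nat.mul_le_mul_left _ (totalDegree_Nf_le hF a0))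
  have h4 := CD_mul (CD_mul (CD_C h1) h2) (CD_C h3)
  refine h4.mono ?_
  rw [add_assoc]
  refine Nat.add_le_add_left ?_ _
  rw [show k * (J - ω.1) * F.natDegree = (J - ω.1) * (k * F.natDegree) by ring, ← Nat.add_mul]
  refine Nat.mul_le_mul_right _ ?_
  omega

/-- the value of a monomial `t^e β^j`, `β = ∑ x^l b_l` -/
def mv {d : ℕ} (x : ℕ) (ω : ℕ × ℕ × ℕ) (t : Fin 2 → ℤ) (b : Fin d → ℤ) : ℤ :=
  t 0 ^ ω.2.1 * t 1 ^ ω.2.2 * (∑ l : Fin d, (x : ℤ) ^ (l : ℕ) * b l) ^ ω.1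

theorem abs_mv_le {d : ℕ} {ρ A : ℝ} (hA : 1 ≤ A) (Cc : ℕ) (x X : ℕ) (hx : x ≤ X)
    (ω : ℕ × ℕ × ℕ) (Y J : ℕ) (h1 : ω.2.1 ≤ Y) (h2 : ω.2.2 ≤ Y) (h3 : ω.1 ≤ J)
    (t : Fin 2 → ℤ) (b : Fin d → ℤ) (ht : ∀ i, |(t i : ℝ)| ≤ 2 * A)
    (hb : ∀ l, |(b l : ℝ)| ≤ Cc * A ^ ρ) :
    |(mv x ω t b : ℝ)| ≤
      2 ^ (Y + Y) * (1 + d * ((X + 1 : ℕ) : ℝ) ^ d * Cc) ^ J * A ^ NumSurf.wt ρ ω := by
  have hA0 : 0 < A := by linarith
  have hAρ : 0 < A ^ ρ := Real.rpow_pos_of_pos hA0 ρ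
  obtain ⟨C1, hC1⟩ : ∃ C1 : ℝ, C1 = 1 + d * ((X + 1 : ℕ) : ℝ) ^ d * Cc := ⟨_, rfl⟩
  have hC1' : 1 ≤ C1 := by
    rw [hC1]
    have : (0 : ℝ) ≤ d * ((X + 1 : ℕ) : ℝ) ^ d * Cc := by positivity
    linarith
  rw [← hC1]
  unfold mv
  push_cast
  rw [abs_mul, abs_mul, abs_pow, abs_pow, abs_pow]
  have e1 : |(t 0 : ℝ)| ^ ω.2.1 * |(t 1 : ℝ)| ^ ω.2.2 ≤ (2 * A) ^ (ω.2.1 + ω.2.2) := by
    rw [pow_add]
    exact mul_le_mul (pow_le_pow_left₀ (abs_nonneg _) (ht 0) _)
      (pow_le_pow_left₀ (abs_nonneg _) (ht 1) _) (by positivity) (by positivity)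
  have e2 : |∑ l : Fin d, (x : ℝ) ^ (l : ℕ) * (b l : ℝ)| ≤ C1 * A ^ ρ := by
    refine (Finset.abs_sum_le_sum_abs _ _).trans ?_
    calc ∑ l : Fin d, |(x : ℝ) ^ (l : ℕ) * (b l : ℝ)|
        ≤ ∑ _l : Fin d, ((X + 1 : ℕ) : ℝ) ^ d * (Cc * A ^ ρ) := by
          refine Finset.sum_le_sum fun l _ => ?_
          rw [abs_mul, abs_pow, Nat.abs_cast]
          have g1 : (x : ℝ) ^ (l : ℕ) ≤ ((X + 1 : ℕ) : ℝ) ^ d := by
            calc (x : ℝ) ^ (l : ℕ) ≤ ((X + 1 : ℕ) : ℝ) ^ (l : ℕ) := by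
                  refine pow_le_pow_left₀ (by positivity) ?_ _
                  exact_mod_cast (by omega : x ≤ X + 1)
              _ ≤ ((X + 1 : ℕ) : ℝ) ^ d := by
                  refine pow_le_pow_right₀ ?_ (by omega)
                  exact_mod_cast (by omega : 1 ≤ X + 1)
          exact mul_le_mul g1 (hb l) (abs_nonneg _) (by positivity)
      _ = d * ((X + 1 : ℕ) : ℝ) ^ d * Cc * A ^ ρ := by
          rw [Finset.sum_const, Finset.card_univ, Fintype.card_fin, nsmul_eq_mul]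
          ring
      _ ≤ C1 * A ^ ρ := by
          rw [hC1]
          refine mul_le_mul_of_nonneg_right ?_ hAρ.le
          linarith
  have e3 : A ^ NumSurf.wt ρ ω = A ^ (ω.2.1 + ω.2.2) * (A ^ ρ) ^ ω.1 := by
    unfold NumSurf.wt
    rw [Real.rpow_add hA0, Real.rpow_mul hA0.le, Real.rpow_natCast, ← Nat.cast_add,
      Real.rpow_natCast]
  have e4 : |∑ l : Fin d, (x : ℝ) ^ (l : ℕ) * (b l : ℝ)| ^ ω.1 ≤ (C1 * A ^ ρ) ^ ω.1 :=
    pow_le_pow_left₀ (abs_nonneg _) e2 _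
  calc |(t 0 : ℝ)| ^ ω.2.1 * |(t 1 : ℝ)| ^ ω.2.2 *
        |∑ l : Fin d, (x : ℝ) ^ (l : ℕ) * (b l : ℝ)| ^ ω.1
      ≤ (2 * A) ^ (ω.2.1 + ω.2.2) * (C1 * A ^ ρ) ^ ω.1 :=
        mul_le_mul e1 e4 (by positivity) (by positivity)
    _ = 2 ^ (ω.2.1 + ω.2.2) * C1 ^ ω.1 * A ^ NumSurf.wt ρ ω := by
        rw [e3, mul_pow, mul_pow]; ring
    _ ≤ 2 ^ (Y + Y) * C1 ^ J * A ^ NumSurf.wt ρ ω := by
        have g1 : (2 : ℝ) ^ (ω.2.1 + ω.2.2) ≤ 2 ^ (Y + Y) :=
          pow_le_pow_right₀ (by norm_num) (by omega)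
        have g2 : C1 ^ ω.1 ≤ C1 ^ J := pow_le_pow_right₀ hC1' h3
        have g3 : 0 < A ^ NumSurf.wt ρ ω := Real.rpow_pos_of_pos hA0 _
        exact mul_le_mul_of_nonneg_right
          (mul_le_mul g1 g2 (by positivity) (by positivity)) g3.le

theorem card_fam_le (ρ : ℝ) (e1 e2 Y : ℕ) :
    (NumSurf.fam ρ e1 e2 Y).card ≤ (⌊(Y : ℝ) / ρ⌋₊ + 1) * ((Y + 1) * (Y + 1)) := by
  unfold NumSurf.fam
  refine (Finset.card_filter_le _ _).trans ?_
  rw [Finset.card_product, Finset.card_product, Finset.card_range, Finset.card_range]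

/-! ### the determinant step for one factor -/

/-- the surface step for one irreducible factor `g` of positive degree in `n`. -/
theorem factor_step (z : Fin F.natDegree → ℂ) (hd : 2 ≤ F.natDegree)
    (hinj : Function.Injective z) (hz : ∀ i, F.eval₂ (Int.castRingHom ℂ) (z i) = 0)
    {k : ℕ} {ρ κ : ℝ} (hρ : 0 < ρ) (hκ : 0 < κ)
    (hthr : 1 < κ ^ 2 * (1 + (((F.natDegree - 1) * k : ℕ) : ℝ) / ρ)) (Cc M : ℕ) (hM : 0 < M)
    (D0 : ℕ) :
    ∃ (D1 : ℕ) (A0 : ℝ), ∀ A : ℝ, A0 ≤ A → 1 ≤ A →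
    ∀ a0 S n b L, LevelData hF z k Cc M A ρ a0 S n b L κ →
    (∀ l ∈ L, Par 2 S (l : ℤ) {(fun t => t 0), (fun t => t 1), n}) →
    ∀ g : Polynomial (MvPolynomial (Fin 2) ℤ), Irreducible g → 1 ≤ g.natDegree →
      g.natDegree ≤ D0 → CD g D0 →
      ∃ R : MvPolynomial (Fin 2) ℤ, R ≠ 0 ∧ R.totalDegree ≤ D1 ∧
        ∀ t ∈ S, ev3 g t (n t) = 0 → MvPolynomial.eval t R = 0 := by
  classical
  obtain ⟨Y, m, hYm⟩ := NumSurf.num_surf ρ κ hρ hκ ((F.natDegree - 1) * k) hthr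
  obtain ⟨J, hJ⟩ : ∃ J : ℕ, J = ⌊(Y : ℝ) / ρ⌋₊ := ⟨_, rfl⟩
  obtain ⟨Xb, hXb⟩ : ∃ Xb : ℕ, Xb = F.natDegree * (D0 + F.natDegree) := ⟨_, rfl⟩
  obtain ⟨C2, hC2⟩ : ∃ C2 : ℝ, C2 = 2 ^ (Y + Y) *
    (1 + F.natDegree * ((Xb + 1 : ℕ) : ℝ) ^ F.natDegree * Cc) ^ J := ⟨_, rfl⟩
  have hC21 : 1 ≤ C2 := by
    rw [hC2]
    refine one_le_mul_of_one_le_of_one_le (one_le_pow₀ (by norm_num)) (one_le_pow₀ ?_)
    have : (0 : ℝ) ≤ F.natDegree * ((Xb + 1 : ℕ) : ℝ) ^ F.natDegree * Cc := by positivity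
    linarith
  obtain ⟨s0, hs0⟩ : ∃ s0 : ℕ, s0 = (J + 1) * ((Y + 1) * (Y + 1)) := ⟨_, rfl⟩
  obtain ⟨Q, hQ⟩ : ∃ Q : ℝ, Q = (s0.factorial : ℝ) * C2 ^ s0 := ⟨_, rfl⟩
  obtain ⟨E, hE⟩ : ∃ E : ℕ, E = D0 + (Y + Y + J * (k * F.natDegree)) := ⟨_, rfl⟩
  refine ⟨(D0 + J) * E, Q + 1, ?_⟩
  intro A hAQ hA a0 S n b L hL hPar g hgirr hg1 hgD hgCD
  have hApos : 0 < A := by linarith
  obtain ⟨x, hx, e₁, e₂, he, hind⟩ := independent_int hF z hd hinj hz k (M := (M : ℤ))
    (by exact_mod_cast hM.ne') a0 hL.gp hg1 (D := D0) (by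
      rw [Polynomial.leadingCoeff]
      exact hgCD _)
  obtain ⟨hY1, hY2⟩ := hYm e₁ e₂ he
  obtain ⟨T, hT⟩ : ∃ T : Finset (ℕ × ℕ × ℕ), T = NumSurf.fam ρ e₁ e₂ Y := ⟨_, rfl⟩
  rw [← hT] at hY1 hY2
  have hTmem : ∀ ω ∈ T, ω.1 ≤ J ∧ ω.2.1 ≤ Y ∧ ω.2.2 ≤ Y ∧
      (ω.1 = 0 ∨ ¬ (e₁ ≤ ω.2.1 ∧ e₂ ≤ ω.2.2)) := by
    intro ω hω
    rw [hT] at hω
    have h := NumSurf.mem_fam hω
    exact ⟨hJ ▸ h.1, h.2.1, h.2.2.1, h.2.2.2.2⟩
  have hTcard : T.card ≤ s0 := by
    rw [hT, hs0, hJ]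
    exact card_fam_le ρ e₁ e₂ Y
  obtain ⟨w, hw⟩ : ∃ w : ℕ, w = m * T.card - (m + 2).choose 3 := ⟨_, rfl⟩
  have hw' : w + (m + 2).choose 3 = m * T.card := by omega
  have hwR : (w : ℝ) = (m : ℝ) * T.card - (m + 2).choose 3 := by
    have : ((w + (m + 2).choose 3 : ℕ) : ℝ) = ((m * T.card : ℕ) : ℝ) := by rw [hw']
    push_cast at this
    linarith
  -- the determinant step on the points of `g = 0`
  obtain ⟨U, hU⟩ : ∃ U : Set (Fin 2 → ℤ), U = {t ∈ S | ev3 g t (n t) = 0} := ⟨_, rfl⟩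
  have hUS : U ⊆ S := by
    rw [hU]
    exact fun t ht => ht.1
  obtain ⟨a, ha0, ha⟩ := relation_hasExp (ι := {ω // ω ∈ T}) (r := 2) (J := 0) (m := m)
    (w := w) U (fun ω t => mv x ω.1 t (b t)) L hL.cop
    (by
      intro l hl
      obtain ⟨s, hs, hs'⟩ := hPar l hl
      refine ⟨s, fun _ => 0, fun p hp i => hs p (hUS hp) i, fun ω => ?_⟩
      have ht : ∀ (m : ℕ) (i : Fin 2), HasExp S s (fun _ => 0) (l : ℤ) m 0 (fun t => t i) := by
        intro m i
        fin_cases i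
        · exact hs' _ (by simp) _ m
        · exact hs' _ (by simp) _ m
      have hn : ∀ m : ℕ, HasExp S s (fun _ => 0) (l : ℤ) m 0 n := fun m => hs' n (by simp) _ m
      have hb := hasExp_b hF (M := (M : ℤ)) (fun t ht => (hL.pt t ht).eqn) hs
        (fun t ht => hL.nm l hl t ht) ht hn m
      have h1 : HasExp S s (fun _ => 0) (l : ℤ) m 0
          (fun t => ∑ i : Fin F.natDegree, (x : ℤ) ^ (i : ℕ) * b t i) :=
        HasExp.sum _ _ fun i _ => HasExp.const_mul _ (hb i)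
      have h2 := HasExp.mul_zero_left (HasExp.mul_zero_left ((ht m 0).pow_zero ω.1.2.1)
        ((ht m 1).pow_zero ω.1.2.2)) (h1.pow_zero ω.1.1)
      exact (h2.mono_set hUS).congr fun p _ => rfl)
    (fun ω => C2 * A ^ NumSurf.wt ρ ω.1)
    (by
      intro p hp ω
      have h1 := hTmem _ ω.2
      have h2 := hL.pt p (hUS hp)
      rw [hC2]
      exact abs_mv_le hA Cc x Xb (hXb ▸ hx) ω.1 Y J h1.2.1 h1.2.2.1 h1.1 p (b p) h2.t_le h2.b_le)
    (by
      rw [Fintype.card_coe, zero_add, one_mul]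
      exact hw'.le)
    (by
      rw [Fintype.card_coe, Finset.prod_mul_distrib, Finset.prod_const, Finset.card_univ,
        Fintype.card_coe]
      have e1 : ∏ x : {ω // ω ∈ T}, A ^ NumSurf.wt ρ x.1 = A ^ (∑ ω ∈ T, NumSurf.wt ρ ω) := by
        rw [Finset.prod_coe_sort T (fun ω => A ^ NumSurf.wt ρ ω)]
        rw [← Real.rpow_sum_of_pos hApos]
      rw [e1, ← mul_assoc]
      have e2 : (T.card.factorial : ℝ) * C2 ^ T.card ≤ Q := by
        rw [hQ]
        refine mul_le_mul ?_ (pow_le_pow_right₀ hC21 hTcard) (by positivity) (by positivity)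
        exact_mod_cast Nat.factorial_le hTcard
      have e3 : (A ^ κ) ^ w ≤ ((∏ l ∈ L, l : ℕ) : ℝ) ^ w :=
        pow_le_pow_left₀ (Real.rpow_pos_of_pos hApos _).le hL.big w
      refine lt_of_lt_of_le ?_ e3
      rw [← Real.rpow_natCast (A ^ κ) w, ← Real.rpow_mul hApos.le]
      have e4 : ∑ ω ∈ T, NumSurf.wt ρ ω + 1 ≤ κ * (w : ℝ) := by rw [hwR]; exact hY2
      have e5 : A ^ (∑ ω ∈ T, NumSurf.wt ρ ω + 1) ≤ A ^ (κ * (w : ℝ)) :=
        Real.rpow_le_rpow_of_exponent_le hA e4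
      refine lt_of_lt_of_le ?_ e5
      rw [Real.rpow_add hApos, Real.rpow_one, mul_comm (A ^ (∑ ω ∈ T, NumSurf.wt ρ ω)) A]
      refine mul_lt_mul_of_pos_right ?_ (Real.rpow_pos_of_pos hApos _)
      linarith)
  -- the relation as a polynomial
  obtain ⟨a', ha'⟩ : ∃ a' : ℕ × ℕ × ℕ → ℤ, a' = fun ω => if h : ω ∈ T then a ⟨ω, h⟩ else 0 :=
    ⟨_, rfl⟩
  obtain ⟨G, hG⟩ : ∃ G : Polynomial (MvPolynomial (Fin 2) ℤ),
    G = ∑ ω ∈ T, C (MvPolynomial.C (a' ω)) * famZ hF k M J a0 x ω := ⟨_, rfl⟩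
  have hnd : ¬ g ∣ G := by
    intro hdvd
    apply ha0
    funext ω
    have h1 := hind J T a' (fun ω hω => ⟨(hTmem ω hω).1, (hTmem ω hω).2.2.2⟩) (hG ▸ hdvd)
      ω.1 ω.2
    simp only [ha', dif_pos ω.2] at h1
    exact h1
  have hGdeg : G.natDegree ≤ J := by
    rw [hG]
    refine Polynomial.natDegree_sum_le_of_forall_le _ _ (n := J) fun ω hω => ?_
    exact (Polynomial.natDegree_C_mul_le _ _).trans
      ((famZ_natDegree hF k M J a0 x ω).trans (hTmem ω hω).1)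
  have hGCD : CD G (Y + Y + J * (k * F.natDegree)) := by
    rw [hG]
    refine CD_sum _ _ _ fun ω hω => ?_
    have h1 := CD_mul (CD_C (x := (MvPolynomial.C (a' ω) : MvPolynomial (Fin 2) ℤ)) (c := 0)
      (by rw [MvPolynomial.totalDegree_C])) (CD_famZ hF k M J a0 x ω (hTmem ω hω).1)
    have h2 := hTmem ω hω
    refine h1.mono ?_
    omega
  refine ⟨Polynomial.resultant g G,
    R22.PolyKit.resultant_ne_zero_of_irreducible hgirr hg1 hnd, ?_, ?_⟩
  · refine R22.PolyKit.totalDegree_resultant g G E (D0 + J) (fun i => (hgCD i).trans (by omega))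
      (fun i => (hGCD i).trans (by omega)) (by omega)
  · intro t ht hgt
    have hev : ∀ H : Polynomial (MvPolynomial (Fin 2) ℤ),
        H.eval₂ (MvPolynomial.eval t) (n t) = ev3 H t (n t) := fun H => by
      rw [ev3, Polynomial.eval_map]
    have htU : t ∈ U := by
      rw [hU]
      exact ⟨ht, hgt⟩
    refine R22.PolyKit.map_resultant_eq_zero (MvPolynomial.eval t) g G hg1 (n t) ?_ ?_
    · rw [hev]; exact hgt
    · rw [hev]
      have h1 := ha t htU
      unfold ev3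
      rw [hG, Polynomial.map_sum, Polynomial.eval_finsetSum]
      have h2 : ∀ ω ∈ T, ((C (MvPolynomial.C (a' ω)) * famZ hF k M J a0 x ω).map
          (MvPolynomial.eval t)).eval (n t) =
          (a' ω * mv x ω t (b t)) * (MvPolynomial.eval t (Nf hF 2 a0)) ^ (k * J) := by
        intro ω hω
        have h3 := val_famZ hF k M J a0 x ω (hTmem ω hω).1 t (n t) (b t) (hL.pt t ht).eqn
        unfold val at h3
        rw [Polynomial.map_mul, Polynomial.eval_mul, h3, Polynomial.map_C, Polynomial.eval_C,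
          MvPolynomial.eval_C, mv]
        ring
      rw [Finset.sum_congr rfl h2, ← Finset.sum_mul]
      have h4 : ∑ ω ∈ T, a' ω * mv x ω t (b t) = 0 := by
        rw [← Finset.sum_coe_sort T (fun ω => a' ω * mv x ω t (b t)), ← h1]
        refine Finset.sum_congr rfl fun ω _ => ?_
        simp only [ha', dif_pos ω.2]
      rw [h4, zero_mul]

/-- the surface step for one irreducible factor in three variables. -/
theorem factor_step3 (z : Fin F.natDegree → ℂ) (hd : 2 ≤ F.natDegree)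
    (hinj : Function.Injective z) (hz : ∀ i, F.eval₂ (Int.castRingHom ℂ) (z i) = 0)
    {k : ℕ} {ρ κ : ℝ} (hρ : 0 < ρ) (hκ : 0 < κ)
    (hthr : 1 < κ ^ 2 * (1 + (((F.natDegree - 1) * k : ℕ) : ℝ) / ρ)) (Cc M : ℕ) (hM : 0 < M)
    (D0 : ℕ) :
    ∃ (D1 : ℕ) (A0 : ℝ), ∀ A : ℝ, A0 ≤ A → 1 ≤ A →
    ∀ a0 S n b L, LevelData hF z k Cc M A ρ a0 S n b L κ →
    (∀ l ∈ L, Par 2 S (l : ℤ) {(fun t => t 0), (fun t => t 1), n}) →
    ∀ g : MvPolynomial (Fin 3) ℤ, Irreducible g → g.totalDegree ≤ D0 →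
      ∃ R : MvPolynomial (Fin 2) ℤ, R ≠ 0 ∧ R.totalDegree ≤ D1 ∧
        ∀ t ∈ S, MvPolynomial.eval (![n t, t 0, t 1] : Fin 3 → ℤ) g = 0 →
          MvPolynomial.eval t R = 0 := by
  obtain ⟨D1, A0, h⟩ := factor_step hF z hd hinj hz hρ hκ hthr Cc M hM D0
  refine ⟨D0 + D1, A0, fun A hA0 hA a0 S n b L hL hPar g hg hgD => ?_⟩
  obtain ⟨g', hg'⟩ : ∃ g' : Polynomial (MvPolynomial (Fin 2) ℤ),
    g' = MvPolynomial.finSuccEquiv ℤ 2 g := ⟨_, rfl⟩
  have hg'irr : Irreducible g' := by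
    rw [hg']
    exact (MulEquiv.irreducible_iff (MvPolynomial.finSuccEquiv ℤ 2)).mpr hg
  have hdeg : g'.natDegree ≤ D0 := by
    rw [hg', MvPolynomial.natDegree_finSuccEquiv]
    exact (MvPolynomial.degreeOf_le_totalDegree g 0).trans hgD
  have hCD : CD g' D0 := by
    intro i
    by_cases hi : g'.coeff i = 0
    · rw [hi]; simp
    · rw [hg'] at hi ⊢
      have := MvPolynomial.totalDegree_coeff_finSuccEquiv_add_le g i hi
      omega
  have hev : ∀ t : Fin 2 → ℤ, ∀ n : ℤ,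
      MvPolynomial.eval (![n, t 0, t 1] : Fin 3 → ℤ) g = ev3 g' t n := by
    intro t n
    have h1 := R22.PolyKit.eval₂_finSuccEquiv g (![n, t 0, t 1] : Fin 3 → ℤ)
    have h2 : (fun i : Fin 2 => (![n, t 0, t 1] : Fin 3 → ℤ) i.succ) = t := by
      funext i
      fin_cases i <;> rfl
    rw [h2] at h1
    rw [← h1, ev3, hg', Polynomial.eval_map]
    rfl
  rcases Nat.eq_zero_or_pos g'.natDegree with h0 | h1
  · obtain ⟨R, hR⟩ : ∃ R, g' = C R := ⟨g'.coeff 0, Polynomial.eq_C_of_natDegree_eq_zero h0⟩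
    refine ⟨R, ?_, ?_, fun t ht hgt => ?_⟩
    · rintro rfl
      rw [hR, map_zero] at hg'irr
      exact hg'irr.ne_zero rfl
    · have := hCD 0
      rw [hR, Polynomial.coeff_C_zero] at this
      omega
    · rw [hev, hR, ev3, Polynomial.map_C, Polynomial.eval_C] at hgt
      exact hgt
  · obtain ⟨R, hR0, hR1, hR2⟩ := h A hA0 hA a0 S n b L hL hPar g' hg'irr h1 hdeg hCD
    exact ⟨R, hR0, by omega, fun t ht hgt => hR2 t ht (by rw [← hev]; exact hgt)⟩

/-- **L1, surface step**, general threshold. -/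
theorem l1At_gen (z : Fin F.natDegree → ℂ) (hd : 2 ≤ F.natDegree)
    (hinj : Function.Injective z) (hz : ∀ i, F.eval₂ (Int.castRingHom ℂ) (z i) = 0)
    {k : ℕ} {ρ κ : ℝ} (hρ : 0 < ρ) (hκ : 0 < κ)
    (hthr : 1 < κ ^ 2 * (1 + (((F.natDegree - 1) * k : ℕ) : ℝ) / ρ)) : L1At hF z k ρ κ := by
  classical
  intro Cc M _ hM D0
  obtain ⟨D1, A0, h⟩ := factor_step3 hF z hd hinj hz hρ hκ hthr Cc M hM D0
  refine ⟨D0 * D1, A0, fun A hA0 hA a0 S n b L hL hG hPar => ?_⟩
  obtain ⟨G, hG0, hGD, hGS⟩ := hG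
  have hstep := h A hA0 hA a0 S n b L hL hPar
  obtain ⟨ms, hms⟩ : ∃ ms : Multiset (MvPolynomial (Fin 3) ℤ),
    ms = (UniqueFactorizationMonoid.factors G).filter (fun g => g.totalDegree ≠ 0) := ⟨_, rfl⟩
  have hirr : ∀ g ∈ UniqueFactorizationMonoid.factors G, Irreducible g := fun g hg =>
    UniqueFactorizationMonoid.irreducible_of_factor g hg
  have hdvd : ∀ g ∈ UniqueFactorizationMonoid.factors G, g ∣ G := fun g hg =>
    UniqueFactorizationMonoid.dvd_of_mem_factors hg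
  have hR : ∀ g : MvPolynomial (Fin 3) ℤ, ∃ R : MvPolynomial (Fin 2) ℤ, R ≠ 0 ∧
      R.totalDegree ≤ D1 ∧ (g ∈ UniqueFactorizationMonoid.factors G → ∀ t ∈ S,
        MvPolynomial.eval (![n t, t 0, t 1] : Fin 3 → ℤ) g = 0 → MvPolynomial.eval t R = 0) := by
    intro g
    by_cases hg : g ∈ UniqueFactorizationMonoid.factors G
    · obtain ⟨R, h1, h2, h3⟩ := hstep g (hirr g hg)
        ((MvPolynomial.totalDegree_le_of_dvd_of_isDomain (hdvd g hg) hG0).trans hGD)
      exact ⟨R, h1, h2, fun _ => h3⟩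
    · exact ⟨1, one_ne_zero, by simp, fun h => absurd h hg⟩
  choose R hR0 hR1 hR2 using hR
  refine ⟨(ms.map R).prod, ?_, ?_, ?_⟩
  · refine Multiset.prod_ne_zero fun h0 => ?_
    obtain ⟨g, -, hg⟩ := Multiset.mem_map.mp h0
    exact hR0 g hg
  · refine (MvPolynomial.totalDegree_multiset_prod _).trans ?_
    rw [Multiset.map_map]
    have h1 : ((ms.map (MvPolynomial.totalDegree ∘ R))).sum ≤
        Multiset.card (ms.map (MvPolynomial.totalDegree ∘ R)) • D1 := by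
      refine Multiset.sum_le_card_nsmul _ _ fun x hx => ?_
      obtain ⟨g, -, rfl⟩ := Multiset.mem_map.mp hx
      exact hR1 g
    refine h1.trans ?_
    rw [Multiset.card_map, smul_eq_mul]
    refine Nat.mul_le_mul_right _ ?_
    rw [hms]
    exact (R22.PolyKit.card_factors_le G hG0).trans hGD
  · intro t ht
    have hGt := hGS t ht
    obtain ⟨u, hu⟩ := UniqueFactorizationMonoid.factors_prod hG0
    have h1 : MvPolynomial.eval (![n t, t 0, t 1] : Fin 3 → ℤ)
        (UniqueFactorizationMonoid.factors G).prod = 0 := by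
      have h2 : MvPolynomial.eval (![n t, t 0, t 1] : Fin 3 → ℤ)
          (UniqueFactorizationMonoid.factors G).prod *
          MvPolynomial.eval (![n t, t 0, t 1] : Fin 3 → ℤ) (u : MvPolynomial (Fin 3) ℤ) = 0 := by
        rw [← map_mul, hu, hGt]
      rcases mul_eq_zero.mp h2 with h3 | h3
      · exact h3
      · exfalso
        have h4 : IsUnit (MvPolynomial.eval (![n t, t 0, t 1] : Fin 3 → ℤ)
            (u : MvPolynomial (Fin 3) ℤ)) := u.isUnit.map _
        rw [h3] at h4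
        exact not_isUnit_zero h4
    rw [map_multiset_prod, Multiset.prod_eq_zero_iff] at h1
    obtain ⟨g, hg, hgt⟩ := Multiset.mem_map.mp h1
    rw [map_multiset_prod, Multiset.prod_eq_zero_iff, Multiset.map_map, Multiset.mem_map]
    refine ⟨g, ?_, hR2 g hg t ht hgt⟩
    rw [hms, Multiset.mem_filter]
    refine ⟨hg, fun h0 => ?_⟩
    rw [MvPolynomial.totalDegree_eq_zero_iff_eq_C] at h0
    rw [h0, MvPolynomial.eval_C] at hgt
    rw [hgt, map_zero] at h0
    exact (hirr g hg).ne_zero h0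

/-- the threshold is satisfied for `κ = 0.49 ρ`, `ρ ≥ 0.6556` -/
theorem thr {d k : ℕ} (hk2 : 2 ≤ k) (hk : k + 2 = d) {ρ : ℝ} (hρ : 2 / 3 ≤ ρ) :
    1 < (49 / 100 * ρ) ^ 2 * (1 + (((d - 1) * k : ℕ) : ℝ) / ρ) := by
  have hρ0 : 0 < ρ := by linarith
  have h6 : 6 ≤ (d - 1) * k := by
    calc 6 = 3 * 2 := rfl
      _ ≤ (d - 1) * k := Nat.mul_le_mul (by omega) hk2
  have h6' : (6 : ℝ) ≤ (((d - 1) * k : ℕ) : ℝ) := by exact_mod_cast h6
  have h1 : (49 / 100 * ρ) ^ 2 * (1 + (((d - 1) * k : ℕ) : ℝ) / ρ) =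
      (49 / 100) ^ 2 * (ρ ^ 2 + (((d - 1) * k : ℕ) : ℝ) * ρ) := by
    field_simp
  rw [h1]
  have h2 : (6 : ℝ) * (2 / 3) ≤ (((d - 1) * k : ℕ) : ℝ) * ρ :=
    mul_le_mul h6' hρ (by norm_num) (by positivity)
  nlinarith

/-- **L1, surface step** with `κ = 0.49 ρ`. -/
theorem l1At (z : Fin F.natDegree → ℂ) (hinj : Function.Injective z)
    (hz : ∀ i, F.eval₂ (Int.castRingHom ℂ) (z i) = 0) {k : ℕ} (hk2 : 2 ≤ k)
    (hk : k + 2 = F.natDegree) {ρ : ℝ} (hρ : 2 / 3 ≤ ρ) : L1At hF z k ρ (49 / 100 * ρ) :=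
  l1At_gen hF z (by omega) hinj hz (by linarith) (by linarith) (thr hk2 hk hρ)

end pts

end Crest.Agent.R022.Surf586
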