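import Mathlib
import Crest.Agent.R22.SieveRed

-- ▼ part R022/TorsorAlg
section

/-! Row 22, block T1 (helper250): the torsor step, algebraic part.

`F` monic over `ℤ`; `AdjoinRoot F` is the order `ℤ[θ]`. For an element `α` we use the conjugate
complement `star α` (`α * star α = norm α`). If `p ∣ F(m)`, `p ∣ α(m)` and `p ∤ F'(m)`, `p ^ k ∣ F(m)`, then
`p ^ k ∣ (θ - m) * (star α) ^ k`.
-/

set_option autoImplicit false

open Polynomial Matrix

namespace Crest.Agent.R022.Torsor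

/-! ### A matrix lemma -/

section mat
variable {R : Type*} [CommRing R] {n : Type*} [Fintype n] [DecidableEq n]

/-- A matrix with a left null vector one of whose entries is `1` has determinant `0`. -/
theorem det_eq_zero_of_vecMul (A : Matrix n n R) (v : n → R) (i0 : n) (hv0 : v i0 = 1)
    (hvA : v ᵥ* A = 0) : A.det = 0 := by
  have h1 : v ᵥ* (A * A.adjugate) = 0 := by
    rw [← Matrix.vecMul_vecMul, hvA, Matrix.zero_vecMul]
  rw [Matrix.mul_adjugate, Matrix.vecMul_smul, Matrix.vecMul_one] at h1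
  have := congrFun h1 i0
  simpa [hv0] using this

theorem adjugate_mulVec_eq_zero (A : Matrix n n R) (v : n → R) (i0 : n) (hv0 : v i0 = 1)
    (hvA : v ᵥ* A = 0) (x : n → R) (hx : v ⬝ᵥ x = 0) : A.adjugate *ᵥ x = 0 := by
  rw [← Matrix.cramer_eq_adjugate_mulVec]
  funext i
  rw [Matrix.cramer_apply, Pi.zero_apply]
  refine det_eq_zero_of_vecMul _ v i0 hv0 ?_
  funext j
  by_cases hj : j = i
  · subst hj
    simpa [Matrix.vecMul, dotProduct, Matrix.updateCol_self] using hx
  · have := congrFun hvA j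
    simpa [Matrix.vecMul, dotProduct, Matrix.updateCol_ne hj] using this

end mat

section alg
variable {F : ℤ[X]} (hF : F.Monic)

/-- The power basis `1, θ, …, θ ^ (d-1)`. -/
noncomputable def bas : Module.Basis (Fin F.natDegree) ℤ (AdjoinRoot F) :=
  (AdjoinRoot.powerBasis' hF).basis

theorem bas_apply (i : Fin F.natDegree) : bas hF i = AdjoinRoot.root F ^ (i : ℕ) := by
  exact (AdjoinRoot.powerBasis' hF).basis_eq_pow i

/-- the element with coordinates `a` -/
noncomputable def el (F : ℤ[X]) (a : Fin F.natDegree → ℤ) : AdjoinRoot F :=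
  ∑ i, (a i : AdjoinRoot F) * AdjoinRoot.root F ^ (i : ℕ)

theorem el_eq (a : Fin F.natDegree → ℤ) : el F a = ∑ i, a i • bas hF i := by
  unfold el
  refine Finset.sum_congr rfl fun i _ => ?_
  rw [bas_apply, zsmul_eq_mul]

theorem el_repr (x : AdjoinRoot F) : el F (fun i => (bas hF).repr x i) = x := by
  rw [el_eq hF]
  exact (bas hF).sum_repr x

theorem repr_el (a : Fin F.natDegree → ℤ) (i) : (bas hF).repr (el F a) i = a i := by
  rw [el_eq hF]
  rw [Module.Basis.repr_sum_self]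

include hF in
theorem el_surj (x : AdjoinRoot F) : ∃ a : Fin F.natDegree → ℤ, el F a = x :=
  ⟨_, el_repr hF x⟩

include hF in
theorem el_injective : Function.Injective (el F) := by
  intro a b h
  funext i
  rw [← repr_el hF a i, ← repr_el hF b i, h]

include hF in
theorem el_ne_zero {a : Fin F.natDegree → ℤ} (ha : a ≠ 0) : el F a ≠ 0 := by
  intro h
  apply ha
  apply el_injective hF
  rw [h]
  simp [el]

/-- A ring hom out of `ℤ[θ]` in coordinates. -/
theorem hom_el {S : Type*} [CommRing S] (ψ : AdjoinRoot F →+* S) (a : Fin F.natDegree → ℤ) :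
    ψ (el F a) = ∑ i, (a i : S) * ψ (AdjoinRoot.root F) ^ (i : ℕ) := by
  unfold el
  rw [map_sum]
  refine Finset.sum_congr rfl fun i _ => ?_
  rw [map_mul, map_pow, map_intCast]

theorem hom_repr {S : Type*} [CommRing S] (ψ : AdjoinRoot F →+* S) (x : AdjoinRoot F) :
    ψ x = ∑ i, ((bas hF).repr x i : S) * ψ (AdjoinRoot.root F) ^ (i : ℕ) := by
  rw [← hom_el, el_repr]

/-- evaluation at a root -/
noncomputable def ev {S : Type*} [CommRing S] (F : ℤ[X]) (s : S) (hs : F.eval₂ (Int.castRingHom S) s = 0) :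
    AdjoinRoot F →+* S := AdjoinRoot.lift (Int.castRingHom S) s hs

theorem ev_root {S : Type*} [CommRing S] (s : S) (hs : F.eval₂ (Int.castRingHom S) s = 0) :
    ev F s hs (AdjoinRoot.root F) = s := by
  unfold ev; exact AdjoinRoot.lift_root hs

/-- The matrix of multiplication by `x`. -/
noncomputable def lm (x : AdjoinRoot F) : Matrix (Fin F.natDegree) (Fin F.natDegree) ℤ :=
  Algebra.leftMulMatrix (bas hF) x

theorem lm_mulVec (x y : AdjoinRoot F) :
    lm hF x *ᵥ (fun i => (bas hF).repr y i) = fun i => (bas hF).repr (x * y) i := by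
  unfold lm
  exact Algebra.leftMulMatrix_mulVec_repr (bas hF) x y

/-- the norm -/
noncomputable def nm (x : AdjoinRoot F) : ℤ := (lm hF x).det

theorem nm_eq (x : AdjoinRoot F) : nm hF x = Algebra.norm ℤ x :=
  (Algebra.norm_eq_matrix_det (bas hF) x).symm

/-- `star x = norm x / x` -/
noncomputable def star (x : AdjoinRoot F) : AdjoinRoot F :=
  el F ((lm hF x).adjugate *ᵥ (fun i => (bas hF).repr 1 i))

/-- coordinates of `el a` times `x`. -/
theorem repr_mul_el (x : AdjoinRoot F) (a : Fin F.natDegree → ℤ) :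
    (fun i => (bas hF).repr (x * el F a) i) = lm hF x *ᵥ a := by
  rw [← lm_mulVec]
  congr 1
  funext i
  exact repr_el hF a i

theorem mul_el_adjugate (x : AdjoinRoot F) (a : Fin F.natDegree → ℤ) :
    x * el F ((lm hF x).adjugate *ᵥ a) = (nm hF x : AdjoinRoot F) * el F a := by
  have h1 : (fun i => (bas hF).repr (x * el F ((lm hF x).adjugate *ᵥ a)) i) = nm hF x • a := by
    rw [repr_mul_el, Matrix.mulVec_mulVec, Matrix.mul_adjugate, Matrix.smul_mulVec,
      Matrix.one_mulVec]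
    rfl
  rw [← el_repr hF (x * el F ((lm hF x).adjugate *ᵥ a)), h1]
  unfold el
  rw [Finset.mul_sum]
  refine Finset.sum_congr rfl fun i _ => ?_
  simp [mul_assoc]

theorem mul_star (x : AdjoinRoot F) : x * star hF x = (nm hF x : AdjoinRoot F) := by
  unfold star
  rw [mul_el_adjugate, el_repr, mul_one]

theorem el_adjugate [IsDomain (AdjoinRoot F)] {x : AdjoinRoot F} (hx : x ≠ 0)
    (y : AdjoinRoot F) :
    el F ((lm hF x).adjugate *ᵥ (fun i => (bas hF).repr y i)) = star hF x * y := by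
  apply mul_left_cancel₀ hx
  rw [mul_el_adjugate, el_repr, ← mul_assoc, mul_star]

/-- Divisibility by an integer can be read off the coordinates. -/
theorem dvd_of_repr (q : ℤ) (x : AdjoinRoot F) (h : ∀ i, q ∣ (bas hF).repr x i) :
    (q : AdjoinRoot F) ∣ x := by
  choose c hc using h
  refine ⟨el F c, ?_⟩
  rw [← el_repr hF x]
  unfold el
  rw [Finset.mul_sum]
  refine Finset.sum_congr rfl fun i _ => ?_
  simp only [hc i]; push_cast; ring

/-- Key fact: if `ψ : ℤ[θ] → 𝔽_p` kills `α` and `x` then `p ∣ star α * x`. -/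
theorem dvd_star_mul [IsDomain (AdjoinRoot F)] (hd : 0 < F.natDegree) (p : ℕ)
    (ψ : AdjoinRoot F →+* ZMod p) {α : AdjoinRoot F} (hα0 : α ≠ 0) (hα : ψ α = 0)
    {x : AdjoinRoot F} (hx : ψ x = 0) : ((p : ℤ) : AdjoinRoot F) ∣ star hF α * x := by
  rw [← el_adjugate hF hα0 x]
  refine dvd_of_repr hF _ _ fun i => ?_
  rw [repr_el]
  rw [← CharP.intCast_eq_zero_iff (ZMod p) p]
  set s := ψ (AdjoinRoot.root F) with hs
  let v : Fin F.natDegree → ZMod p := fun i => s ^ (i : ℕ)
  have h1 := adjugate_mulVec_eq_zero ((lm hF α).map (Int.castRingHom (ZMod p))) v ⟨0, hd⟩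
    (by simp [v]) ?_ (fun i => ((bas hF).repr x i : ZMod p)) ?_
  · have h2 := congrFun h1 i
    have h3 : ((lm hF α).map (Int.castRingHom (ZMod p))).adjugate =
        (lm hF α).adjugate.map (Int.castRingHom (ZMod p)) :=
      ((Int.castRingHom (ZMod p)).map_adjugate (lm hF α)).symm
    rw [h3] at h2
    simpa [Matrix.mulVec, dotProduct] using h2
  · funext j
    have h2 : ψ (α * bas hF j) = 0 := by rw [map_mul, hα, zero_mul]
    rw [hom_repr hF ψ] at h2
    have h3 : (fun i => (bas hF).repr (α * bas hF j) i) = fun i => lm hF α i j := by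
      have h4 := lm_mulVec hF α (bas hF j)
      rw [← h4]
      funext i
      simp [Matrix.mulVec, dotProduct, Finsupp.single_apply]
    rw [Pi.zero_apply, ← h2]
    simp only [Matrix.vecMul, dotProduct, Matrix.map_apply]
    refine Finset.sum_congr rfl fun i _ => ?_
    have h5 : (bas hF).repr (α * bas hF j) i = lm hF α i j := congrFun h3 i
    rw [h5]
    simp [v, mul_comm, ← hs]
  · rw [← hx, hom_repr hF ψ x]
    simp only [dotProduct]
    refine Finset.sum_congr rfl fun i _ => ?_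
    simp [v, mul_comm, ← hs]

end alg

end Crest.Agent.R022.Torsor
end

-- ▼ part R022/TorsorDvd
section

/-! Row 22, block T1 (helper250): the divisibility `p ^ k ∣ (θ - m) * (star α) ^ k`, hence
`c ^ k * (m - θ) = α ^ k * β` with `norm α = p * c`. -/

set_option autoImplicit false

open Polynomial Matrix

namespace Crest.Agent.R022.Torsor

variable {F : ℤ[X]} (hF : F.Monic)

/-- The ring hom `ℤ[θ] → ZMod p`, `θ ↦ m`, when `p ∣ F(m)`. -/
theorem exists_hom (p : ℕ) (m : ℤ) (hm : (p : ℤ) ∣ F.eval m) :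
    ∃ ψ : AdjoinRoot F →+* ZMod p, ψ (AdjoinRoot.root F) = (m : ZMod p) := by
  have h : F.eval₂ (Int.castRingHom (ZMod p)) (m : ZMod p) = 0 := by
    have h1 : F.eval₂ (Int.castRingHom (ZMod p)) ((Int.castRingHom (ZMod p)) m) = ((F.eval m : ℤ) : ZMod p) := by
      rw [Polynomial.eval₂_at_apply]; simp
    have h2 : ((F.eval m : ℤ) : ZMod p) = 0 := (CharP.intCast_eq_zero_iff (ZMod p) p _).mpr hm
    rw [h2] at h1
    simpa using h1
  exact ⟨ev F _ h, ev_root _ h⟩

/-- `(θ - m) * (g + (θ - m) H) = - F(m)` with `g = F'(m)`. -/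
theorem exists_factor (F : ℤ[X]) (m : ℤ) : ∃ H : AdjoinRoot F,
    (AdjoinRoot.root F - (m : AdjoinRoot F)) *
      (((derivative F).eval m : ℤ) + (AdjoinRoot.root F - (m : AdjoinRoot F)) * H) =
      - ((F.eval m : ℤ) : AdjoinRoot F) := by
  -- write `F = F(m) + F'(m) (X - m) + (X - m)^2 Q`
  have h0 : ∃ Q : ℤ[X], F = C (F.eval m) + C ((derivative F).eval m) * (X - C m) + (X - C m) ^ 2 * Q := by
    have h1 : ∀ P : ℤ[X], ∃ G : ℤ[X], P = (X - C m) * G + C (P.eval m) := by
      intro P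
      have h2 : (X - C m) ∣ P - C (P.eval m) := by
        rw [Polynomial.dvd_iff_isRoot]; simp
      obtain ⟨G, hG⟩ := h2
      exact ⟨G, by rw [← hG]; ring⟩
    obtain ⟨G, hG⟩ := h1 F
    obtain ⟨Q, hQ⟩ := h1 G
    have h3 : (derivative F).eval m = G.eval m := by
      conv_lhs => rw [hG]
      simp
    refine ⟨Q, ?_⟩
    conv_lhs => rw [hG]
    rw [h3]
    conv_lhs => rw [hQ]
    ring
  obtain ⟨Q, hQ⟩ := h0
  refine ⟨AdjoinRoot.mk F Q, ?_⟩
  have h4 : AdjoinRoot.mk F F = 0 := AdjoinRoot.mk_self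
  have h5 := congrArg (AdjoinRoot.mk F) hQ
  rw [h4] at h5
  have hC : ∀ z : ℤ, AdjoinRoot.mk F (C z) = (z : AdjoinRoot F) := by
    intro z
    rw [show (C z : ℤ[X]) = ((z : ℤ) : ℤ[X]) from (by simp), map_intCast]
  simp only [map_add, map_mul, map_sub, map_pow, hC, AdjoinRoot.mk_X] at h5
  linear_combination (-1 : AdjoinRoot F) * h5

/-- The heart of the torsor step. -/
theorem dvd_star_pow [IsDomain (AdjoinRoot F)] (hd : 0 < F.natDegree) (p : ℕ) (hp : p.Prime)
    (k : ℕ) (hk : 1 ≤ k) (m : ℤ) (hm : (p : ℤ) ^ k ∣ F.eval m)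
    (hder : ¬ (p : ℤ) ∣ (derivative F).eval m)
    {a : Fin F.natDegree → ℤ} (ha0 : a ≠ 0) (ha : (p : ℤ) ∣ ∑ i, a i * m ^ (i : ℕ)) :
    (((p : ℤ) : AdjoinRoot F)) ^ k ∣
      (AdjoinRoot.root F - (m : AdjoinRoot F)) * star hF (el F a) ^ k := by
  have hm1 : (p : ℤ) ∣ F.eval m := dvd_trans (dvd_pow_self _ (by omega)) hm
  obtain ⟨ψ, hψ⟩ := exists_hom p m hm1
  have hα0 : el F a ≠ 0 := el_ne_zero hF ha0
  have hα : ψ (el F a) = 0 := by
    rw [hom_el, hψ]
    have := (CharP.intCast_eq_zero_iff (ZMod p) p _).mpr ha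
    push_cast at this
    exact this
  have hx : ψ (AdjoinRoot.root F - (m : AdjoinRoot F)) = 0 := by
    rw [map_sub, hψ, map_intCast, sub_self]
  obtain ⟨w, hw⟩ := dvd_star_mul hF hd p ψ hα0 hα hx
  obtain ⟨H, hH⟩ := exists_factor F m
  obtain ⟨u, hu⟩ := hm
  set x := AdjoinRoot.root F - (m : AdjoinRoot F) with hxdef
  set y := star hF (el F a) with hy
  set g : ℤ := (derivative F).eval m with hg
  rw [hu] at hH
  push_cast at hH
  set P : AdjoinRoot F := ((p : ℤ) : AdjoinRoot F) with hP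
  have hPc : ((p : ℕ) : AdjoinRoot F) = P := by rw [hP]; push_cast; rfl
  rw [hPc] at hH
  -- `g^j x ≡ ± x^(j+1) H^j` mod `P^k`
  have h1 : ∀ j : ℕ, P ^ k ∣ (g : AdjoinRoot F) ^ j * x - (-1) ^ j * x ^ (j + 1) * H ^ j := by
    intro j
    induction j with
    | zero => simp
    | succ j ih =>
      obtain ⟨e, he⟩ := ih
      refine ⟨g * e - (-1) ^ j * x ^ j * H ^ j * u, ?_⟩
      have h2 : (g : AdjoinRoot F) * x = - (x * x * H) - P ^ k * u := by
        linear_combination hH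
      have h3 : (g : AdjoinRoot F) ^ j * x = (-1) ^ j * x ^ (j + 1) * H ^ j + P ^ k * e := by
        linear_combination he
      have h4 : (g : AdjoinRoot F) ^ (j + 1) * x = g * ((-1) ^ j * x ^ (j + 1) * H ^ j + P ^ k * e) := by
        rw [← h3]; ring
      rw [h4]
      have h5 : (g : AdjoinRoot F) * ((-1) ^ j * x ^ (j + 1) * H ^ j) =
          (-1) ^ j * x ^ j * H ^ j * (- (x * x * H) - P ^ k * u) := by
        rw [← h2]; ring
      rw [mul_add, h5]
      ring
  have h2 : P ^ k ∣ (g : AdjoinRoot F) ^ (k - 1) * (x * y ^ k) := by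
    have h3 : (g : AdjoinRoot F) ^ (k - 1) * (x * y ^ k) =
        ((g : AdjoinRoot F) ^ (k - 1) * x - (-1) ^ (k - 1) * x ^ (k - 1 + 1) * H ^ (k - 1)) * y ^ k
        + (-1) ^ (k - 1) * H ^ (k - 1) * (y * x) ^ k := by
      have : k - 1 + 1 = k := by omega
      rw [this, mul_pow]
      ring
    rw [h3]
    refine dvd_add (Dvd.dvd.mul_right (h1 _) _) (Dvd.dvd.mul_left ?_ _)
    rw [hw]
    rw [mul_pow]
    exact dvd_mul_right _ _
  -- `g` is invertible modulo `p ^ k`
  have hcop : IsCoprime (g ^ (k - 1)) ((p : ℤ) ^ k) := by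
    refine IsCoprime.pow ?_
    have := (Nat.prime_iff_prime_int.mp hp)
    exact ((Prime.coprime_iff_not_dvd this).mpr hder).symm
  obtain ⟨s, t, hst⟩ := hcop
  have hst' : (s : AdjoinRoot F) * (g : AdjoinRoot F) ^ (k - 1) + (t : AdjoinRoot F) * P ^ k = 1 := by
    have h : ((s * g ^ (k - 1) + t * (p : ℤ) ^ k : ℤ) : AdjoinRoot F) = ((1 : ℤ) : AdjoinRoot F) :=
      congrArg (fun z : ℤ => (z : AdjoinRoot F)) hst
    push_cast at h
    rw [hPc] at h
    exact h
  have h4 : x * y ^ k = s * ((g : AdjoinRoot F) ^ (k - 1) * (x * y ^ k)) + P ^ k * (t * (x * y ^ k)) := by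
    calc x * y ^ k = 1 * (x * y ^ k) := by ring
      _ = _ := by rw [← hst']; ring
  rw [h4]
  exact dvd_add (Dvd.dvd.mul_left h2 _) (dvd_mul_right _ _)

/-- Cancellation: with `norm α = p c` we get `c ^ k (m - θ) = α ^ k β`. -/
theorem exists_beta [IsDomain (AdjoinRoot F)] (hd : 0 < F.natDegree) (p : ℕ) (hp : p.Prime)
    (k : ℕ) (hk : 1 ≤ k) (m : ℤ) (hm : (p : ℤ) ^ k ∣ F.eval m)
    (hder : ¬ (p : ℤ) ∣ (derivative F).eval m)
    {a : Fin F.natDegree → ℤ} (ha0 : a ≠ 0) (ha : (p : ℤ) ∣ ∑ i, a i * m ^ (i : ℕ))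
    (c : ℤ) (hc : nm hF (el F a) = p * c) :
    ∃ b : Fin F.natDegree → ℤ, (c : AdjoinRoot F) ^ k * ((m : AdjoinRoot F) - AdjoinRoot.root F) =
      el F a ^ k * el F b := by
  obtain ⟨w, hw⟩ := dvd_star_pow hF hd p hp k hk m hm hder ha0 ha
  have hP : (((p : ℤ) : AdjoinRoot F)) ≠ 0 := by
    intro h0
    -- `p = 0` in `ℤ[θ]` is impossible by coordinates
    have h1 : (bas hF).repr (((p : ℤ) : AdjoinRoot F) * bas hF ⟨0, hd⟩) ⟨0, hd⟩ = 0 := by
      rw [h0, zero_mul]; simp
    rw [← zsmul_eq_mul, map_zsmul] at h1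
    simp at h1
    exact hp.ne_zero h1
  have h2 : (((p : ℤ) : AdjoinRoot F)) ^ k *
      ((c : AdjoinRoot F) ^ k * ((m : AdjoinRoot F) - AdjoinRoot.root F)) =
      (((p : ℤ) : AdjoinRoot F)) ^ k * (el F a ^ k * (-w)) := by
    have h3 : (el F a * star hF (el F a)) = ((p : ℤ) : AdjoinRoot F) * (c : AdjoinRoot F) := by
      rw [mul_star, hc]; push_cast; ring
    calc (((p : ℤ) : AdjoinRoot F)) ^ k *
      ((c : AdjoinRoot F) ^ k * ((m : AdjoinRoot F) - AdjoinRoot.root F))
        = (((p : ℤ) : AdjoinRoot F) * (c : AdjoinRoot F)) ^ k *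
          ((m : AdjoinRoot F) - AdjoinRoot.root F) := by ring
      _ = (el F a * star hF (el F a)) ^ k * ((m : AdjoinRoot F) - AdjoinRoot.root F) := by rw [h3]
      _ = - (el F a ^ k * ((AdjoinRoot.root F - (m : AdjoinRoot F)) * star hF (el F a) ^ k)) := by ring
      _ = _ := by rw [hw]; ring
  obtain ⟨b, hb⟩ := el_surj hF (-w)
  refine ⟨b, ?_⟩
  rw [hb]
  exact mul_left_cancel₀ (pow_ne_zero _ hP) h2

end Crest.Agent.R022.Torsor
end

-- ▼ part R022/TorsorArch
section

/-! Row 22, block T1 (helper250): conjugates, norm = product of conjugates, size bounds. -/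

set_option autoImplicit false

open Polynomial Matrix

namespace Crest.Agent.R022.Torsor

variable {F : ℤ[X]}

/-- `ℤ[θ]` is a domain. -/
theorem isDomain_of_irr (hirr : Irreducible F) : IsDomain (AdjoinRoot F) :=
  AdjoinRoot.isDomain_of_prime (UniqueFactorizationMonoid.irreducible_iff_prime.mp hirr)

/-- The complex roots of `F`. -/
theorem exists_roots (hF : F.Monic) (hirr : Irreducible F) :
    ∃ z : Fin F.natDegree → ℂ, Function.Injective z ∧
    (∀ i, F.eval₂ (Int.castRingHom ℂ) (z i) = 0) ∧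
    F.map (Int.castRingHom ℂ) = ∏ i, (X - C (z i)) := by
  classical
  have hQ : Irreducible (F.map (Int.castRingHom ℚ)) :=
    (Polynomial.IsPrimitive.Int.irreducible_iff_irreducible_map_cast hF.isPrimitive).mp hirr
  have hsep : (F.map (Int.castRingHom ℚ)).Separable := hQ.separable
  have hsepC : (F.map (Int.castRingHom ℂ)).Separable := by
    have := hsep.map (f := algebraMap ℚ ℂ)
    rwa [Polynomial.map_map, show (algebraMap ℚ ℂ).comp (Int.castRingHom ℚ) = Int.castRingHom ℂ from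
      RingHom.ext_int _ _] at this
  have hm : (F.map (Int.castRingHom ℂ)).Monic := hF.map _
  have hsplit : (F.map (Int.castRingHom ℂ)).Splits := IsAlgClosed.splits _
  have hnd := Polynomial.nodup_roots hsepC
  have hdeg : (F.map (Int.castRingHom ℂ)).natDegree = F.natDegree := hF.natDegree_map _
  have hcard : (F.map (Int.castRingHom ℂ)).roots.toFinset.card = F.natDegree := by
    rw [Multiset.toFinset_card_of_nodup hnd, ← hsplit.natDegree_eq_card_roots, hdeg]
  let e := (F.map (Int.castRingHom ℂ)).roots.toFinset.equivFinOfCardEq hcard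
  refine ⟨fun i => (e.symm i : ℂ), ?_, ?_, ?_⟩
  · intro i j h
    exact e.symm.injective (Subtype.ext h)
  · intro i
    have h1 : ((e.symm i : ℂ)) ∈ (F.map (Int.castRingHom ℂ)).roots :=
      Multiset.mem_toFinset.mp (e.symm i).2
    have h2 := (Polynomial.mem_roots hm.ne_zero).mp h1
    rw [Polynomial.IsRoot.def, Polynomial.eval_map] at h2
    exact h2
  · have h1 := hsplit.eq_prod_roots_of_monic hm
    conv_lhs => rw [h1]
    have h2 : ∏ i, (X - C ((e.symm i : ℂ))) =
        ∏ x : (F.map (Int.castRingHom ℂ)).roots.toFinset, (X - C (x : ℂ)) :=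
      Equiv.prod_comp e.symm (fun x : (F.map (Int.castRingHom ℂ)).roots.toFinset => (X - C (x : ℂ)))
    rw [h2, Finset.prod_coe_sort (F.map (Int.castRingHom ℂ)).roots.toFinset (fun x => X - C x)]
    unfold Finset.prod
    rw [Multiset.toFinset_val, Multiset.dedup_eq_self.mpr hnd]

/-- conjugates of `el a` -/
noncomputable def cj {d : ℕ} (z : Fin d → ℂ) (a : Fin d → ℤ) (i : Fin d) : ℂ :=
  ∑ j, (a j : ℂ) * z i ^ (j : ℕ)

theorem ev_el (z : Fin F.natDegree → ℂ) (hz : ∀ i, F.eval₂ (Int.castRingHom ℂ) (z i) = 0)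
    (a : Fin F.natDegree → ℤ) (i : Fin F.natDegree) : ev F (z i) (hz i) (el F a) = cj z a i := by
  rw [hom_el, ev_root]
  rfl

/-- Norm = product of the conjugates. -/
theorem nm_eq_prod (hF : F.Monic) (z : Fin F.natDegree → ℂ) (hinj : Function.Injective z)
    (hz : ∀ i, F.eval₂ (Int.castRingHom ℂ) (z i) = 0) (a : Fin F.natDegree → ℤ) :
    ((nm hF (el F a) : ℤ) : ℂ) = ∏ i, cj z a i := by
  set V : Matrix (Fin F.natDegree) (Fin F.natDegree) ℂ := Matrix.vandermonde z with hV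
  have hdet : V.det ≠ 0 := Matrix.det_vandermonde_ne_zero_iff.mpr hinj
  set L : Matrix (Fin F.natDegree) (Fin F.natDegree) ℂ :=
    (lm hF (el F a)).map (Int.castRingHom ℂ) with hL
  have h1 : V * L = Matrix.diagonal (cj z a) * V := by
    ext i j
    rw [Matrix.mul_apply, Matrix.diagonal_mul]
    have h2 : ev F (z i) (hz i) (el F a * bas hF j) = cj z a i * z i ^ (j : ℕ) := by
      rw [map_mul, ev_el, bas_apply, map_pow, ev_root]
    have h3 : (fun i => (bas hF).repr (el F a * bas hF j) i) = fun i => lm hF (el F a) i j := by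
      have h4 := lm_mulVec hF (el F a) (bas hF j)
      rw [← h4]
      funext i
      simp [Matrix.mulVec, dotProduct, Finsupp.single_apply]
    rw [hom_repr hF, ev_root] at h2
    rw [hV]
    simp only [Matrix.vandermonde_apply]
    rw [← h2]
    refine Finset.sum_congr rfl fun l _ => ?_
    have h5 : (bas hF).repr (el F a * bas hF j) l = lm hF (el F a) l j := congrFun h3 l
    rw [h5, hL]
    simp [mul_comm]
  have h2 : V.det * L.det = (∏ i, cj z a i) * V.det := by
    rw [← Matrix.det_mul, h1, Matrix.det_mul, Matrix.det_diagonal]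
  have h3 : L.det = ((nm hF (el F a) : ℤ) : ℂ) := by
    unfold nm
    rw [hL]
    exact ((Int.castRingHom ℂ).map_det (lm hF (el F a))).symm
  rw [← h3]
  have h4 : V.det * L.det = V.det * (∏ i, cj z a i) := by rw [h2, mul_comm]
  exact mul_left_cancel₀ hdet h4

/-- conjugates of the product -/
theorem cj_mul_of_eq (z : Fin F.natDegree → ℂ)
    (hz : ∀ i, F.eval₂ (Int.castRingHom ℂ) (z i) = 0) (M m : ℤ) (k : ℕ)
    (a b : Fin F.natDegree → ℤ)
    (h : (M : AdjoinRoot F) * ((m : AdjoinRoot F) - AdjoinRoot.root F) = el F a ^ k * el F b) (i) :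
    (M : ℂ) * ((m : ℂ) - z i) = cj z a i ^ k * cj z b i := by
  have := congrArg (ev F (z i) (hz i)) h
  simp only [map_mul, map_sub, map_pow, map_intCast, ev_root, ev_el] at this
  exact this

/-- upper bound for the conjugates -/
theorem norm_cj_le {d : ℕ} (z : Fin d → ℂ) : ∃ C : ℝ, 1 ≤ C ∧ ∀ (a : Fin d → ℤ) (B : ℝ),
    (∀ i, |(a i : ℝ)| ≤ B) → ∀ i, ‖cj z a i‖ ≤ C * B := by
  refine ⟨1 + ∑ i, ∑ j : Fin d, ‖z i‖ ^ (j : ℕ), ?_, ?_⟩
  · have : 0 ≤ ∑ i, ∑ j : Fin d, ‖z i‖ ^ (j : ℕ) := by positivity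
    linarith
  · intro a B hB i
    have hB0 : 0 ≤ B := le_trans (abs_nonneg _) (hB i)
    calc ‖cj z a i‖ ≤ ∑ j, ‖(a j : ℂ) * z i ^ (j : ℕ)‖ := norm_sum_le _ _
      _ ≤ ∑ j : Fin d, ‖z i‖ ^ (j : ℕ) * B := by
          refine Finset.sum_le_sum fun j _ => ?_
          rw [norm_mul, norm_pow, mul_comm]
          refine mul_le_mul_of_nonneg_left ?_ (by positivity)
          rw [Complex.norm_intCast]
          exact hB j
      _ = (∑ j : Fin d, ‖z i‖ ^ (j : ℕ)) * B := by rw [Finset.sum_mul]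
      _ ≤ (1 + ∑ i, ∑ j : Fin d, ‖z i‖ ^ (j : ℕ)) * B := by
          refine mul_le_mul_of_nonneg_right ?_ hB0
          have : (∑ j : Fin d, ‖z i‖ ^ (j : ℕ)) ≤ ∑ i, ∑ j : Fin d, ‖z i‖ ^ (j : ℕ) :=
            Finset.single_le_sum (f := fun i => ∑ j : Fin d, ‖z i‖ ^ (j : ℕ))
              (fun i _ => by positivity) (Finset.mem_univ i)
          linarith

/-- coordinates are bounded by conjugates -/
theorem coord_le {d : ℕ} (z : Fin d → ℂ) (hinj : Function.Injective z) : ∃ C : ℝ, 1 ≤ C ∧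
    ∀ (a : Fin d → ℤ) (B : ℝ), (∀ i, ‖cj z a i‖ ≤ B) → ∀ i, |(a i : ℝ)| ≤ C * B := by
  set V : Matrix (Fin d) (Fin d) ℂ := Matrix.vandermonde z with hV
  have hdet : V.det ≠ 0 := Matrix.det_vandermonde_ne_zero_iff.mpr hinj
  have hunit : IsUnit V.det := isUnit_iff_ne_zero.mpr hdet
  refine ⟨1 + ∑ i, ∑ j, ‖V⁻¹ i j‖, ?_, ?_⟩
  · have : 0 ≤ ∑ i, ∑ j, ‖V⁻¹ i j‖ := by positivity
    linarith
  · intro a B hB i
    have hB0 : 0 ≤ B := le_trans (norm_nonneg _) (hB i)
    have h1 : V *ᵥ (fun j => (a j : ℂ)) = cj z a := by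
      funext l
      simp [Matrix.mulVec, dotProduct, hV, Matrix.vandermonde_apply, cj, mul_comm]
    have h2 : (fun j => (a j : ℂ)) = V⁻¹ *ᵥ cj z a := by
      rw [← h1, Matrix.mulVec_mulVec, Matrix.nonsing_inv_mul _ hunit, Matrix.one_mulVec]
    have h3 : (a i : ℂ) = ∑ j, V⁻¹ i j * cj z a j := congrFun h2 i
    rw [← Complex.norm_intCast, h3]
    calc ‖∑ j, V⁻¹ i j * cj z a j‖ ≤ ∑ j, ‖V⁻¹ i j * cj z a j‖ := norm_sum_le _ _
      _ ≤ ∑ j, ‖V⁻¹ i j‖ * B := by
          refine Finset.sum_le_sum fun j _ => ?_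
          rw [norm_mul]
          exact mul_le_mul_of_nonneg_left (hB j) (norm_nonneg _)
      _ = (∑ j, ‖V⁻¹ i j‖) * B := by rw [Finset.sum_mul]
      _ ≤ (1 + ∑ i, ∑ j, ‖V⁻¹ i j‖) * B := by
          refine mul_le_mul_of_nonneg_right ?_ hB0
          have : (∑ j, ‖V⁻¹ i j‖) ≤ ∑ i, ∑ j, ‖V⁻¹ i j‖ :=
            Finset.single_le_sum (f := fun i => ∑ j, ‖V⁻¹ i j‖)
              (fun i _ => by positivity) (Finset.mem_univ i)
          linarith

end Crest.Agent.R022.Torsor
end

-- ▼ part R022/Torsor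
section

/-! Row 22, block T1 (helper250): the torsor step, final form. -/

set_option autoImplicit false

open Polynomial Matrix

namespace Crest.Agent.R022.Torsor

/-- Pigeonhole in the index `p` lattice. -/
theorem pigeonhole (d : ℕ) (hd : 0 < d) (p : ℕ) (hp : 0 < p) (m : ℤ) :
    ∃ a : Fin d → ℤ, a ≠ 0 ∧ (∀ i, |a i| ^ d ≤ (p : ℤ)) ∧ (p : ℤ) ∣ ∑ i, a i * m ^ (i : ℕ) := by
  classical
  obtain ⟨B, hB1, hB2⟩ : ∃ B : ℕ, B ^ d ≤ p ∧ p < (B + 1) ^ d := by
    have h1 : ∃ n : ℕ, p < (n + 1) ^ d := ⟨p, by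
      calc p < p + 1 := Nat.lt_succ_self p
        _ ≤ (p + 1) ^ d := Nat.le_self_pow (by omega) _⟩
    refine ⟨Nat.find h1, ?_, Nat.find_spec h1⟩
    by_contra h2
    rw [not_le] at h2
    rcases Nat.eq_zero_or_pos (Nat.find h1) with h0 | h0
    · rw [h0, zero_pow (by omega)] at h2
      omega
    · obtain ⟨n, hn⟩ : ∃ n, Nat.find h1 = n + 1 := ⟨Nat.find h1 - 1, by omega⟩
      exact Nat.find_min h1 (m := n) (by omega) (by rwa [hn] at h2)
  have : NeZero p := ⟨hp.ne'⟩
  let φ : (Fin d → Fin (B + 1)) → ZMod p := fun x => ∑ i, ((x i : ℕ) : ZMod p) * (m : ZMod p) ^ (i : ℕ)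
  have hcard : Fintype.card (ZMod p) < Fintype.card (Fin d → Fin (B + 1)) := by
    rw [ZMod.card, Fintype.card_fun, Fintype.card_fin, Fintype.card_fin]
    exact hB2
  obtain ⟨x, y, hxy, h⟩ := Fintype.exists_ne_map_eq_of_card_lt φ hcard
  refine ⟨fun i => ((x i : ℕ) : ℤ) - ((y i : ℕ) : ℤ), ?_, ?_, ?_⟩
  · intro h0
    apply hxy
    funext i
    have h1 := congrFun h0 i
    simp only [Pi.zero_apply] at h1
    apply Fin.ext
    have : ((x i : ℕ) : ℤ) = ((y i : ℕ) : ℤ) := by linarith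
    exact_mod_cast this
  · intro i
    have h1 : |((x i : ℕ) : ℤ) - ((y i : ℕ) : ℤ)| ≤ (B : ℤ) := by
      have hx := (x i).2
      have hy := (y i).2
      rw [abs_le]
      constructor <;> omega
    calc |((x i : ℕ) : ℤ) - ((y i : ℕ) : ℤ)| ^ d ≤ (B : ℤ) ^ d :=
          pow_le_pow_left₀ (abs_nonneg _) h1 d
      _ ≤ (p : ℤ) := by exact_mod_cast hB1
  · rw [← CharP.intCast_eq_zero_iff (ZMod p) p]
    push_cast
    have h1 : φ x - φ y = 0 := sub_eq_zero.mpr h
    simp only [φ] at h1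
    rw [← Finset.sum_sub_distrib] at h1
    rw [← h1]
    refine Finset.sum_congr rfl fun i _ => ?_
    ring

/-- `p` divides the norm of the pigeonhole element. -/
theorem dvd_nm {F : ℤ[X]} (hF : F.Monic) (p : ℕ) (m : ℤ) (hm : (p : ℤ) ∣ F.eval m)
    (a : Fin F.natDegree → ℤ) (ha : (p : ℤ) ∣ ∑ i, a i * m ^ (i : ℕ)) :
    (p : ℤ) ∣ nm hF (el F a) := by
  obtain ⟨ψ, hψ⟩ := exists_hom p m hm
  have hα : ψ (el F a) = 0 := by
    rw [hom_el, hψ]
    have := (CharP.intCast_eq_zero_iff (ZMod p) p _).mpr ha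
    push_cast at this
    exact this
  have h1 : ψ (el F a * star hF (el F a)) = 0 := by rw [map_mul, hα, zero_mul]
  rw [mul_star, map_intCast] at h1
  exact (CharP.intCast_eq_zero_iff (ZMod p) p _).mp h1

theorem nm_ne_zero {F : ℤ[X]} (hF : F.Monic) (hirr : Irreducible F)
    {a : Fin F.natDegree → ℤ} (ha : a ≠ 0) : nm hF (el F a) ≠ 0 := by
  have := isDomain_of_irr hirr
  rw [nm_eq]
  have h := (Algebra.norm_ne_zero_iff_of_basis (bas hF) (x := el F a)).mpr (el_ne_zero hF ha)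
  exact h

/-- **Torsor step.** `z` are the complex roots of the monic irreducible polynomial `F`; the
element with coordinates `a` is `el F a = ∑ a_i θ^i`, its conjugates are `cj z a i`. -/
theorem torsor {F : ℤ[X]} (hF : F.Monic) (hirr : Irreducible F) (hd : 2 ≤ F.natDegree)
    (z : Fin F.natDegree → ℂ) (hinj : Function.Injective z)
    (hz : ∀ i, F.eval₂ (Int.castRingHom ℂ) (z i) = 0) (k : ℕ) (hk : 1 ≤ k) :
    ∃ C M : ℕ, 0 < C ∧ 0 < M ∧ ∀ A : ℝ, 1 ≤ A → ∀ p : ℕ, p.Prime → C < p →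
      A ^ F.natDegree ≤ p → (p : ℝ) ≤ 2 * A ^ F.natDegree → ∀ m : ℤ, (p : ℤ) ^ k ∣ F.eval m →
      ∃ (a b : Fin F.natDegree → ℤ) (c : ℤ), a ≠ 0 ∧ (∀ i, |(a i : ℝ)| ≤ 2 * A) ∧
        (p : ℤ) ∣ ∑ i, a i * m ^ (i : ℕ) ∧
        c ≠ 0 ∧ |c| ≤ C ∧ nm hF (el F a) = p * c ∧
        (M : AdjoinRoot F) * ((m : AdjoinRoot F) - AdjoinRoot.root F) = el F a ^ k * el F b ∧
        (∀ i, A / C ≤ ‖cj z a i‖) ∧ (∀ i, ‖cj z a i‖ ≤ C * A) ∧
        (∀ i, ‖cj z b i‖ ≤ C * (|(m : ℝ)| + 1) / A ^ k) ∧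
        (∀ i, |(b i : ℝ)| ≤ C * (|(m : ℝ)| + 1) / A ^ k) := by
  classical
  have hdom := isDomain_of_irr hirr
  have hd0 : 0 < F.natDegree := by omega
  have hQ : Irreducible (F.map (Int.castRingHom ℚ)) :=
    (Polynomial.IsPrimitive.Int.irreducible_iff_irreducible_map_cast hF.isPrimitive).mp hirr
  obtain ⟨u, v, r, hr0, huv⟩ := R22.SieveRed.exists_bezout F hQ
  obtain ⟨C1, hC1, hcj⟩ := norm_cj_le z
  obtain ⟨C2, hC2, hco⟩ := coord_le z hinj
  set K : ℝ := 2 * C1 with hK
  have hK1 : 1 ≤ K := by linarith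
  have hK0 : 0 < K := by linarith
  obtain ⟨Q, hQd⟩ := exists_nat_ge (K ^ F.natDegree)
  set M : ℕ := Q.factorial ^ k with hM
  have hM0 : 0 < M := pow_pos (Nat.factorial_pos _) _
  set Z : ℝ := ∑ i, ‖z i‖ with hZ
  have hZ0 : 0 ≤ Z := by positivity
  set T : ℝ := M * (1 + Z) * (K ^ (F.natDegree - 1)) ^ k with hT
  have hT0 : 0 ≤ T := by positivity
  obtain ⟨C, hC⟩ := exists_nat_ge (|(r : ℝ)| + K ^ F.natDegree + K + K ^ (F.natDegree - 1) + T + C2 * T + Q)
  have hq1 : 0 ≤ |(r : ℝ)| := abs_nonneg _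
  have hq2 : 0 ≤ K ^ F.natDegree := by positivity
  have hq3 : 0 ≤ K ^ (F.natDegree - 1) := by positivity
  have hq4 : 0 ≤ C2 * T := by positivity
  have hq5 : (0 : ℝ) ≤ Q := by positivity
  have hCr : |(r : ℝ)| ≤ C := by linarith
  have hCd : K ^ F.natDegree ≤ C := by linarith
  have hCK : K ≤ C := by linarith
  have hCd1 : K ^ (F.natDegree - 1) ≤ C := by linarith
  have hCT : T ≤ C := by linarith
  have hCT2 : C2 * T ≤ C := by linarith
  have hCpos : (0 : ℝ) < C := by linarith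
  refine ⟨C, M, by exact_mod_cast hCpos, hM0, ?_⟩
  intro A hA p hp hCp hAp hpA m hm
  have hA0 : 0 < A := by linarith
  obtain ⟨a, ha0, hab, hadv⟩ := pigeonhole F.natDegree hd0 p hp.pos m
  have hm1 : (p : ℤ) ∣ F.eval m := dvd_trans (dvd_pow_self _ (by omega)) hm
  -- sizes of `a`
  have haA : ∀ i, |(a i : ℝ)| ≤ 2 * A := by
    intro i
    have h1 : |(a i : ℝ)| ^ F.natDegree ≤ (2 * A) ^ F.natDegree := by
      have h2 : |(a i : ℝ)| ^ F.natDegree ≤ (p : ℝ) := by
        have := hab i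
        exact_mod_cast this
      calc |(a i : ℝ)| ^ F.natDegree ≤ (p : ℝ) := h2
        _ ≤ 2 * A ^ F.natDegree := hpA
        _ ≤ 2 ^ F.natDegree * A ^ F.natDegree := by
            refine mul_le_mul_of_nonneg_right ?_ (by positivity)
            calc (2 : ℝ) = 2 ^ 1 := by norm_num
              _ ≤ 2 ^ F.natDegree := pow_le_pow_right₀ (by norm_num) (by omega)
        _ = (2 * A) ^ F.natDegree := by rw [mul_pow]
    exact le_of_pow_le_pow_left₀ (by omega) (by positivity) h1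
  have hup : ∀ i, ‖cj z a i‖ ≤ K * A := by
    intro i
    have := hcj a (2 * A) haA i
    rw [hK]; linarith
  -- the norm
  obtain ⟨c, hc⟩ := dvd_nm hF p m hm1 a hadv
  have hnm0 := nm_ne_zero hF hirr ha0
  have hc0 : c ≠ 0 := by
    rintro rfl
    rw [mul_zero] at hc
    exact hnm0 hc
  have hp0 : (0 : ℝ) < p := by exact_mod_cast hp.pos
  have hprod := nm_eq_prod hF z hinj hz a
  have hnorm : (p : ℝ) * |(c : ℝ)| = ∏ i, ‖cj z a i‖ := by
    have h1 : ‖((nm hF (el F a) : ℤ) : ℂ)‖ = ∏ i, ‖cj z a i‖ := by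
      rw [hprod, norm_prod]
    rw [← h1, hc, Complex.norm_intCast]
    push_cast
    rw [abs_mul, abs_of_pos hp0]
  have hcC : |(c : ℝ)| ≤ K ^ F.natDegree := by
    have h1 : ∏ i, ‖cj z a i‖ ≤ (K * A) ^ F.natDegree := by
      calc ∏ i, ‖cj z a i‖ ≤ ∏ _i : Fin F.natDegree, (K * A) :=
            Finset.prod_le_prod (fun i _ => norm_nonneg _) fun i _ => hup i
        _ = (K * A) ^ F.natDegree := by simp
    have h2 : (p : ℝ) * |(c : ℝ)| ≤ p * K ^ F.natDegree := by
      rw [hnorm]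
      calc ∏ i, ‖cj z a i‖ ≤ (K * A) ^ F.natDegree := h1
        _ = A ^ F.natDegree * K ^ F.natDegree := by rw [mul_pow]; ring
        _ ≤ p * K ^ F.natDegree := mul_le_mul_of_nonneg_right hAp (by positivity)
    exact le_of_mul_le_mul_left h2 hp0
  have hc1 : (1 : ℝ) ≤ |(c : ℝ)| := by
    have : (1 : ℤ) ≤ |c| := Int.one_le_abs hc0
    exact_mod_cast this
  have hlow : ∀ i, A / K ^ (F.natDegree - 1) ≤ ‖cj z a i‖ := by
    intro i
    have h1 : (p : ℝ) ≤ ‖cj z a i‖ * (K * A) ^ (F.natDegree - 1) := by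
      calc (p : ℝ) = p * 1 := by ring
        _ ≤ p * |(c : ℝ)| := mul_le_mul_of_nonneg_left hc1 hp0.le
        _ = ∏ j, ‖cj z a j‖ := hnorm
        _ = ‖cj z a i‖ * ∏ j ∈ Finset.univ.erase i, ‖cj z a j‖ :=
            (Finset.mul_prod_erase Finset.univ (fun j => ‖cj z a j‖) (Finset.mem_univ i)).symm
        _ ≤ ‖cj z a i‖ * (K * A) ^ (F.natDegree - 1) := by
            refine mul_le_mul_of_nonneg_left ?_ (norm_nonneg _)
            calc ∏ j ∈ Finset.univ.erase i, ‖cj z a j‖ ≤ ∏ _j ∈ Finset.univ.erase i, (K * A) :=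
                  Finset.prod_le_prod (fun i _ => norm_nonneg _) fun i _ => hup i
              _ = (K * A) ^ (F.natDegree - 1) := by
                  rw [Finset.prod_const, Finset.card_erase_of_mem (Finset.mem_univ i),
                    Finset.card_univ, Fintype.card_fin]
    have h2 : A * A ^ (F.natDegree - 1) = A ^ F.natDegree := by
      rw [← pow_succ']; congr 1; omega
    have h3 : A * A ^ (F.natDegree - 1) ≤
        (‖cj z a i‖ * K ^ (F.natDegree - 1)) * A ^ (F.natDegree - 1) := by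
      rw [h2]
      refine le_trans hAp (le_trans h1 (le_of_eq ?_))
      rw [mul_pow]; ring
    have h4 : A ≤ ‖cj z a i‖ * K ^ (F.natDegree - 1) :=
      le_of_mul_le_mul_right h3 (by positivity)
    rw [div_le_iff₀ (by positivity)]
    exact h4
  -- the derivative condition
  have hder : ¬ (p : ℤ) ∣ (derivative F).eval m := by
    intro h1
    have h2 : (p : ℤ) ∣ r := by
      have h3 := congrArg (Polynomial.eval m) huv
      rw [Polynomial.eval_add, Polynomial.eval_mul, Polynomial.eval_mul, Polynomial.eval_C] at h3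
      rw [← h3]
      exact dvd_add (Dvd.dvd.mul_left hm1 _) (Dvd.dvd.mul_left h1 _)
    have h3 := Int.le_of_dvd (abs_pos.mpr hr0) ((dvd_abs _ _).mpr h2)
    have h4 : (p : ℝ) ≤ |(r : ℝ)| := by exact_mod_cast h3
    have h5 : (C : ℝ) < p := by exact_mod_cast hCp
    linarith
  obtain ⟨b0, hb0⟩ := exists_beta hF hd0 p hp k hk m hm hder ha0 hadv c hc
  -- multiply by `M / c ^ k`
  have hcM : c ^ k ∣ (M : ℤ) := by
    rw [hM]
    push_cast
    refine pow_dvd_pow_of_dvd ?_ k
    have h1 : c.natAbs ∣ Q.factorial := by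
      refine Nat.dvd_factorial (Int.natAbs_pos.mpr hc0) ?_
      have h2 : ((c.natAbs : ℕ) : ℝ) ≤ Q := by
        have : ((c.natAbs : ℕ) : ℝ) = |(c : ℝ)| := by
          rw [Nat.cast_natAbs]; push_cast; rfl
        rw [this]; linarith
      exact_mod_cast h2
    have h2 := Int.natCast_dvd_natCast.mpr h1
    exact (Int.natAbs_dvd.mp h2)
  obtain ⟨e, he⟩ := hcM
  have hbeta : (M : AdjoinRoot F) * ((m : AdjoinRoot F) - AdjoinRoot.root F) =
      el F a ^ k * el F (fun i => e * b0 i) := by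
    have h1 : el F (fun i => e * b0 i) = (e : AdjoinRoot F) * el F b0 := by
      unfold el
      rw [Finset.mul_sum]
      refine Finset.sum_congr rfl fun i _ => ?_
      push_cast; ring
    have h2 : (M : AdjoinRoot F) = (c : AdjoinRoot F) ^ k * (e : AdjoinRoot F) := by
      have h3 : (((M : ℤ) : ℤ) : AdjoinRoot F) = ((c ^ k * e : ℤ) : AdjoinRoot F) := by rw [he]
      push_cast at h3
      exact h3
    rw [h1, h2]
    linear_combination (e : AdjoinRoot F) * hb0
  have hbup : ∀ i, ‖cj z (fun i => e * b0 i) i‖ ≤ T * (|(m : ℝ)| + 1) / A ^ k := by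
    intro i
    have h1 := cj_mul_of_eq z hz (M : ℤ) m k a (fun i => e * b0 i)
      (by push_cast; exact hbeta) i
    have h2 : (M : ℝ) * ‖(m : ℂ) - z i‖ = ‖cj z a i‖ ^ k * ‖cj z (fun i => e * b0 i) i‖ := by
      have h3 := congrArg norm h1
      rw [norm_mul, norm_mul, norm_pow] at h3
      rw [← h3]
      simp
    have h3 : ‖(m : ℂ) - z i‖ ≤ (1 + Z) * (|(m : ℝ)| + 1) := by
      have h4 : ‖z i‖ ≤ Z := Finset.single_le_sum (f := fun i => ‖z i‖)
        (fun i _ => norm_nonneg _) (Finset.mem_univ i)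
      calc ‖(m : ℂ) - z i‖ ≤ ‖(m : ℂ)‖ + ‖z i‖ := norm_sub_le _ _
        _ ≤ |(m : ℝ)| + Z := by rw [Complex.norm_intCast]; linarith
        _ ≤ (1 + Z) * (|(m : ℝ)| + 1) := by
            have : 0 ≤ |(m : ℝ)| := abs_nonneg _
            nlinarith
    have h4 : A ^ k ≤ ‖cj z a i‖ ^ k * (K ^ (F.natDegree - 1)) ^ k := by
      rw [← mul_pow]
      refine pow_le_pow_left₀ hA0.le ?_ k
      have := hlow i
      rw [div_le_iff₀ (by positivity)] at this
      exact this
    rw [le_div_iff₀ (by positivity)]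
    calc ‖cj z (fun i => e * b0 i) i‖ * A ^ k
        ≤ ‖cj z (fun i => e * b0 i) i‖ * (‖cj z a i‖ ^ k * (K ^ (F.natDegree - 1)) ^ k) :=
          mul_le_mul_of_nonneg_left h4 (norm_nonneg _)
      _ = (‖cj z a i‖ ^ k * ‖cj z (fun i => e * b0 i) i‖) * (K ^ (F.natDegree - 1)) ^ k := by ring
      _ = (M : ℝ) * ‖(m : ℂ) - z i‖ * (K ^ (F.natDegree - 1)) ^ k := by rw [← h2]
      _ ≤ (M : ℝ) * ((1 + Z) * (|(m : ℝ)| + 1)) * (K ^ (F.natDegree - 1)) ^ k := by gcongr
      _ = T * (|(m : ℝ)| + 1) := by rw [hT]; ring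
  refine ⟨a, fun i => e * b0 i, c, ha0, haA, hadv, hc0, ?_, hc, hbeta, ?_, ?_, ?_, ?_⟩
  · have h1 : |(c : ℝ)| ≤ C := le_trans hcC hCd
    exact_mod_cast h1
  · intro i
    refine le_trans ?_ (hlow i)
    exact div_le_div_of_nonneg_left hA0.le (by positivity) hCd1
  · intro i
    exact le_trans (hup i) (mul_le_mul_of_nonneg_right hCK hA0.le)
  · intro i
    refine le_trans (hbup i) ?_
    have : 0 ≤ |(m : ℝ)| := abs_nonneg _
    gcongr
  · intro i
    have h1 := hco (fun i => e * b0 i) _ hbup i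
    refine le_trans h1 ?_
    have : 0 ≤ |(m : ℝ)| := abs_nonneg _
    calc C2 * (T * (|(m : ℝ)| + 1) / A ^ k) = C2 * T * (|(m : ℝ)| + 1) / A ^ k := by ring
      _ ≤ C * (|(m : ℝ)| + 1) / A ^ k := by gcongr

end Crest.Agent.R022.Torsor
end

-- ▼ part R022/TorsorRed
section

/-! Row 22, block T1 (helper250): reduction to a monic polynomial, fibres of `n ↦ α`. -/

set_option autoImplicit false

open Polynomial

namespace Crest.Agent.R022.Torsor

/-- The monic polynomial `F(x) = a₀^(d-1) f(x / a₀)`. -/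
noncomputable def mon (f : ℤ[X]) : ℤ[X] := integralNormalization f

theorem mon_natDegree (f : ℤ[X]) : (mon f).natDegree = f.natDegree :=
  natDegree_integralNormalization

theorem mon_monic {f : ℤ[X]} (hf : f ≠ 0) : (mon f).Monic := monic_integralNormalization hf

theorem mon_eval (f : ℤ[X]) (h : 1 ≤ f.natDegree) (n : ℤ) :
    (mon f).eval (f.leadingCoeff * n) = f.leadingCoeff ^ (f.natDegree - 1) * f.eval n := by
  unfold mon
  have := integralNormalization_eval₂_leadingCoeff_mul h (RingHom.id ℤ) n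
  simpa [Polynomial.eval₂_id] using this

theorem mon_irreducible {f : ℤ[X]} (hirr : Irreducible (f.map (Int.castRingHom ℚ))) :
    Irreducible (mon f) := by
  set g := f.map (Int.castRingHom ℚ) with hg
  have hf0 : f ≠ 0 := by
    rintro rfl
    simp [hg] at hirr
  have hg0 : g ≠ 0 := hirr.ne_zero
  have hdeg : 1 ≤ g.natDegree := Nat.pos_of_ne_zero (by
    intro h0
    exact hirr.not_isUnit (Polynomial.isUnit_iff_degree_eq_zero.mpr (by
      rw [Polynomial.degree_eq_natDegree hg0, h0]; rfl)))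
  have hlc : g.leadingCoeff ≠ 0 := Polynomial.leadingCoeff_ne_zero.mpr hg0
  have hlcf : (Int.castRingHom ℚ) f.leadingCoeff ≠ 0 := by
    simpa using hf0
  have hmap : (mon f).map (Int.castRingHom ℚ) = integralNormalization g :=
    (integralNormalization_map (Int.castRingHom ℚ) f hlcf).symm
  have hmon : (mon f).Monic := mon_monic hf0
  rw [Polynomial.IsPrimitive.Int.irreducible_iff_irreducible_map_cast hmon.isPrimitive, hmap]
  -- `(int. norm. g)(lc x) = lc^(d-1) g(x)`
  have hinv : Invertible g.leadingCoeff := invertibleOfNonzero hlc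
  have h1 : (integralNormalization g).comp (C g.leadingCoeff * X + C 0) =
      C (g.leadingCoeff ^ (g.natDegree - 1)) * g := by
    apply Polynomial.funext
    intro x
    rw [Polynomial.eval_comp]
    simp only [eval_add, eval_mul, eval_C, eval_X, add_zero]
    have := integralNormalization_eval₂_leadingCoeff_mul hdeg (RingHom.id ℚ) x
    simpa [Polynomial.eval₂_id] using this
  have h2 : Irreducible (algEquivCMulXAddC g.leadingCoeff 0 (integralNormalization g)) := by
    rw [algEquivCMulXAddC_apply, ← Polynomial.comp_eq_aeval, h1]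
    have hu : IsUnit (C (g.leadingCoeff ^ (g.natDegree - 1)) : ℚ[X]) :=
      Polynomial.isUnit_C.mpr (isUnit_iff_ne_zero.mpr (pow_ne_zero _ hlc))
    exact (irreducible_isUnit_mul hu).mpr hirr
  exact (MulEquiv.irreducible_iff (algEquivCMulXAddC g.leadingCoeff 0)).mp h2

/-- If `p ^ k ∣ f(n)` then `p ^ k ∣ F(a₀ n)`. -/
theorem mon_dvd (f : ℤ[X]) (h : 1 ≤ f.natDegree) (n q : ℤ) (hq : q ∣ f.eval n) :
    q ∣ (mon f).eval (f.leadingCoeff * n) := by
  rw [mon_eval f h]
  exact Dvd.dvd.mul_left hq _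

/-- The prime is determined by `α`. -/
theorem prime_unique {C : ℤ} {p p' : ℕ} (hp : p.Prime) (hp' : p'.Prime) (hC : C < p)
    {c c' : ℤ} (hc0' : c' ≠ 0) (hcC' : |c'| ≤ C) (h : (p : ℤ) * c = p' * c') : p = p' := by
  have h1 : (p : ℤ) ∣ p' * c' := ⟨c, h.symm⟩
  have hpi : Prime (p : ℤ) := Nat.prime_iff_prime_int.mp hp
  rcases hpi.dvd_or_dvd h1 with h2 | h2
  · have h3 : p ∣ p' := by exact_mod_cast h2
    exact (Nat.prime_dvd_prime_iff_eq hp hp').mp h3
  · exfalso
    have := Int.le_of_dvd (abs_pos.mpr hc0') ((dvd_abs _ _).mpr h2)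
    linarith

open Crest.NumberTheoryR in
/-- For a large prime `p > N` at most `d` integers `n ≤ N` satisfy `p ^ k ∣ f(n)`. -/
theorem card_prime_le (f : ℤ[X]) (hirr : Irreducible (f.map (Int.castRingHom ℚ))) :
    ∃ C : ℕ, ∀ N p k : ℕ, 1 ≤ k → p.Prime → C < p → N < p →
      ((Finset.Icc 1 N).filter (fun n : ℕ => (p : ℤ) ^ k ∣ f.eval (n : ℤ))).card ≤ f.natDegree := by
  obtain ⟨u, v, r, hr0, h⟩ := R22.SieveRed.exists_bezout f hirr
  refine ⟨r.natAbs, ?_⟩
  intro N p k hk hp hC hN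
  have hr : ¬ (p : ℤ) ∣ r := by
    intro h1
    have h2 := Nat.le_of_dvd (Int.natAbs_pos.mpr hr0) (Int.natCast_dvd.mp h1)
    omega
  have h1 := R22.SieveRed.rootCount_le f u v r h p k hp hk hr
  have h2 := R22.SieveRed.card_dvd_le f (p ^ k) N (pow_pos hp.pos _)
  have h3 : N / p ^ k = 0 := by
    refine Nat.div_eq_of_lt (lt_of_lt_of_le hN ?_)
    exact Nat.le_self_pow (by omega) p
  rw [h3, zero_add, mul_one] at h2
  have h4 : ((p ^ k : ℕ) : ℤ) = (p : ℤ) ^ k := by push_cast; rfl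
  rw [h4] at h2
  exact le_trans h2 h1

/-- **Fibres.** The map `n ↦ α(n)` is at most `d` to one. -/
theorem card_le_mul_card_image (f : ℤ[X]) (hirr : Irreducible (f.map (Int.castRingHom ℚ))) :
    ∃ C : ℕ, ∀ (N k : ℕ) (C' : ℤ) (s : Finset ℕ) {β : Type} [DecidableEq β] (v : ℕ → β)
      (nrm : β → ℤ) (pr : ℕ → ℕ) (cc : ℕ → ℤ), 1 ≤ k →
      (∀ n ∈ s, 1 ≤ n ∧ n ≤ N ∧ (pr n).Prime ∧ C < pr n ∧ C' < pr n ∧ N < pr n ∧
        (pr n : ℤ) ^ k ∣ f.eval (n : ℤ) ∧ nrm (v n) = pr n * cc n ∧ cc n ≠ 0 ∧ |cc n| ≤ C') →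
      s.card ≤ f.natDegree * (s.image v).card := by
  classical
  obtain ⟨C, hC⟩ := card_prime_le f hirr
  refine ⟨C, ?_⟩
  intro N k C' s β _ v nrm pr cc hk hs
  refine Finset.card_le_mul_card_image s f.natDegree ?_
  intro b hb
  obtain ⟨n0, hn0, rfl⟩ := Finset.mem_image.mp hb
  obtain ⟨h1, h2, h3, h4, h5, h6, h7, h8, h9, h10⟩ := hs n0 hn0
  refine le_trans (Finset.card_le_card ?_) (hC N (pr n0) k hk h3 h4 h6)
  intro n hn
  rw [Finset.mem_filter] at hn
  obtain ⟨g1, g2, g3, g4, g5, g6, g7, g8, g9, g10⟩ := hs n hn.1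
  have hpp : pr n0 = pr n := by
    refine prime_unique h3 g3 h5 g9 g10 ?_ (c := cc n0)
    rw [← h8, ← g8, hn.2]
  rw [Finset.mem_filter, Finset.mem_Icc]
  exact ⟨⟨g1, g2⟩, by rw [hpp]; exact g7⟩

end Crest.Agent.R022.Torsor
end

-- ▼ part R022/TorsorSlice
section

/-! Row 22, block T1 (helper250): slices. The first `r` coordinates of `a` are free (`t : Fin r → ℤ`), the
others are fixed (`a0`). Norm and coordinates of `β` are given by explicit polynomials in `t`. -/

set_option autoImplicit false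

open Matrix

namespace Crest.Agent.R022.Torsor

open Polynomial (Monic)

/-- vector with free first `r` coordinates -/
def emb {d : ℕ} (r : ℕ) (a0 : Fin d → ℤ) (t : Fin r → ℤ) : Fin d → ℤ :=
  fun i => if h : (i : ℕ) < r then t ⟨i, h⟩ else a0 i


/-- the generic coordinate -/
noncomputable def embP {d : ℕ} (r : ℕ) (a0 : Fin d → ℤ) : Fin d → MvPolynomial (Fin r) ℤ :=
  fun i => if h : (i : ℕ) < r then MvPolynomial.X ⟨i, h⟩ else MvPolynomial.C (a0 i)

theorem eval_embP {d : ℕ} (r : ℕ) (a0 : Fin d → ℤ) (t : Fin r → ℤ) (i) :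
    MvPolynomial.eval t (embP r a0 i) = emb r a0 t i := by
  unfold embP emb
  split_ifs <;> simp

section alg
variable {F : Polynomial ℤ} (hF : F.Monic)

/-- the generic multiplication matrix on a slice -/
noncomputable def Lgen (r : ℕ) (a0 : Fin F.natDegree → ℤ) :
    Matrix (Fin F.natDegree) (Fin F.natDegree) (MvPolynomial (Fin r) ℤ) :=
  ∑ l, embP r a0 l • (lm hF (bas hF l)).map MvPolynomial.C

theorem lm_el (a : Fin F.natDegree → ℤ) : lm hF (el F a) = ∑ l, a l • lm hF (bas hF l) := by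
  rw [el_eq hF]
  unfold lm
  rw [map_sum]
  refine Finset.sum_congr rfl fun l _ => ?_
  rw [map_zsmul]

theorem Lgen_eval (r : ℕ) (a0 : Fin F.natDegree → ℤ) (t : Fin r → ℤ) :
    (Lgen hF r a0).map (MvPolynomial.eval t) = lm hF (el F (emb r a0 t)) := by
  rw [lm_el]
  unfold Lgen
  ext i j
  simp only [Matrix.map_apply, Matrix.sum_apply, Matrix.smul_apply, smul_eq_mul, map_sum, map_mul,
    eval_embP, MvPolynomial.eval_C]

/-- the norm form on a slice -/
noncomputable def Nf (r : ℕ) (a0 : Fin F.natDegree → ℤ) : MvPolynomial (Fin r) ℤ :=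
  (Lgen hF r a0).det

theorem Nf_eval (r : ℕ) (a0 : Fin F.natDegree → ℤ) (t : Fin r → ℤ) :
    MvPolynomial.eval t (Nf hF r a0) = nm hF (el F (emb r a0 t)) := by
  unfold Nf nm
  rw [RingHom.map_det, ← Lgen_eval]
  rfl

/-- coordinates of `(star α) ^ k * y` on a slice -/
noncomputable def Sf (r : ℕ) (a0 : Fin F.natDegree → ℤ) (k : ℕ) (y : AdjoinRoot F) :
    Fin F.natDegree → MvPolynomial (Fin r) ℤ :=
  (Lgen hF r a0).adjugate ^ k *ᵥ (fun i => MvPolynomial.C ((bas hF).repr y i))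

theorem Sf_eval (r : ℕ) (a0 : Fin F.natDegree → ℤ) (k : ℕ) (y : AdjoinRoot F) (t : Fin r → ℤ) (l) :
    MvPolynomial.eval t (Sf hF r a0 k y l) =
      ((lm hF (el F (emb r a0 t))).adjugate ^ k *ᵥ (fun i => (bas hF).repr y i)) l := by
  unfold Sf
  have h1 : ((Lgen hF r a0).adjugate ^ k).map (MvPolynomial.eval t) =
      (lm hF (el F (emb r a0 t))).adjugate ^ k := by
    rw [← Lgen_eval, ← RingHom.mapMatrix_apply, map_pow, RingHom.map_adjugate]
    rfl
  rw [← h1]
  simp [Matrix.mulVec, dotProduct]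

/-- The coordinates of `β` on a slice: `b_l * N(t)^k = M (m A_l(t) - B_l(t))`. -/
theorem coord_eq (k : ℕ) (M m : ℤ) (a b : Fin F.natDegree → ℤ)
    (h : (M : AdjoinRoot F) * ((m : AdjoinRoot F) - AdjoinRoot.root F) = el F a ^ k * el F b) (l) :
    b l * (nm hF (el F a)) ^ k = M * (m * ((lm hF (el F a)).adjugate ^ k *ᵥ
      (fun i => (bas hF).repr 1 i)) l - ((lm hF (el F a)).adjugate ^ k *ᵥ
      (fun i => (bas hF).repr (AdjoinRoot.root F) i)) l) := by
  -- coordinates of both sides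
  have hpow : ∀ j : ℕ, ∀ y : AdjoinRoot F,
      (fun i => (bas hF).repr (el F a ^ j * y) i) = lm hF (el F a) ^ j *ᵥ (fun i => (bas hF).repr y i) := by
    intro j
    induction j with
    | zero => intro y; simp
    | succ j ih =>
      intro y
      rw [pow_succ, mul_assoc, ih, pow_succ, ← Matrix.mulVec_mulVec, lm_mulVec]
  have h1 : (fun i => (bas hF).repr ((M : AdjoinRoot F) * ((m : AdjoinRoot F) - AdjoinRoot.root F)) i)
      = M • (m • (fun i => (bas hF).repr 1 i) - (fun i => (bas hF).repr (AdjoinRoot.root F) i)) := by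
    have : (M : AdjoinRoot F) * ((m : AdjoinRoot F) - AdjoinRoot.root F) =
        M • (m • (1 : AdjoinRoot F) - AdjoinRoot.root F) := by
      rw [zsmul_eq_mul, zsmul_eq_mul, mul_one]
    rw [this]
    funext i
    rw [map_zsmul, map_sub, map_zsmul]
    simp
  have h2 : M • (m • (fun i => (bas hF).repr 1 i) - (fun i => (bas hF).repr (AdjoinRoot.root F) i))
      = lm hF (el F a) ^ k *ᵥ b := by
    rw [← h1, h, hpow]
    congr 1
    funext i
    exact repr_el hF b i
  have h3 : (lm hF (el F a)).adjugate ^ k * lm hF (el F a) ^ k = (nm hF (el F a)) ^ k • (1 : Matrix _ _ ℤ) := by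
    have hc : Commute (lm hF (el F a)).adjugate (lm hF (el F a)) := by
      unfold Commute SemiconjBy
      rw [Matrix.adjugate_mul, Matrix.mul_adjugate]
    rw [← hc.mul_pow, Matrix.adjugate_mul, smul_pow, one_pow]
    rfl
  have h4 := congrArg (fun v => ((lm hF (el F a)).adjugate ^ k *ᵥ v) l) h2
  simp only [Matrix.mulVec_mulVec, h3, Matrix.smul_mulVec, Matrix.one_mulVec, Matrix.mulVec_smul,
    Matrix.mulVec_sub, Pi.smul_apply, Pi.sub_apply, smul_eq_mul] at h4
  rw [mul_comm]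
  exact h4.symm

theorem coord_eq_slice (r : ℕ) (a0 : Fin F.natDegree → ℤ) (t : Fin r → ℤ) (k : ℕ) (M m : ℤ)
    (b : Fin F.natDegree → ℤ)
    (h : (M : AdjoinRoot F) * ((m : AdjoinRoot F) - AdjoinRoot.root F) =
      el F (emb r a0 t) ^ k * el F b) (l) :
    b l * (MvPolynomial.eval t (Nf hF r a0)) ^ k = M * (m * MvPolynomial.eval t (Sf hF r a0 k 1 l) -
      MvPolynomial.eval t (Sf hF r a0 k (AdjoinRoot.root F) l)) := by
  rw [Nf_eval, Sf_eval, Sf_eval]
  exact coord_eq hF k M m _ b h l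

end alg

end Crest.Agent.R022.Torsor
end

-- ▼ part R022/TorsorForm

/-! Row 22, block T1 (helper250): factorisation over `ℂ` of the slice polynomials into the linear
forms `α_i(t)`. -/

set_option autoImplicit false

open Matrix

namespace Crest.Agent.R022.Torsor

open Polynomial (Monic)

/-- the linear form `α_i` on a slice -/
noncomputable def aP {d : ℕ} (z : Fin d → ℂ) (r : ℕ) (a0 : Fin d → ℤ) (i : Fin d) :
    MvPolynomial (Fin r) ℂ :=
  ∑ j : Fin d, MvPolynomial.C (z i ^ (j : ℕ)) * MvPolynomial.map (Int.castRingHom ℂ) (embP r a0 j)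

theorem eval_map_int {r : ℕ} (P : MvPolynomial (Fin r) ℤ) (t : Fin r → ℤ) :
    MvPolynomial.eval (fun j => (t j : ℂ)) (MvPolynomial.map (Int.castRingHom ℂ) P) =
      ((MvPolynomial.eval t P : ℤ) : ℂ) := by
  rw [MvPolynomial.eval_map]
  exact (MvPolynomial.eval₂_comp (Int.castRingHom ℂ) t P).symm

theorem eval_aP {d : ℕ} (z : Fin d → ℂ) (r : ℕ) (a0 : Fin d → ℤ) (i : Fin d) (t : Fin r → ℤ) :
    MvPolynomial.eval (fun j => (t j : ℂ)) (aP z r a0 i) = cj z (emb r a0 t) i := by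
  unfold aP cj
  rw [map_sum]
  refine Finset.sum_congr rfl fun j _ => ?_
  rw [map_mul, MvPolynomial.eval_C, eval_map_int, eval_embP, mul_comm]

/-- explicit form of `α_i` : `∑_{j<r} z_i^j t_j + const`. -/
theorem aP_eq {d : ℕ} (z : Fin d → ℂ) (r : ℕ) (hr : r ≤ d) (a0 : Fin d → ℤ) (i : Fin d) :
    aP z r a0 i = (∑ j : Fin r, MvPolynomial.C (z i ^ (j : ℕ)) * MvPolynomial.X j) +
      MvPolynomial.C (∑ j : Fin d, if (j : ℕ) < r then 0 else (a0 j : ℂ) * z i ^ (j : ℕ)) := by
  classical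
  unfold aP
  have h1 : ∀ j : Fin d, MvPolynomial.C (z i ^ (j : ℕ)) *
      MvPolynomial.map (Int.castRingHom ℂ) (embP r a0 j) =
      (if h : (j : ℕ) < r then MvPolynomial.C (z i ^ (j : ℕ)) * MvPolynomial.X ⟨j, h⟩ else 0) +
      MvPolynomial.C (if (j : ℕ) < r then 0 else (a0 j : ℂ) * z i ^ (j : ℕ)) := by
    intro j
    unfold embP
    by_cases h : (j : ℕ) < r
    · simp [h]
    · simp [h, mul_comm]
  rw [Finset.sum_congr rfl fun j _ => h1 j, Finset.sum_add_distrib, ← map_sum]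
  congr 1
  -- reindex
  let e : Fin r → Fin d := Fin.castLE hr
  have he : Function.Injective e := Fin.castLE_injective hr
  have h2 : ∑ j : Fin r, MvPolynomial.C (z i ^ (j : ℕ)) * MvPolynomial.X j =
      ∑ j : Fin r, (fun j : Fin d => if h : (j : ℕ) < r then
        MvPolynomial.C (z i ^ (j : ℕ)) * (MvPolynomial.X ⟨j, h⟩ : MvPolynomial (Fin r) ℂ) else 0) (e j) := by
    refine Finset.sum_congr rfl fun j _ => ?_
    have : ((e j : Fin d) : ℕ) < r := j.2
    simp [this, e]
  rw [h2, ← Finset.sum_image (f := fun j : Fin d => if h : (j : ℕ) < r then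
        MvPolynomial.C (z i ^ (j : ℕ)) * (MvPolynomial.X ⟨j, h⟩ : MvPolynomial (Fin r) ℂ) else 0)
        (s := Finset.univ) (g := e) (fun a _ b _ h => he h)]
  symm
  refine Finset.sum_subset (Finset.subset_univ _) ?_
  intro j _ hj
  rw [dif_neg]
  intro h
  apply hj
  rw [Finset.mem_image]
  exact ⟨⟨j, h⟩, Finset.mem_univ _, by apply Fin.ext; simp [e]⟩

section alg
variable {F : Polynomial ℤ} (hF : F.Monic)

/-- the Vandermonde matrix over the polynomial ring -/
noncomputable def VP {d : ℕ} (z : Fin d → ℂ) (r : ℕ) : Matrix (Fin d) (Fin d) (MvPolynomial (Fin r) ℂ) :=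
  (Matrix.vandermonde z).map MvPolynomial.C

noncomputable def WP {d : ℕ} (z : Fin d → ℂ) (r : ℕ) : Matrix (Fin d) (Fin d) (MvPolynomial (Fin r) ℂ) :=
  ((Matrix.vandermonde z)⁻¹).map MvPolynomial.C

theorem VP_mul_WP {d : ℕ} (z : Fin d → ℂ) (hinj : Function.Injective z) (r : ℕ) :
    VP z r * WP z r = 1 := by
  have hdet : (Matrix.vandermonde z).det ≠ 0 := Matrix.det_vandermonde_ne_zero_iff.mpr hinj
  have hunit : IsUnit (Matrix.vandermonde z).det := isUnit_iff_ne_zero.mpr hdet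
  unfold VP WP
  rw [← Matrix.map_mul, Matrix.mul_nonsing_inv _ hunit]
  exact Matrix.map_one _ (map_zero _) (map_one _)

theorem WP_mul_VP {d : ℕ} (z : Fin d → ℂ) (hinj : Function.Injective z) (r : ℕ) :
    WP z r * VP z r = 1 := by
  have hdet : (Matrix.vandermonde z).det ≠ 0 := Matrix.det_vandermonde_ne_zero_iff.mpr hinj
  have hunit : IsUnit (Matrix.vandermonde z).det := isUnit_iff_ne_zero.mpr hdet
  unfold VP WP
  rw [← Matrix.map_mul, Matrix.nonsing_inv_mul _ hunit]
  exact Matrix.map_one _ (map_zero _) (map_one _)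

/-- Vandermonde diagonalises multiplication matrices. -/
theorem vander_mul_lm (z : Fin F.natDegree → ℂ) (hz : ∀ i, F.eval₂ (Int.castRingHom ℂ) (z i) = 0)
    (x : AdjoinRoot F) :
    Matrix.vandermonde z * (lm hF x).map (Int.castRingHom ℂ) =
      Matrix.diagonal (fun i => ev F (z i) (hz i) x) * Matrix.vandermonde z := by
  ext i j
  rw [Matrix.mul_apply, Matrix.diagonal_mul]
  have h2 : ev F (z i) (hz i) (x * bas hF j) = ev F (z i) (hz i) x * z i ^ (j : ℕ) := by
    rw [map_mul, bas_apply, map_pow, ev_root]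
  have h3 : (fun i => (bas hF).repr (x * bas hF j) i) = fun i => lm hF x i j := by
    have h4 := lm_mulVec hF x (bas hF j)
    rw [← h4]
    funext i
    simp [Matrix.mulVec, dotProduct, Finsupp.single_apply]
  rw [hom_repr hF, ev_root] at h2
  simp only [Matrix.vandermonde_apply]
  rw [← h2]
  refine Finset.sum_congr rfl fun l _ => ?_
  have h5 : (bas hF).repr (x * bas hF j) l = lm hF x l j := congrFun h3 l
  rw [h5]
  simp [mul_comm]

/-- over the polynomial ring -/
theorem VP_mul_Lgen (z : Fin F.natDegree → ℂ) (hz : ∀ i, F.eval₂ (Int.castRingHom ℂ) (z i) = 0)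
    (r : ℕ) (a0 : Fin F.natDegree → ℤ) :
    VP z r * (Lgen hF r a0).map (MvPolynomial.map (Int.castRingHom ℂ)) =
      Matrix.diagonal (aP z r a0) * VP z r := by
  have h1 : (Lgen hF r a0).map (MvPolynomial.map (Int.castRingHom ℂ)) =
      ∑ l, (MvPolynomial.map (Int.castRingHom ℂ) (embP r a0 l)) •
        ((lm hF (bas hF l)).map (Int.castRingHom ℂ)).map MvPolynomial.C := by
    unfold Lgen
    ext i j
    simp only [Matrix.map_apply, Matrix.sum_apply, Matrix.smul_apply, smul_eq_mul, map_sum, map_mul,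
      MvPolynomial.map_C]
  rw [h1, Finset.mul_sum]
  have h2 : ∀ l : Fin F.natDegree, VP z r * (MvPolynomial.map (Int.castRingHom ℂ) (embP r a0 l)) •
        ((lm hF (bas hF l)).map (Int.castRingHom ℂ)).map MvPolynomial.C =
      Matrix.diagonal (fun i => MvPolynomial.C (z i ^ (l : ℕ)) *
        MvPolynomial.map (Int.castRingHom ℂ) (embP r a0 l)) * VP z r := by
    intro l
    unfold VP
    rw [Matrix.mul_smul, ← Matrix.map_mul, vander_mul_lm hF z hz]
    ext i j
    rw [Matrix.smul_apply, Matrix.map_apply, Matrix.diagonal_mul, Matrix.diagonal_mul,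
      Matrix.map_apply, bas_apply, map_pow, ev_root, map_mul, smul_eq_mul]
    ring
  rw [Finset.sum_congr rfl fun l _ => h2 l, ← Finset.sum_mul]
  congr 1
  ext i j
  rw [Matrix.sum_apply]
  by_cases hij : i = j
  · subst hij
    simp [aP]
  · simp [Matrix.diagonal_apply_ne _ hij]

/-- The norm form is the product of the linear forms. -/
theorem map_Nf (z : Fin F.natDegree → ℂ) (hinj : Function.Injective z)
    (hz : ∀ i, F.eval₂ (Int.castRingHom ℂ) (z i) = 0) (r : ℕ) (a0 : Fin F.natDegree → ℤ) :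
    MvPolynomial.map (Int.castRingHom ℂ) (Nf hF r a0) = ∏ i, aP z r a0 i := by
  have h1 := congrArg Matrix.det (VP_mul_Lgen hF z hz r a0)
  rw [Matrix.det_mul, Matrix.det_mul, Matrix.det_diagonal, mul_comm] at h1
  have h2 : (VP z r).det * (WP z r).det = 1 := by
    rw [← Matrix.det_mul, VP_mul_WP z hinj, Matrix.det_one]
  have h3 := congrArg (· * (WP z r).det) h1
  simp only [mul_assoc, h2, mul_one] at h3
  rw [← h3]
  unfold Nf
  rw [RingHom.map_det]
  rfl

/-- The product of the other linear forms. -/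
noncomputable def coP {d : ℕ} (z : Fin d → ℂ) (r : ℕ) (a0 : Fin d → ℤ) (i : Fin d) :
    MvPolynomial (Fin r) ℂ := ∏ j ∈ Finset.univ.erase i, aP z r a0 j


/-- The coordinates of `(star α)^k y` as combination of the `∏_{j≠i} α_j^k`. -/
theorem map_Sf (z : Fin F.natDegree → ℂ) (hinj : Function.Injective z)
    (hz : ∀ i, F.eval₂ (Int.castRingHom ℂ) (z i) = 0) (r : ℕ) (a0 : Fin F.natDegree → ℤ) (k : ℕ)
    (y : AdjoinRoot F) (l) :
    MvPolynomial.map (Int.castRingHom ℂ) (Sf hF r a0 k y l) =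
      ∑ i, MvPolynomial.C ((Matrix.vandermonde z)⁻¹ l i * ev F (z i) (hz i) y) *
        coP z r a0 i ^ k := by
  set φ := MvPolynomial.map (σ := Fin r) (Int.castRingHom ℂ) with hφ
  set L' := (Lgen hF r a0).map φ with hL'
  have hVL : VP z r * L' = Matrix.diagonal (aP z r a0) * VP z r := VP_mul_Lgen hF z hz r a0
  have hL : L' = WP z r * (Matrix.diagonal (aP z r a0) * VP z r) := by
    rw [← hVL, ← Matrix.mul_assoc, WP_mul_VP z hinj, Matrix.one_mul]
  have hdetVW : (VP z r).det * (WP z r).det = 1 := by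
    rw [← Matrix.det_mul, VP_mul_WP z hinj, Matrix.det_one]
  have hadjW : (WP z r).adjugate = (WP z r).det • VP z r := by
    have h := congrArg (fun Q => Q * VP z r) (Matrix.adjugate_mul (WP z r))
    simp only [Matrix.mul_assoc, WP_mul_VP z hinj, Matrix.mul_one, Matrix.smul_mul,
      Matrix.one_mul] at h
    exact h
  have hadjV : (VP z r).adjugate = (VP z r).det • WP z r := by
    have h := congrArg (fun Q => Q * WP z r) (Matrix.adjugate_mul (VP z r))
    simp only [Matrix.mul_assoc, VP_mul_WP z hinj, Matrix.mul_one, Matrix.smul_mul,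
      Matrix.one_mul] at h
    exact h
  have hadj : L'.adjugate = WP z r * (Matrix.diagonal (coP z r a0) * VP z r) := by
    rw [hL, Matrix.adjugate_mul_distrib, Matrix.adjugate_mul_distrib, hadjW, hadjV,
      Matrix.adjugate_diagonal, Matrix.smul_mul, Matrix.smul_mul, Matrix.mul_smul, smul_smul,
      hdetVW, one_smul, Matrix.mul_assoc]
    rfl
  have hpow : ∀ k : ℕ, L'.adjugate ^ k =
      WP z r * (Matrix.diagonal (fun i => coP z r a0 i ^ k) * VP z r) := by
    intro k
    induction k with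
    | zero => simp [WP_mul_VP z hinj]
    | succ k ih =>
      rw [pow_succ, ih, hadj]
      calc WP z r * (diagonal (fun i => coP z r a0 i ^ k) * VP z r) *
          (WP z r * (diagonal (coP z r a0) * VP z r))
          = WP z r * (diagonal (fun i => coP z r a0 i ^ k) * (VP z r * WP z r) *
            (diagonal (coP z r a0) * VP z r)) := by simp only [Matrix.mul_assoc]
        _ = WP z r * (diagonal (fun i => coP z r a0 i ^ (k + 1)) * VP z r) := by
            rw [VP_mul_WP z hinj, Matrix.mul_one, ← Matrix.mul_assoc (diagonal _) (diagonal _),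
              Matrix.diagonal_mul_diagonal]
            congr 3
  have hS : ∀ l, φ (Sf hF r a0 k y l) =
      (L'.adjugate ^ k *ᵥ (fun i => MvPolynomial.C (((bas hF).repr y i : ℤ) : ℂ))) l := by
    intro l
    unfold Sf
    have h1 : ((Lgen hF r a0).adjugate ^ k).map φ = L'.adjugate ^ k := by
      rw [hL', ← RingHom.mapMatrix_apply, map_pow, RingHom.map_adjugate]
      rfl
    rw [← h1]
    simp [Matrix.mulVec, dotProduct, hφ]
  rw [hS, hpow, ← Matrix.mulVec_mulVec, ← Matrix.mulVec_mulVec]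
  have hV : VP z r *ᵥ (fun i => MvPolynomial.C (((bas hF).repr y i : ℤ) : ℂ)) =
      fun i => MvPolynomial.C (ev F (z i) (hz i) y) := by
    funext i
    rw [hom_repr hF, ev_root, map_sum]
    simp only [Matrix.mulVec, dotProduct, VP, Matrix.map_apply, Matrix.vandermonde_apply]
    refine Finset.sum_congr rfl fun j _ => ?_
    rw [← map_mul, mul_comm]
  rw [hV]
  have hD : Matrix.diagonal (fun i => coP z r a0 i ^ k) *ᵥ
      (fun i => (MvPolynomial.C (ev F (z i) (hz i) y) : MvPolynomial (Fin r) ℂ)) =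
      fun i => coP z r a0 i ^ k * MvPolynomial.C (ev F (z i) (hz i) y) := by
    funext i
    rw [Matrix.mulVec_diagonal]
  rw [hD]
  unfold WP
  simp only [Matrix.mulVec, dotProduct, Matrix.map_apply]
  refine Finset.sum_congr rfl fun i _ => ?_
  rw [map_mul]
  ring

end alg

end Crest.Agent.R022.Torsor
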